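import Crest.Agent.X212.Sid48.Chg

/-!
# Row 212, layer G (helper55): the axioms of the counting theory, with the numerical hypothesis cell by cell
-/

set_option autoImplicit false
set_option linter.unusedSectionVars false
noncomputable section
open Set

namespace Crest.Agent.X212.Br55
open M G75

variable {κ lam : Type} [Fintype κ] [Fintype lam] [DecidableEq lam] {Lm : LM κ lam}

/-- the numerical hypothesis at one cell -/
def NC (S : Scene Lm) (i : S.L) (σ : Finset S.A) : Prop :=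
  ∀ c ⊆ σ, (∀ a ∈ c, S.M.pin a) → Sid48.NumAt S i σ c

/-- the numerical hypothesis on the support of a chain -/
def NS (S : Scene Lm) (c : Cn S.L S.A) : Prop := ∀ i σ, c i σ ≠ 0 → NC S i σ

/-- good closed chains -/
structure CN (S : Scene Lm) (d : ℕ) (c : Cn S.L S.A) : Prop where
  ok : S.OK
  cl : S.Cl d c
  ns : NS S c

/-- `Rf65.RN` -/
def RN (S : Scene Lm) (i : S.L) (S' : Scene Lm) (i' : S'.L) : Prop :=
  ∀ β sg l2 β' sg' l2', S.Nb i univ β sg l2 → S'.Nb i' univ β' sg' l2' →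
    β = β' + 1 ∧ l2 - sg = l2' - sg' + 1 + ((S.ls.card : ℝ) - S'.ls.card)

/-- **what layer AN delivers** -/
structure AxB (T : Th Lm) : Prop where
  add : ∀ (S : Scene Lm) j d c c', CN S d c → CN S d c' → T.Z S j d (c + c') = T.Z S j d c + T.Z S j d c'
  stk : ∀ (S : Scene Lm) j d e, S.Sf (d + 1) e → NS S e → CN S d e.bd → T.Z S j d e.bd = 0
  nat : ∀ (S S' : Scene Lm) (m : Mt S S' univ) j d c, m.I.Glob → CN S d (m.l ∅ c) → CN S' d (m.r c) →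
    T.Z S j d (m.l ∅ c) = T.Z S' j d (m.r c)
  rf : ∀ (S S' : Scene Lm) (R e e' : S.A) (m : Mt S S' (hf S.M R true)) (R₀ : m.A₀) j d c,
    m.I.f R₀ = R → m.I.ψ '' hf S.M R true = hf S'.M (m.I.f' R₀) true →
    (∀ a ∈ S'.fz, ∃ a₀, m.I.f' a₀ = a ∧ m.I.f a₀ ∈ S.fz) → CN S' d (m.r c) →
    (∀ i σ, c i σ ≠ 0 → R₀ ∉ σ ∧
      (σ.map m.I.f ∪ {R, e} ∈ S.K (m.ι i) ∧ NC S (m.ι i) (σ.map m.I.f ∪ {R, e})) ∧
      (σ.map m.I.f ∪ {R, e'} ∈ S.K (m.ι i) ∧ NC S (m.ι i) (σ.map m.I.f ∪ {R, e'})) ∧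
      (σ.map m.I.f' ∪ {m.I.f' R₀} ∈ S'.K (m.ι' i) ∧ NC S' (m.ι' i) (σ.map m.I.f' ∪ {m.I.f' R₀})) ∧
      T.RS S (m.ι i) R e e' ∧ T.DS S' (m.ι' i) (m.I.f' R₀) ∧ RN S (m.ι i) S' (m.ι' i)) →
    CN S (d + 1) (m.l {e} c + m.l {e'} c) →
    T.Z S j (d + 1) (m.l {e} c + m.l {e'} c) = T.Z S' j d (m.r c)
  fact : ∀ y : T.YD, ∃ R, ∀ (S : Scene Lm) j d c, T.Tm y R S c → CN S d c → T.Z S j d c = 0
  nv : ∀ (S : Scene Lm) i, T.NV S i → CN S 0 (Cn.gen i ∅) → ∃ j, T.Z S j 0 (Cn.gen i ∅) ≠ 0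

end Crest.Agent.X212.Br55
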