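import Crest.Agent.X212.Br55.Defs

/-!
# Row 212, layer G (helper55): the cells that occur, abelian points on their pieces
-/

set_option autoImplicit false
set_option linter.unusedSectionVars false
noncomputable section
open Set Function Filter

namespace Crest.Agent.X212.Br55
open M G75 Wd38 Nm96 Cyl58
open Sid48 (Trc)

variable {Γ : Nm} {κ lam : Type} [Fintype κ] [Fintype lam] [DecidableEq lam]
  {C : Cx Γ} {G : Tab C.kd κ} {P : Pm Γ} (L : LP C G P lam)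

/-- pinch walls, lens walls, and at most one `S¹ × S²` wall with untwisted pinch walls inside -/
def Cel (ls : Finset Bs) (σ : Finset Wl) : Prop := ∀ a ∈ σ, a.b.pin ∨ IsL ls a ∨ ∃ x y, a = Bs.rA x y ∧
  ∀ b ∈ σ, b = a ∨ (b.b.pin ∧ b.tw = [] ∧ x < b.b.lo ∧ b.b.hi < y) ∨ b.Out x y ∧ b.b.Far (.rA x y)

theorem cel_sf {F : Fm Γ} {d : ℕ} {c : Nm96.Cn} (h : F.Sf d c) : ∀ p ∈ c.support, Cel F.ls p.2 :=
  fun p k a q => ((h.mem p k).2 a q).imp_right fun u => .inl u.symm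

theorem cel_rf {ls : Finset Bs} {σ τ : Finset Wl} {x y : ℤ}
    (h : ∀ a ∈ σ, (a.b.pin ∨ IsL ls a) ∧ (a = Bs.rA x y ∨ a.Out x y ∧ a.b.Far (.rA x y)))
    (k : ∀ a ∈ τ, a = Bs.rA x y ∨ a.b.pin ∧ a.tw = [] ∧ x < a.b.lo ∧ a.b.hi < y) : Cel ls (σ ∪ τ) := fun a q =>
  (Finset.mem_union.1 q).elim (fun u => (h a u).1.imp_right .inl) fun u => (k a u).elim
    (fun e => .inr (.inr ⟨x, y, e, fun b v => e ▸ (Finset.mem_union.1 v).elim (fun v => (h b v).2.imp_right .inr)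
      fun v => (k b v).imp_right .inl⟩)) fun e => .inl e.1

/-- `Pres`, with the whole cell `σ` traced -/
structure PresS {D : Dt Γ} (h : D.OK P) (μ : ℤ × ℤ) (i : D.L) (σ c : Finset D.A) (π : Reg D.A) (n : Wd38.Wt)
    (η : Bs → Bool) extends Pres L h μ i c π n η where
  trs : Trc (C.rz h.h0.w) (L.scn h μ).M.sys Φ (fun a => a.1.b) {a | a ∈ σ ∨ IsL (D.F.fz ∪ D.F.ls) a.1}
  jjs : ∀ a : D.A, a ∈ σ ∨ IsL (D.F.fz ∪ D.F.ls) a.1 → ∀ q,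
    Φ (((C.rz h.h0.w).nk a.1.b (h.ad _ a.2).1.1).j q) = ((L.scn h μ).M.bn a).j q
  okn : ∀ a ∈ σ, a.1.b.OKn D.F.w n
  far : ∀ a ∈ σ, ∀ b ∈ σ, a ≠ b → a.1.b.Far b.1.b
  fz : ∀ a ∈ σ, ∀ b ∈ D.F.fz, a.1.b.Far b
  ls : ∀ a ∈ σ, ∀ l ∈ D.F.ls, a.1.b = l ∨ Crs a.1.b l ∨ a.1.b.hi < l.lo - 1 ∨ l.hi + 1 < a.1.b.lo ∨
    (a.1.b.arc ∧ a.1.b.lo < l.lo ∧ l.hi < a.1.b.hi)

/-- BR-AB: abelian points; more walls outside the piece may be broken -/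
def AbS : Prop := ∀ {D : Dt Γ} (h : D.OK P) μ (i : D.L) (σ c c₀ : Finset D.A) π n η k₀,
  (L.scn h μ).OK → σ ∈ (L.scn h μ).K i → Cel D.F.ls (σ.map (.subtype _)) → c ⊆ σ → c ⊆ c₀ →
  (L.scn h μ).M.sys.Piece (↑c : Set D.A) π → (L.scn h μ).M.sys.Piece (↑c₀ : Set D.A) π →
  PresS L h μ i σ c π n η → ¬D.F.Fst (c.image fun a => a.1.b) η →
  (L.scn h μ).Ab i σ c₀ π fun k => k₀ ≤ k ∨ ∃ n', D.F.AbC n (c.image fun a => a.1.b) η n' k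

/-- BR-HG: a frozen `Y₀` with an odd order -/
def HgS : Prop := ∀ {D : Dt Γ} (h : D.OK P) μ (i : D.L) (σ c c₀ : Finset D.A) π n η k₀,
  (L.scn h μ).OK → σ ∈ (L.scn h μ).K i → Cel D.F.ls (σ.map (.subtype _)) → c ⊆ σ → c ⊆ c₀ →
  (L.scn h μ).M.sys.Piece (↑c : Set D.A) π → (L.scn h μ).M.sys.Piece (↑c₀ : Set D.A) π →
  PresS L h μ i σ c π n η → ¬D.F.Fst (c.image fun a => a.1.b) η →
  D.F.Hg n (c.image fun a => a.1.b) η → (L.scn h μ).Ab i σ c₀ π (k₀ ≤ ·)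

/-- BR-NUM for the cells that occur -/
def NumS (μ : ℕ → ℤ × ℤ) : Prop := ∀ {D : Dt Γ} (h : D.OK P) (i : D.L) (σ : Finset D.A),
  D.F.GC P i.1 (σ.map (.subtype _)) → Cel D.F.ls (σ.map (.subtype _)) →
  (∃ p ∈ D.s, p.1 = i.1 ∧ ∀ a ∈ σ, a.1 ∈ p.2) →
  ∀ᶠ k in atTop, ∀ c ⊆ σ, (∀ a ∈ c, a.1.b.pin) → Sid48.NumAt (L.scn h (μ k)) i σ c

end Crest.Agent.X212.Br55
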