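import Crest.Agent.X212.Br55.Mt
import Crest.Agent.X212.Br55.Cel

/-!
# Row 212, layer G (helper55): the limit theory, Stokes, frozen necks, twists, cancellation, the root
-/

set_option autoImplicit false
set_option linter.unusedSectionVars false
noncomputable section
open Function Filter Finset

namespace Crest.Agent.X212.Br55
open Wd38 Nm96 Nm96.Cn
open G75 (Th)

variable {Γ : Nm} {κ lam : Type} [Fintype κ] [Fintype lam] [DecidableEq lam] {C : Cx Γ} {G : Tab C.kd κ}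
  {P : Pm Γ} {L : LP C G P lam} {T : Th L.Lm} {μ : ℕ → ℤ × ℤ} {D D' : Dt Γ} {F : Fm Γ} {d d' : ℕ} {c c' : Cn}
  {n n' : Wt} {σ : Finset Wl} {w : Shp Γ} {x y : ℤ}

/-! ### words -/

theorem mem_mp' {g : Wt → Wt} {f : Wl → Wl} {Ls : Finset Wt} {A : Finset Wl}
    (s : ∀ p ∈ c.support, p.1 ∈ Ls ∧ p.2 ⊆ A) (hg : Set.InjOn g Ls) (hf : Set.InjOn f A) {p : Wt × Finset Wl}
    (hp : p ∈ c.support) : (g p.1, p.2.image f) ∈ (c.mp g f ∅).support := by
  have := Finsupp.mapDomain_apply' (f := fun p : Wt × Finset Wl => (g p.1, p.2.image f ∪ ∅)) c.support c subset_rfl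
    (fun a ha b hb e => Prod.ext (hg (s a ha).1 (s b hb).1 (congrArg (·.1) e)) ?_) hp
  · rw [Finsupp.mem_support_iff, ← union_empty (p.2.image f)]
    exact this.trans_ne (Finsupp.mem_support_iff.1 hp)
  · have e' : a.2.image f = b.2.image f := by simpa using congrArg (·.2) e
    exact coe_injective ((hf.image_eq_image_iff (s a ha).2 (s b hb).2).1 (by rw [← coe_image, e', coe_image]))

theorem ut_pops : ∀ {ts : List Tw} {S : Finset Wl} {a : Wl}, F.Pops ts S → a ∈ S → Ut ts (pops ts a) a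
  | [], _, a, _, _ => .nil a
  | t :: ts, S, a, h, k => by
    have ih := ut_pops h.2.2.2.2 (mem_image_of_mem (pop t) k)
    change Ut _ (pops ts (pop t a)) a
    by_cases e : a.tw.head? = some t
    · have : (pop t a).twist t = a := by
        rw [pop, if_pos e]
        exact congrArg (Wl.mk a.b) (List.eq_cons_of_mem_head? e).symm
      exact (congrArg (Ut _ _) this).mp (.use t ih)
    · have : pop t a = a := if_neg e
      rw [this] at ih ⊢
      exact .clr ih ((h.2.2.2.1 a k).resolve_left e)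

theorem pops_nil : ∀ (ts : List Tw) {a : Wl}, a.tw = [] → pops ts a = a
  | [], _, _ => rfl
  | t :: ts, a, h => by rw [pops, pop, if_neg (by simp [h]), pops_nil ts h]

theorem ut_nil : ∀ {ts : List Tw} {a : Wl}, a.tw = [] → (∀ t ∈ ts, t.Off a.b) → Ut ts a a
  | [], a, _, _ => .nil a
  | t :: _, _, h, k => .clr (ut_nil h fun s e => k s (List.mem_cons_of_mem _ e))
      ⟨k t List.mem_cons_self, fun _ e => by simp [h] at e⟩

theorem act_act (t : Tw) (w : Shp Γ) (n : Wt) : t.act w (t.act w n) = n := by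
  cases n
  simp only [Tw.act, if_neg (show ¬(t.x ≤ t.x - 1 ∧ t.x - 1 ≤ t.y) by omega),
    if_neg (show ¬(t.x ≤ t.y + 1 ∧ t.y + 1 ≤ t.y) by omega)]
  congr 1 <;> funext j <;> split_ifs <;> ring

theorem acts_inj (w : Shp Γ) : ∀ ts : List Tw, Injective (acts w ts)
  | [] => injective_id
  | t :: ts => (acts_inj w ts).comp (Involutive.injective (act_act t w))

theorem not_fz (h : F.GC P n σ) {a : Wl} (k : a ∈ σ) : a.b ∉ F.fz := fun e => by
  obtain ⟨_, -, -, q⟩ := h.tor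
  have r := q.fz _ (mem_image_of_mem _ k) _ e
  obtain ⟨z, s⟩ := (h.ok.fz _ e).2
  rw [s] at r
  simp [Bs.Far, Bs.lo, Bs.hi, Bs.arc] at r

theorem const_ord (h : n.OK w P.Λ) (h1 : w.l ≤ x) (h2 : y ≤ w.r) (e : ∀ j, x < j → j ≤ y → w.s j = .rod (w.s x).r)
    {j : ℤ} (a : x < j) (b : j ≤ y) : n.nl j = n.nr x ∧ (j < y → n.nr j = n.nr x) := by
  have key : ∀ j, x < j → j ≤ y → n.nr (j - 1) = n.nr x → n.nl j = n.nr x ∧ (j < y → n.nr j = n.nr x) :=
    fun j a b r => by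
      have k : n.nl j = n.nr x := r ▸ (h.eq j (by omega) (by omega) (by
        rw [Shp.lf, Shp.rt, e j a b]
        rcases (show x ≤ j - 1 by omega).eq_or_lt with s | s
        · rw [← s]; rfl
        · rw [e _ s (by omega)]; rfl)).symm
      exact ⟨k, fun s => (h.rod j _ (by omega) (by omega) (e j a b)).symm.trans k⟩
  induction j, a using Int.leInduction with
  | base => exact key _ (by omega) b (by simp)
  | succ j a ih => exact key _ (by omega) b (by rw [add_sub_cancel_right]; exact (ih (by omega)).2 b)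

theorem eq_of_rod (h : F.LOK P n) (h' : F.LOK P n') (h1 : F.w.l ≤ x) (h2 : y ≤ F.w.r)
    (e : ∀ j, x < j → j ≤ y → F.w.s j = .rod (F.w.s x).r) (k : ∀ j, j ≤ x ∨ y < j → n.nl j = n'.nl j)
    (k' : ∀ j, j ≤ x ∨ y ≤ j → n.nr j = n'.nr j) : n = n' := by
  have e1 : n.nl = n'.nl := funext fun j => (em _).elim (k j) fun q => by
    rw [(const_ord h.ok h1 h2 e (by omega) (by omega)).1, (const_ord h'.ok h1 h2 e (by omega) (by omega)).1,
      k' x (.inl le_rfl)]
  have e2 : n.nr = n'.nr := funext fun j => (em _).elim (k' j) fun q => by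
    rw [(const_ord h.ok h1 h2 e (by omega) (by omega)).2 (by omega),
      (const_ord h'.ok h1 h2 e (by omega) (by omega)).2 (by omega), k' x (.inl le_rfl)]
  have e3 := h.mL.trans h'.mL.symm
  have e4 := h.mR.trans h'.mR.symm
  cases n; cases n'
  simp_all

theorem dt_cl (hF : F.OK P) (h : F.Sf d c) (g : ∀ p ∈ c.support, F.GC P p.1 p.2) : (dt F c.support).OK P :=
  dt_ok hF g (kfl_sf h) fun p e a k _ _ => nin_sf hF h p e a k _ _

theorem rt_ok (h : (f0 w ∅).GC P n ∅) : (rt w n).OK P :=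
  ⟨h.ok, by simp [rt], by simp [rt], by simp [rt], fun _ k => mem_singleton.1 k ▸ h.lok, by simp [rt],
    fun _ k => by rw [mem_singleton.1 k]; exact ⟨mem_singleton_self _, Subset.rfl, h⟩, by simp [rt], by simp [rt],
    by simp [rt]⟩

theorem cl_gen (h : (f0 w ∅).GC P n ∅) : (f0 w ∅).Cl P 0 (gen n ∅) :=
  (Fm.Pre.gen n).cl rfl fun _ k => by rw [mem_gen k]; exact h

/-! ### the limit -/

/-- the limit along the ultrafilter -/
def ul (f : ℕ → ZMod 2) : ZMod 2 := (Ultrafilter.eq_pure_of_finite ((hyperfilter ℕ).map f)).choose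

theorem ul_spec (f : ℕ → ZMod 2) : ∀ᶠ k in hyperfilter ℕ, f k = ul f := by
  have : {ul f} ∈ (hyperfilter ℕ).map f := by
    rw [(Ultrafilter.eq_pure_of_finite ((hyperfilter ℕ).map f)).choose_spec]
    exact Ultrafilter.mem_pure.2 rfl
  exact this

theorem ev_hf {p : ℕ → Prop} (h : ∀ᶠ k in atTop, p k) : ∀ᶠ k in hyperfilter ℕ, p k := Nat.hyperfilter_le_atTop h

variable (L T μ) in
/-- the leaves of the bridge -/
structure Lvs : Prop where
  ax : AxB T
  ok : OkStmt L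
  num : NumS L μ
  tw : TwStmt L
  can : CanStmt L
  sur : SurStmt L
  rt : RtStmt L
  rs : RsStmt L T.RS
  ds : DsStmt L T.DS
  rn : RnStmt L
  nv : NvStmt L μ T.NV

variable (T μ) (j : ℕ → ℕ)

/-- the counts -/
def zz (h : D.OK P) (d : ℕ) (c : Cn) (k : ℕ) : ZMod 2 := T.Z (L.scn h (μ k)) (j k) d (L.ch h (μ k) c)

open Classical in
/-- **the word theory** -/
def wth : WTh Γ where
  Z F d c := if H : ∃ D : Dt Γ, D.F = F ∧ D.OK P ∧ D.Sup c then ul (zz T μ j H.choose_spec.2.1 d c) else 0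
  YD := T.YD
  Tm y R F c := ∃ (D : Dt Γ) (h : D.OK P), D.F = F ∧ D.Sup c ∧
    ∀ᶠ k in hyperfilter ℕ, T.Tm y R (L.scn h (μ k)) (L.ch h (μ k) c)

variable {T μ j} (H : Lvs L T μ)

theorem z_neg (h : ¬F.OK P) : (wth T μ j).Z F d c = 0 := dif_neg fun ⟨_, e, k, _⟩ => h (e ▸ k.ok)

include H

theorem nc_ev (h : D.OK P) : ∀ᶠ k in atTop, ∀ (i : D.L) (σ : Finset D.A),
    D.F.GC P i.1 (σ.map (Embedding.subtype _)) → (∃ q ∈ D.s, q.1 = i.1 ∧ σ.map (Embedding.subtype _) ⊆ q.2) →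
    Cel D.F.ls (σ.map (Embedding.subtype _)) → σ ∈ (L.scn h (μ k)).K i ∧ NC (L.scn h (μ k)) i σ :=
  eventually_all.2 fun i => eventually_all.2 fun σ => eventually_imp_distrib_left.2 fun g =>
    eventually_imp_distrib_left.2 fun s => eventually_imp_distrib_left.2 fun t =>
      (H.num h i σ g t (mem_K L (μ := 0) h s)).mono fun _ k =>
        ⟨mem_K L h s, fun c a b => k c a fun e r => Bs.ty_sph.1 (b e r)⟩

theorem ns_ev (h : D.OK P) (s : D.Sup c) (f : D.F.Sf d c) (g : ∀ p ∈ c.support, D.F.GC P p.1 p.2) :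
    ∀ᶠ k in atTop, NS (L.scn h (μ k)) (L.ch h (μ k) c) := (nc_ev H h).mono fun _ k i σ e =>
  have e' := Finsupp.mem_support_iff.2 e
  (k i σ (g _ e') (s _ e') (cel_sf f _ e')).2

theorem cn_ev (h : D.OK P) (s : D.Sup c) (g : D.F.Cl P d c) :
    ∀ᶠ k in atTop, CN (L.scn h (μ k)) d (L.ch h (μ k) c) :=
  (ns_ev H h s g.toSf g.gd).mono fun _ k => ⟨H.ok h _, cl_ch L h s g.toSf g.bd, k⟩

theorem nat_ev (h : D.OK P) (h' : D'.OK P) {A₀ L₀ f f' g g' Dw} (q : Mp D D' A₀ L₀ f f' g g' Dw)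
    (m : ∀ ν, ∃ m : Mv L h.h0 h'.h0 ν g g' Dw Set.univ, m.Glob) (hl : D.F.ls ⊆ D'.F.ls)
    (s : ∀ p ∈ c.support, p.1 ∈ L₀ ∧ p.2 ⊆ A₀) (s1 : D.Sup (c.mp g f ∅)) (s2 : D'.Sup (c.mp g' f' ∅))
    (k1 : D.F.Cl P d (c.mp g f ∅)) (k2 : D'.F.Cl P d (c.mp g' f' ∅)) :
    ∀ᶠ k in atTop, zz T μ j h d (c.mp g f ∅) k = zz T μ j h' d (c.mp g' f' ∅) k := by
  filter_upwards [cn_ev H h s1 k1, cn_ev H h' s2 k2] with k a b
  obtain ⟨m, e⟩ := m (μ k)
  have r := fun (a : UW D.F.w D.F.ls) (z : IsL D.F.ls a.1) =>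
    iff_of_true (hl z.2) (Set.subset_univ (G75.hf (um G h.h0.w D.F.ls) a false))
  have e1 := q.ch_l h h' m r s ∅
  have e2 := q.ch_r h h' m r s
  have := H.ax.nat _ _ (q.mt h h' m r) (j k) d (q.ch h h' m r c) e (e1 ▸ a) (e2 ▸ b)
  exact (congrArg _ e1).symm.trans (this.trans (congrArg _ e2))

theorem nat_id {fz A A' Ls Ls' s s'} (h : Dt.OK P ⟨F, A, Ls, s⟩) (h' : Dt.OK P ⟨{ F with fz := fz }, A', Ls', s'⟩)
    (h1 : A ⊆ A') (h2 : Ls ⊆ Ls') (h3 : F.fz ⊆ fz) (s1 : Dt.Sup c ⟨F, A, Ls, s⟩)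
    (s2 : Dt.Sup c ⟨{ F with fz := fz }, A', Ls', s'⟩) (k1 : F.Cl P d c) (k2 : Fm.Cl P { F with fz := fz } d c) :
    ∀ᶠ k in atTop, zz T μ j h d c k = zz T μ j h' d c k := by
  have := nat_ev (j := j) H h h' (A₀ := A) (L₀ := Ls) (f := id) (f' := id) (g := id) (g' := id) (d := d) ⟨fun a k => ⟨k, h1 k, rfl⟩,
    Set.injOn_id _, Set.injOn_id _, fun a k => ⟨k, h2 k⟩, Set.injOn_id _, Set.injOn_id _,
    fun l k => ⟨h.ls l k, rfl, rfl, k⟩, fun l k n r => ⟨h.fl l k n r, rfl, rfl, rfl⟩,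
    fun b k => ⟨b, h.fz b k, rfl, rfl, h3 k⟩⟩ (fun ν => ⟨mvId L ν h.h0, mvId_glob L ν _⟩) Subset.rfl (s1.mem h)
    (by rwa [mp_id]) (by rwa [mp_id]) (by rwa [mp_id]) (by rwa [mp_id])
  rwa [mp_id] at this

theorem z_eq (h : D.OK P) (s : D.Sup c) (g : D.F.Cl P d c) :
    ∀ᶠ k in hyperfilter ℕ, zz T μ j h d c k = (wth T μ j).Z D.F d c := by
  classical
  have key : ∀ (D₀ : Dt Γ) (h₀ : D₀.OK P), D₀.F = D.F → D₀.Sup c →
      ∀ᶠ k in atTop, zz T μ j h d c k = zz T μ j h₀ d c k := by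
    rintro ⟨F, A, Ls, t⟩ h₀ (rfl : F = _) s₀
    have u : (D.un ⟨D.F, A, Ls, t⟩).Sup c := fun p e => (s p e).imp fun _ k => ⟨mem_union_left _ k.1, k.2⟩
    filter_upwards [nat_id (j := j) H h (h.un h₀ rfl) subset_union_left subset_union_left Subset.rfl s u g g,
      nat_id (j := j) H h₀ (h.un h₀ rfl) subset_union_right subset_union_right Subset.rfl s₀ u g g] with k a b
    exact a.trans b.symm
  have e : ∃ D₀ : Dt Γ, D₀.F = D.F ∧ D₀.OK P ∧ D₀.Sup c := ⟨D, rfl, h, s⟩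
  filter_upwards [ev_hf (key _ e.choose_spec.2.1 e.choose_spec.1 e.choose_spec.2.2),
    ul_spec (zz T μ j e.choose_spec.2.1 d c)] with k a b
  have : (wth T μ j).Z D.F d c = ul (zz T μ j e.choose_spec.2.1 d c) := dif_pos e
  exact (a.trans b).trans this.symm

theorem z_of (h : D.OK P) (h' : D'.OK P) (s : D.Sup c) (s' : D'.Sup c') (g : D.F.Cl P d c) (g' : D'.F.Cl P d' c')
    (e : ∀ᶠ k in atTop, zz T μ j h d c k = zz T μ j h' d' c' k) :
    (wth T μ j).Z D.F d c = (wth T μ j).Z D'.F d' c' :=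
  let ⟨_, a, b, r⟩ := ((z_eq H h s g).and ((z_eq H h' s' g').and (ev_hf e))).exists
  a.symm.trans (r.trans b)

theorem z_val (h : D.OK P) (s : D.Sup c) (g : D.F.Cl P d c) {v : ZMod 2}
    (e : ∀ᶠ k in hyperfilter ℕ, zz T μ j h d c k = v) : (wth T μ j).Z D.F d c = v :=
  let ⟨_, a, b⟩ := ((z_eq H h s g).and e).exists
  a.symm.trans b

theorem add : (wth T μ j).Add P := fun F d c c' g g' => by
  classical
  by_cases hF : F.OK P
  swap
  · rw [z_neg hF, z_neg hF, z_neg hF, add_zero]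
  have h := (dt_cl hF g.toSf g.gd).un (dt_cl hF g'.toSf g'.gd) rfl
  have s : ((dt F c.support).un (dt F c'.support)).Sup c := fun p e => ⟨p, mem_union_left _ e, rfl, Subset.rfl⟩
  have s' : ((dt F c.support).un (dt F c'.support)).Sup c' := fun p e => ⟨p, mem_union_right _ e, rfl, Subset.rfl⟩
  refine z_val H h (s.add s') (cl_add g g') ?_
  filter_upwards [z_eq (j := j) H h s g, z_eq (j := j) H h s' g', ev_hf (cn_ev H h s g), ev_hf (cn_ev H h s' g')]
    with k a b u v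
  exact (H.ax.add _ _ _ _ _ u v).trans (congrArg₂ _ a b)

theorem z_zero (F : Fm Γ) (d : ℕ) : (wth T μ j).Z F d 0 = 0 := by
  have g : F.Cl P d 0 := ⟨⟨by simp, by simp⟩, bd_zero, by simp⟩
  have := add (j := j) H F d 0 0 g g
  rwa [add_zero, left_eq_add] at this

theorem stk {e : Cn} (hF : F.OK P) (k : F.Sf (d + 1) e) (g : ∀ p ∈ e.support, F.GC P p.1 p.2)
    (g' : F.Cl P d e.bd) : (wth T μ j).Z F d e.bd = 0 := by
  have h := dt_cl hF k g
  have s := dt_sup (F := F) e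
  refine z_val H h s.bd g' ?_
  filter_upwards [ev_hf (ns_ev H h s k g), ev_hf (cn_ev H h s.bd g')] with i a b
  rw [zz, bd_ch L h s] at *
  exact H.ax.stk _ _ _ _ (sf_ch L h s k) a b

theorem frz : (wth T μ j).Frz P := fun F fz d c e g g' => by
  classical
  rcases c.support.eq_empty_or_nonempty with k | ⟨p, k⟩
  · rw [Finsupp.support_eq_empty.1 k, z_zero H, z_zero H]
  have h := dt_cl (g.gd p k).ok g.toSf g.gd
  have h' := dt_cl (g'.gd p k).ok g'.toSf g'.gd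
  exact z_of H h h' (dt_sup c) (dt_sup c) g g' (nat_id H h h' (fun _ a => mem_dtA.2 ((mem_dtA.1 a).imp_right
    fun r => ⟨r.1, union_subset_union_left e r.2⟩)) Subset.rfl e (dt_sup c) (dt_sup c) g g')

theorem twi : (wth T μ j).Twi P := by
  classical
  rintro ⟨w, fz, ls⟩ ts d c (rfl : ls = ∅) hp hi g g'
  rcases c.support.eq_empty_or_nonempty with k | ⟨p, k⟩
  · rw [Finsupp.support_eq_empty.1 k, mp_zero]
  have hF := (g.gd p k).ok
  have h' := dt_cl hF g.toSf g.gd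
  have h := dt_cl hF g'.toSf g'.gd
  have s := (dt_sup c).mem h'
  have o := pops_ok hp
  have nf : ∀ a ∈ c.walls, ∀ b, IsL (fz ∪ ∅) b → pops ts a ≠ pops ts b := fun a r b u v => by
    obtain ⟨q, r, r'⟩ := mem_walls.1 r
    exact not_fz (g.gd q r) r' (by
      rw [← pops_b ts a, v, pops_b]
      simpa using u.2)
  have ia : Set.InjOn (pops ts) (dt ⟨w, fz, ∅⟩ c.support).A := fun a r b u v =>
    ((mem_dtA.1 r).imp_left mem_walls.2).elim
      (fun r => ((mem_dtA.1 u).imp_left mem_walls.2).elim (hi r · v) fun u => (nf a r b u v).elim)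
      fun r => ((mem_dtA.1 u).imp_left mem_walls.2).elim (fun u => (nf b u a r v.symm).elim)
        fun u => by rwa [pops_nil _ r.1, pops_nil _ u.1] at v
  have mm := fun q => mem_mp' (p := q) s (acts_inj w ts).injOn ia
  have := nat_ev (j := j) H h h' (f' := id) (g' := id) (Dw := Ut ts) ⟨fun a r => ?_, ia, Set.injOn_id _,
    fun n r => ⟨dtL_ind (Q := fun n => acts w ts n ∈ _) (fun q u => mem_dtL (mm q u)) (by simp) r, r⟩,
    (acts_inj w ts).injOn, Set.injOn_id _, by simp [dt], by simp [dt],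
    fun b r => ⟨b, h'.fz b r, pops_nil _ rfl, rfl, r⟩⟩ (fun ν => ?_) Subset.rfl s (dt_sup _)
    (by rw [mp_id]; exact dt_sup c) g' (by rwa [mp_id])
  · rw [mp_id] at this
    exact (z_of H h h' (dt_sup _) (dt_sup c) g' g this).symm
  · rcases mem_dtA.1 r with ⟨q, u, v⟩ | u
    · exact ⟨mem_dtA.2 (.inl ⟨_, mm q u, mem_image_of_mem _ v⟩), r, ut_pops hp (mem_walls.2 ⟨q, u, v⟩)⟩
    · rw [pops_nil _ u.1]
      exact ⟨mem_dtA.2 (.inr u), r, ut_nil u.1 fun t v => (o t v).2.2 _ (by simpa using u.2)⟩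
  · obtain ⟨m, e⟩ := H.tw h.h0 ν ts fun t v => ⟨(o t v).1, (o t v).2.1⟩
    exact ⟨m.mv, (congrArg (·.source) e).trans rfl, (congrArg (·.target) e).trans rfl⟩

theorem can : (wth T μ j).Can P := fun F w J J' x y g d c hc hi _ hg ha hb k k' => by
  classical
  rcases c.support.eq_empty_or_nonempty with z | ⟨p, z⟩
  · rw [Finsupp.support_eq_empty.1 z, mp_zero, z_zero H, z_zero H]
  have hF := (k.gd p z).ok
  have h := dt_cl hF k.toSf k.gd
  have s := (dt_sup c).mem h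
  have lt := hc.lt
  have il : Set.InjOn g (dt F c.support).L := fun n a n' b e => by
    have r := fun n j => (hg.1 n j).1
    have r' := fun n j => (hg.1 n j).2
    have u := fun j q => ((r n j q).symm.trans (congrArg (·.nl j) e)).trans (r n' j q)
    refine eq_of_rod (F := F) (h.lok _ a) (h.lok _ b) hc.lo.le hc.hi.le
      (fun j v v' => by rw [hc.rod j v.le v', hc.rod x le_rfl lt.le]; rfl) u fun j q => ?_
    by_cases v : j = x
    · have t := fun n (b : F.LOK P n) => b.ok.rod x _ hc.lo (lt.trans hc.hi) (hc.rod x le_rfl lt.le)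
      rw [v, ← t n (h.lok _ a), ← t n' (h.lok _ b), u x (.inl le_rfl)]
    · exact ((r' n j (by omega)).symm.trans (congrArg (·.nr j) e)).trans (r' n' j (by omega))
  have mm : ∀ q ∈ c.support, (g q.1, q.2) ∈ (c.mp g id ∅).support := fun q u => by
    simpa using mem_mp' s il (Set.injOn_id _) u
  have h' := dt_cl (k'.gd _ (mm p z)).ok k'.toSf k'.gd
  have := nat_ev (j := j) H h h' (f := id) (f' := id) (g := id) (g' := g) (d := d) ⟨fun a r => ⟨r, ?_⟩, Set.injOn_id _, Set.injOn_id _,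
    fun n r => ⟨r, dtL_ind (Q := fun n => g n ∈ _) (fun q u => mem_dtL (mm q u))
      (fun l u n v => (hg.2 l u n).symm ▸ h'.fl l u _ v) r⟩, Set.injOn_id _, il,
    fun l r => ⟨h.ls l r, rfl, rfl, r⟩, fun l r n u => ⟨h.fl l r n u, rfl, hg.2 l r n, ?_⟩,
    fun b r => ⟨b, h.fz b r, rfl, rfl, r⟩⟩ (fun ν => H.can h.h0 h'.h0 ν J J' x y g hc hi hg
      fun a r => hb a (mem_union_right _ r)) Subset.rfl s (by rw [mp_id]; exact dt_sup c) (dt_sup _)
    (by rwa [mp_id]) k'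
  · rw [mp_id] at this
    exact z_of H h h' (dt_sup c) (dt_sup _) k k' this
  · rcases mem_dtA.1 r with ⟨q, u, v⟩ | u
    · exact ⟨mem_dtA.2 (.inl ⟨_, mm q u, v⟩), rfl, ha a (mem_walls.2 ⟨q, u, v⟩)⟩
    · exact ⟨mem_dtA.2 (.inr u), rfl, a.b.lo, a.b.hi, ⟨le_rfl, le_rfl, by simp [u.1]⟩, by
        have := hb _ u.2; omega⟩
  · have := hb l (mem_union_right _ r)
    have := (Sid48.OK_hi (ok_ls hF r)).1
    rw [sgl, sgl, (hg.1 n _).1 (by omega)]
    rfl

theorem fact : (wth T μ j).Fact P := fun y => (H.ax.fact y).imp fun R k F d c ⟨D, h, e, s, t⟩ g => by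
  subst e
  refine z_val H h s g ?_
  filter_upwards [t, ev_hf (cn_ev H h s g)] with i a b using k _ _ _ _ a b

theorem sup_rt : (rt w n).Sup (gen n ∅) := fun _ k => ⟨_, mem_singleton_self _, by rw [mem_gen k]; simp⟩

theorem nv : ∃ j, (wth T μ j).Nv P := by
  classical
  obtain ⟨w₀, n₀, h₀, r₀, e⟩ := H.nv
  have g₀ := (h₀.mem _ (mem_singleton_self _)).2.2
  have t : ∀ k, L.ch h₀ (μ k) (gen n₀ ∅) = G75.Cn.gen (L := (L.scn h₀ (μ k)).L) ⟨n₀, mem_singleton_self _⟩ ∅ :=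
    fun k => ch_gen (L := (L.scn h₀ (μ k)).L) (A := (L.scn h₀ (μ k)).A) Subtype.val_injective ⟨n₀, _⟩ ∅
  have : ∀ᶠ k in atTop, ∃ i, T.Z (L.scn h₀ (μ k)) i 0 (L.ch h₀ (μ k) (gen n₀ ∅)) ≠ 0 := by
    filter_upwards [e, cn_ev H h₀ (sup_rt H) (cl_gen g₀)] with k a b
    rw [t] at b ⊢
    exact H.ax.nv _ _ a b
  obtain ⟨j, hj⟩ := this.choice
  refine ⟨j, fun w n r g => ?_⟩
  have h := rt_ok g
  have := nat_ev (j := j) (c := gen n ∅) (d := 0) H h h₀ (A₀ := ∅) (L₀ := {n}) (f := id) (f' := id)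
    ⟨by simp, by simp, by simp, by simp [rt], by simp, by simp, by simp [rt], by simp [rt], by simp [rt]⟩
    (fun ν => (H.rt h.h0 h₀.h0 ν n n₀ r r₀).elim fun m k => ⟨m.mv, k⟩) Subset.rfl
    (fun _ k => by rw [mem_gen k]; simp) (by simpa [mp_gen] using sup_rt H) (by simpa [mp_gen] using sup_rt H)
    (by simpa [mp_gen, rt] using cl_gen g) (by simpa [mp_gen, rt] using cl_gen g₀)
  simp only [mp_gen, image_empty, union_empty] at this
  refine z_val H h (sup_rt H) (cl_gen g) (ev_hf ?_)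
  filter_upwards [this, hj] with k a b
  exact a.trans ((by decide : ∀ x : ZMod 2, x ≠ 0 → x = 1) _ b)

end Crest.Agent.X212.Br55
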