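import Crest.Agent.X212.Br55.Defs
import Crest.Agent.X212.Nm96.Ch

/-!
# Row 212, layer G (helper55): chains of words as chains of scenes, orbits of lines, data of a set of cells
-/

set_option autoImplicit false
set_option linter.unusedSectionVars false
noncomputable section
open Function Finset

namespace Crest.Agent.X212.Br55
open Wd38 Nm96 Nm96.Cn

variable {c c' : Cn} {n : Wt} {σ τ : Finset Wl}

/-! ### the boundary -/

open Classical in
theorem gen_apply (n : Wt) (σ : Finset Wl) (q : Wt × Finset Wl) : gen n σ q = if (n, σ) = q then 1 else 0 :=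
  Finsupp.single_apply

theorem bd_apply {A : Finset Wl} (h : ∀ p ∈ c.support, p.2 ⊆ A) (n : Wt) (τ : Finset Wl) :
    c.bd (n, τ) = ∑ a ∈ A \ τ, c (n, insert a τ) := by
  classical
  conv_lhs => rw [eq_sum c, bd_sum, Finsupp.finsetSum_apply]
  conv_rhs => rw [eq_sum c]
  simp only [Finsupp.finsetSum_apply]
  rw [sum_comm]
  refine sum_congr rfl fun p hp => ?_
  rw [bd_gen, Finsupp.finsetSum_apply]
  simp only [gen_apply, ← sum_filter]
  congr 1
  ext a
  simp only [mem_filter, mem_sdiff, Prod.mk.injEq]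
  constructor
  · rintro ⟨k, e, rfl⟩
    exact ⟨⟨h p hp k, notMem_erase _ _⟩, e, (insert_erase k).symm⟩
  · rintro ⟨k, e, e'⟩
    rw [e']
    exact ⟨mem_insert_self _ _, e, erase_insert k.2⟩

theorem sub_walls : ∀ p ∈ c.support, p.2 ⊆ c.walls := fun p hp _ k => mem_walls.2 ⟨p, hp, k⟩

theorem mem_bd {q : Wt × Finset Wl} (h : q ∈ c.bd.support) :
    ∃ p ∈ c.support, ∃ a ∈ p.2, q = (p.1, p.2.erase a) := by
  rw [Finsupp.mem_support_iff, bd_apply sub_walls q.1 q.2] at h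
  obtain ⟨a, k, e⟩ := exists_ne_zero_of_sum_ne_zero h
  exact ⟨_, Finsupp.mem_support_iff.2 e, a, mem_insert_self _ _, by rw [erase_insert (mem_sdiff.1 k).2]⟩

theorem bd_bd (c : Cn) : c.bd.bd = 0 := by
  induction c using Cn.induction with
  | h0 => simp
  | h2 c c' h h' => rw [bd_add, bd_add, h, h', add_zero]
  | h1 n σ =>
    rw [bd_gen, bd_sum]
    simp only [bd_gen]
    rw [sum_sigma']
    refine sum_involution (fun p _ => ⟨p.2, p.1⟩) (fun p _ => ?_) (fun p hp _ e => ?_) (fun p hp => ?_) fun _ _ => rfl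
    · rw [erase_right_comm, add_self]
    · exact (mem_erase.1 (mem_sigma.1 hp).2).1 (congrArg Sigma.fst e)
    · have := mem_erase.1 (mem_sigma.1 hp).2
      exact mem_sigma.2 ⟨this.2, mem_erase.2 ⟨this.1.symm, (mem_sigma.1 hp).1⟩⟩

variable {Γ : Nm} {P : Pm Γ} {F : Fm Γ} {d : ℕ}

theorem sf_bd (h : F.Sf (d + 1) c) : F.Sf d c.bd := by
  refine ⟨fun q hq => ?_, fun l hl n σ k => ?_⟩
  · obtain ⟨p, hp, a, ha, rfl⟩ := mem_bd hq
    exact ⟨by rw [card_erase_of_mem ha, (h.mem p hp).1]; rfl, fun b hb => (h.mem p hp).2 b (mem_of_mem_erase hb)⟩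
  · rw [bd_apply sub_walls, bd_apply sub_walls]
    exact sum_congr rfl fun a _ => h.sym l hl n _ (mem_insert_of_mem k)

theorem sf_add (h : F.Sf d c) (h' : F.Sf d c') : F.Sf d (c + c') :=
  ⟨fun p hp => (mem_add hp).elim (h.mem p) (h'.mem p), fun l hl n σ k => by
    rw [Finsupp.add_apply, Finsupp.add_apply, h.sym l hl n σ k, h'.sym l hl n σ k]⟩

theorem cl_add (h : F.Cl P d c) (h' : F.Cl P d c') : F.Cl P d (c + c') :=
  ⟨sf_add h.toSf h'.toSf, by rw [bd_add, h.bd, h'.bd, add_zero], fun p hp => (mem_add hp).elim (h.gd p) (h'.gd p)⟩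

/-! ### translation -/

section ch
variable {L A L' A' : Type} [Fintype L] [DecidableEq L] [Fintype A] [DecidableEq A]
  [Fintype L'] [DecidableEq L'] [Fintype A'] [DecidableEq A'] (v : L → Wt) (e : A ↪ Wl) {v' : L' → Wt} {e' : A' ↪ Wl}

/-- the chain of a scene -/
def ch (c : Cn) : G75.Cn L A := fun i σ => c (v i, σ.map e)

/-- the cells of the chain are cells of the scene -/
def Lf (c : Cn) : Prop := ∀ p ∈ c.support, ∃ (i : L) (σ : Finset A), p = (v i, σ.map e)

variable {v e}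

theorem ch_add : ch v e (c + c') = ch v e c + ch v e c' := rfl

theorem ch_sum {ι : Type} (s : Finset ι) (c : ι → Cn) : ch v e (∑ i ∈ s, c i) = ∑ i ∈ s, ch v e (c i) := by
  funext i σ
  simp only [ch, Finsupp.finsetSum_apply, Finset.sum_apply]

theorem ch_gen (hv : Injective v) (i : L) (σ : Finset A) : ch v e (gen (v i) (σ.map e)) = G75.Cn.gen i σ := by
  funext j τ
  rw [ch, gen_apply, G75.Cn.gen]
  by_cases k : j = i
  · subst k
    by_cases k' : τ = σ
    · simp [k']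
    · simp [k', Ne.symm k']
  · simp [k, hv.ne (Ne.symm k)]

theorem ch_bd (h : Lf v e c) : ch v e c.bd = (ch v e c).bd := by
  funext i τ
  rw [ch, bd_apply (A := univ.map e) fun p hp => by
    obtain ⟨_, _, rfl⟩ := h p hp
    exact map_subset_map.2 (subset_univ _), ← Finset.map_sdiff, sum_map]
  exact sum_congr rfl fun a _ => by rw [← map_insert]; rfl

theorem lx_sum {ι : Type} (g : L → Finset A → G75.Cn L' A') (s : Finset ι) (c : ι → G75.Cn L A) :
    G75.Cn.lx g (∑ k ∈ s, c k) = ∑ k ∈ s, G75.Cn.lx g (c k) := by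
  simp only [G75.Cn.lx, Finset.sum_apply, sum_smul]
  exact (sum_congr rfl fun _ _ => sum_comm).trans sum_comm

theorem lx_gen (g : L → Finset A → G75.Cn L' A') (i : L) (σ : Finset A) : G75.Cn.lx g (G75.Cn.gen i σ) = g i σ := by
  rw [G75.Cn.lx, sum_eq_single i (fun j _ k => by simp [G75.Cn.gen, k]) (by simp),
    sum_eq_single σ (fun τ _ k => by simp [G75.Cn.gen, k]) (by simp)]
  simp [G75.Cn.gen]

theorem ch_pj (hv : Injective v) (hv' : Injective v') (h : Lf v e c) {ι : L → L'} {f : A ↪ A'} {τ' : Finset A'}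
    {g : Wt → Wt} {fa : Wl → Wl} (h1 : ∀ i, v' (ι i) = g (v i)) (h2 : ∀ a, e' (f a) = fa (e a))
    (h3 : τ'.map e' = τ) : G75.Cn.pj ι f τ' (ch v e c) = ch v' e' (c.mp g fa τ) := by
  rw [eq_sum c, mp_sum, ch_sum, ch_sum, G75.Cn.pj, lx_sum]
  refine sum_congr rfl fun p hp => ?_
  obtain ⟨i, σ, rfl⟩ := h p hp
  rw [ch_gen hv, lx_gen, mp_gen, ← h1, ← ch_gen (e := e') hv', map_union, h3, map_map]
  congr 3
  ext a
  simp [h2]

end ch

theorem lf_of {L : Finset Wt} {A : Finset Wl} (h : ∀ p ∈ c.support, p.1 ∈ L ∧ p.2 ⊆ A) :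
    Lf (Subtype.val : L → Wt) (Embedding.subtype (· ∈ A)) c := fun p hp =>
  ⟨⟨p.1, (h p hp).1⟩, p.2.subtype _, by rw [subtype_map_of_mem (h p hp).2]⟩

/-! ### orbits of lines -/

/-- reachable by flips -/
inductive Rch (ls : Finset Bs) (S : Finset Wt) : Wt → Prop
  | base {n : Wt} : n ∈ S → Rch ls S n
  | step {n : Wt} {l : Bs} : Rch ls S n → l ∈ ls → Rch ls S (fl l n)

/-- flips on a set of slots -/
def flp (t : Finset ℤ) (n : Wt) : Wt :=
  { n with
    nl := fun j => if j ∈ t then 1 - n.nl j else n.nl j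
    nr := fun j => if j ∈ t then 1 - n.nr j else n.nr j }

theorem fl_flp (l : Bs) (t : Finset ℤ) (n : Wt) : fl l (flp t n) = flp (symmDiff (Ioo l.lo l.hi) t) n := by
  unfold fl flp
  congr 1 <;> funext j <;> simp only [mem_symmDiff, mem_Ioo] <;> split_ifs <;> first | tauto | ring

theorem finite_rch (ls : Finset Bs) (S : Finset Wt) : {n | Rch ls S n}.Finite := by
  refine (((ls.biUnion fun l => Ioo l.lo l.hi).powerset.finite_toSet).image2 flp S.finite_toSet).subset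
    fun n hn => ?_
  induction hn with
  | @base n h => exact ⟨∅, by simp, n, h, by simp [flp]⟩
  | @step n l _ hl ih =>
    obtain ⟨t, ht, m, hm, rfl⟩ := ih
    refine ⟨_, mem_powerset.2 fun j hj => ?_, m, hm, (fl_flp l t m).symm⟩
    exact (mem_symmDiff.1 hj).elim (fun k => mem_biUnion.2 ⟨l, hl, k.1⟩) fun k => mem_powerset.1 ht k.1

/-- the orbit -/
def orb (ls : Finset Bs) (S : Finset Wt) : Finset Wt := (finite_rch ls S).toFinset

theorem mem_orb {ls : Finset Bs} {S : Finset Wt} : n ∈ orb ls S ↔ Rch ls S n := Set.Finite.mem_toFinset _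

theorem fl_fl (l : Bs) (n : Wt) : fl l (fl l n) = n := by
  cases n
  unfold fl
  congr 1 <;> funext j <;> simp only <;> split_ifs <;> ring

theorem lok_fl (hF : F.OK P) (h : F.LOK P n) {l : Bs} (hl : l ∈ F.ls) : F.LOK P (fl l n) := by
  obtain ⟨x, rfl, h1, h2, h3⟩ := hF.ls l hl
  have k := h.ok
  have e : ∀ j, x - 1 < j → j ≤ x + 4 → F.w.lf j = lrd x (j - 1) ∧ F.w.rt j = lrd x j := fun j a b => by
    rw [Shp.lf, Shp.rt, h3 _ (by omega) (by omega), h3 _ a.le b]
    exact ⟨rfl, rfl⟩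
  refine ⟨⟨?_, ?_, fun j τ a b s => ?_, fun j J a b s => ?_, fun j a b s => ?_, fun j a b s => ?_⟩, h.mL, h.mR,
    fun l' hl' => ?_⟩ <;> simp only [fl, Bs.lo, Bs.hi]
  · rw [if_neg (by omega), k.sl]
  · rw [if_neg (by omega), k.sr]
  · rw [k.rod j τ a b s]
  · rw [if_neg, if_neg]
    · exact k.jn j J a b s
    all_goals exact fun q => by rw [h3 j (by omega) (by omega)] at s; cases s
  · by_cases q : j = x + 1 ∨ j = x + 3
    · rw [(e j (by omega) (by omega)).1, (e j (by omega) (by omega)).2] at s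
      rcases q with rfl | rfl <;> simp [lrd] at s
      all_goals omega
    · rw [k.eq j a b s]
      exact if_congr (by omega) rfl rfl
  · by_cases q : x < j ∧ j ≤ x + 3
    · rw [(e j (by omega) (by omega)).1, (e j (by omega) (by omega)).2] at s
      obtain rfl | rfl | rfl : j = x + 1 ∨ j = x + 2 ∨ j = x + 3 := by omega
      all_goals
        simp only [lrd] at s
        split_ifs at s <;> simp at s
    · rw [if_neg (by omega), if_neg (by omega), k.neg j a b s]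
  · have q := h.ls l' hl'
    by_cases r : Bs.lA x (x + 3) = l'
    · subst r
      simp only [Bs.lo, Bs.hi] at q ⊢
      rw [if_neg (by omega), if_neg (by omega), if_pos (by omega)]
      omega
    · obtain ⟨y, rfl, -⟩ := hF.ls l' hl'
      have := hF.ll _ hl _ hl' r
      simp only [Bs.lo, Bs.hi] at q this ⊢
      rwa [if_neg (by omega), if_neg (by omega), if_neg (by omega)]

theorem Rch.lok (hF : F.OK P) {S : Finset Wt} (h : ∀ n ∈ S, F.LOK P n) (k : Rch F.ls S n) : F.LOK P n := by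
  induction k with
  | base k => exact h _ k
  | step _ hl ih => exact lok_fl hF ih hl

/-! ### data -/

namespace Dt
variable {D D' : Dt Γ}

variable (P D d) in
/-- the top cells have the degree `d`, or `d + 1` with good facets -/
def Gd : Prop := ∀ p ∈ D.s, p.2.card = d ∨ p.2.card = d + 1 ∧ D.F.GC1 P p.1 p.2

variable (D c) in
/-- the cells of the chain are cells of the scene -/
def Sup : Prop := ∀ p ∈ c.support, ∃ q ∈ D.s, q.1 = p.1 ∧ p.2 ⊆ q.2

variable (D c) in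
/-- the chain of the scene -/
abbrev ch [DecidableEq D.L] : G75.Cn D.L D.A := Br55.ch Subtype.val (Embedding.subtype _) c

theorem Sup.mem (s : D.Sup c) (h : D.OK P) : ∀ p ∈ c.support, p.1 ∈ D.L ∧ p.2 ⊆ D.A := fun p hp =>
  let ⟨q, k, e, e'⟩ := s p hp; ⟨e ▸ (h.mem q k).1, e'.trans (h.mem q k).2.1⟩

theorem Sup.bd (s : D.Sup c) : D.Sup c.bd := fun q hq => by
  obtain ⟨p, hp, a, -, rfl⟩ := mem_bd hq
  exact (s p hp).imp fun _ k => ⟨k.1, k.2.1, (erase_subset _ _).trans k.2.2⟩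

theorem Sup.add (s : D.Sup c) (s' : D.Sup c') : D.Sup (c + c') := fun p hp => (mem_add hp).elim (s p) (s' p)

open Classical in
/-- union -/
def un (D D' : Dt Γ) : Dt Γ := ⟨D.F, D.A ∪ D'.A, D.L ∪ D'.L, D.s ∪ D'.s⟩

theorem OK.un (h : D.OK P) (h' : D'.OK P) (e : D'.F = D.F) : (D.un D').OK P := by
  classical
  obtain ⟨F', A', L', s'⟩ := D'
  subst e
  exact ⟨h.ok, fun a k => (mem_union.1 k).elim (h.ad a) (h'.ad a), fun b k => mem_union_left _ (h.fz b k),
    fun b k => mem_union_left _ (h.ls b k), fun a k => (mem_union.1 k).elim (h.lok a) (h'.lok a),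
    fun l k n q => mem_union.2 ((mem_union.1 q).imp (h.fl l k n) (h'.fl l k n)),
    fun p k => (mem_union.1 k).elim
      (fun k => ⟨mem_union_left _ (h.mem p k).1, (h.mem p k).2.1.trans subset_union_left, (h.mem p k).2.2⟩)
      fun k => ⟨mem_union_right _ (h'.mem p k).1, (h'.mem p k).2.1.trans subset_union_right, (h'.mem p k).2.2⟩,
    fun l k p q r => mem_union.2 ((mem_union.1 q).imp (h.kfl l k p · r) (h'.kfl l k p · r)),
    fun a k => (mem_union.1 k).elim
      (fun k => (h.cov a k).imp_left fun ⟨p, q, r⟩ => ⟨p, mem_union_left _ q, r⟩)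
      fun k => (h'.cov a k).imp_left fun ⟨p, q, r⟩ => ⟨p, mem_union_right _ q, r⟩,
    fun a k => (mem_union.1 k).elim (h.nin a) (h'.nin a)⟩

theorem Gd.un (h : D.Gd P d) (h' : D'.Gd P d) (e : D'.F = D.F) : (D.un D').Gd P d := by
  classical
  exact fun p k => (mem_union.1 k).elim (h p) fun k => by have := h' p k; rwa [e] at this

end Dt

open Classical in
/-- the data of a set of cells -/
def dt (F : Fm Γ) (s : Finset (Wt × Finset Wl)) : Dt Γ :=
  ⟨F, s.biUnion Prod.snd ∪ (F.fz ∪ F.ls).image (↑), orb F.ls (s.image Prod.fst), s⟩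

theorem mem_dtA {s : Finset (Wt × Finset Wl)} {a : Wl} :
    a ∈ (dt F s).A ↔ (∃ p ∈ s, a ∈ p.2) ∨ IsL (F.fz ∪ F.ls) a := by
  simp only [dt, mem_union, mem_biUnion, mem_image, IsL]
  refine or_congr_right ⟨?_, fun k => ⟨a.b, k.2, ?_⟩⟩
  · rintro ⟨b, k, rfl⟩
    exact ⟨rfl, k⟩
  · obtain ⟨b, l⟩ := a
    obtain rfl : l = [] := k.1
    rfl

theorem mem_dtL {s : Finset (Wt × Finset Wl)} {p : Wt × Finset Wl} (h : p ∈ s) : p.1 ∈ (dt F s).L := by
  classical
  exact mem_orb.2 (.base (mem_image_of_mem _ h))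

theorem dtL_ind {s : Finset (Wt × Finset Wl)} {Q : Wt → Prop} (h0 : ∀ p ∈ s, Q p.1)
    (h1 : ∀ l ∈ F.ls, ∀ n, Q n → Q (fl l n)) (h : n ∈ (dt F s).L) : Q n := by
  classical
  have k := mem_orb.1 h
  clear h
  induction k with
  | base k =>
    obtain ⟨p, q, rfl⟩ := mem_image.1 k
    exact h0 p q
  | step _ hl ih => exact h1 _ hl _ ih

theorem pop_b (t : Tw) (a : Wl) : (pop t a).b = a.b := by
  unfold pop; split_ifs <;> rfl

theorem pops_b : ∀ (ts : List Tw) (a : Wl), (pops ts a).b = a.b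
  | [], _ => rfl
  | t :: ts, a => (pops_b ts _).trans (pop_b t a)

theorem mem_of_pops : ∀ {ts : List Tw} {a : Wl}, (pops ts a).tw = [] → ∀ t ∈ a.tw, t ∈ ts
  | [], a, h, t, k => by rwa [show a.tw = [] from h] at k
  | s :: ts, a, h, t, k => by
    have ih := mem_of_pops (ts := ts) (a := pop s a) h t
    unfold pop at ih
    split_ifs at ih with e
    · rw [List.eq_cons_of_mem_head? e] at k
      exact List.mem_cons.2 ((List.mem_cons.1 k).imp_right ih)
    · exact List.mem_cons_of_mem _ (ih k)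

theorem pops_ok : ∀ {ts : List Tw} {S : Finset Wl}, F.Pops ts S → ∀ t ∈ ts,
    t.OK F.w ∧ Away F.ls t ∧ ∀ b ∈ F.fz, t.Off b
  | [], _, _, _, k => nomatch k
  | _ :: _, _, h, t, k => (List.mem_cons.1 k).elim (fun e => e ▸ ⟨h.1, h.2.2.1, h.2.1⟩) (pops_ok h.2.2.2.2 t)

theorem ad_gc (h : F.GC P n σ) {a : Wl} (k : a ∈ σ) : Ad F.w F.ls a :=
  let ⟨_, h1, h2, h3⟩ := h.tor
  have q := fun t e => pops_ok h1 t (mem_of_pops (h2 a k) t e)
  ⟨⟨(h3.ok _ (mem_image_of_mem _ k)).1, fun t e => (q t e).1⟩, fun t e => (q t e).2.1⟩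

theorem ok_ls (hF : F.OK P) {l : Bs} (hl : l ∈ F.ls) : l.OK F.w := by
  obtain ⟨x, rfl, h1, h2, h3⟩ := hF.ls l hl
  refine ⟨⟨by omega, by omega, by omega, fun j a b => ⟨_, h3 j (by omega) (by omega)⟩⟩, ?_⟩
  rw [h3 x (by omega) (by omega), h3 _ (by omega) (by omega)]
  simp [Sl.l, Sl.r, lrd, Rod53.dt]

theorem ad_isL (hF : F.OK P) {a : Wl} (k : IsL (F.fz ∪ F.ls) a) : Ad F.w F.ls a :=
  ⟨⟨(mem_union.1 k.2).elim (fun q => (hF.fz _ q).1) (ok_ls hF), fun t e => by simp [k.1] at e⟩,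
    fun t e => by simp [k.1] at e⟩

theorem dt_ok {s : Finset (Wt × Finset Wl)} (hF : F.OK P) (h : ∀ p ∈ s, F.GC P p.1 p.2)
    (k : ∀ l ∈ F.ls, ∀ p ∈ s, (l : Wl) ∈ p.2 → (fl l p.1, p.2) ∈ s)
    (q : ∀ p ∈ s, ∀ a ∈ p.2, ∀ l ∈ F.ls, a.b ≠ .rA (l.lo + 1) (l.lo + 2)) : (dt F s).OK P :=
  ⟨hF, fun _ e => (mem_dtA.1 e).elim (fun ⟨p, a, b⟩ => ad_gc (h p a) b) (ad_isL hF),
    fun _ e => mem_dtA.2 (.inr ⟨rfl, mem_union_left _ e⟩), fun _ e => mem_dtA.2 (.inr ⟨rfl, mem_union_right _ e⟩),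
    fun _ => dtL_ind (fun p e => (h p e).lok) fun _ e _ r => lok_fl hF r e,
    fun _ e _ r => mem_orb.2 ((mem_orb.1 r).step e),
    fun p e => ⟨mem_dtL e, fun _ r => mem_dtA.2 (.inl ⟨p, e, r⟩), h p e⟩, k, fun _ => mem_dtA.1,
    fun _ e l r => (mem_dtA.1 e).elim (fun ⟨p, a, b⟩ => q p a _ b l r) fun u v => (mem_union.1 u.2).elim
      (fun u => let ⟨_, z⟩ := (hF.fz _ u).2; nomatch z.symm.trans v)
      fun u => let ⟨_, z, _⟩ := hF.ls _ u; nomatch z.symm.trans v⟩

theorem nin_sf (hF : F.OK P) (h : F.Sf d c) : ∀ p ∈ c.support, ∀ a ∈ p.2, ∀ x y, a.b ≠ .rA x y :=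
  fun p e a k _ _ v => ((h.mem p e).2 a k).elim (fun u => by rw [v] at u; exact u)
    fun u => let ⟨_, z, _⟩ := hF.ls _ u.1; nomatch z.symm.trans v

theorem kfl_sf (h : F.Sf d c) : ∀ l ∈ F.ls, ∀ p ∈ c.support, (l : Wl) ∈ p.2 → (fl l p.1, p.2) ∈ c.support :=
  fun l e p k q => Finsupp.mem_support_iff.2 ((h.sym l e p.1 p.2 q).symm ▸ Finsupp.mem_support_iff.1 k)

theorem dt_sup (c : Cn) : (dt F c.support).Sup c := fun p k => ⟨p, k, rfl, Subset.rfl⟩

end Crest.Agent.X212.Br55
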