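import Crest.Agent.X212.Sid48.Chg
import Crest.Agent.X212.Nm96.Defs
import Crest.Agent.X212.Sid48.Side
import Crest.Agent.X212.Line51.Wd
import Crest.Agent.X212.Hz56.Top

/-!
# Row 212, layer G (helper55): the bridge from scenes to words

* `UW`, `um`, `rs` : all admissible walls of a word, their mark, restriction of marked lines to a family;
* `LP` : the lines of all frames and the lens model;  `Mv0`, `Mv` : moves between two frames;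
* `Dt`, `Dt.OK`, `LP.scn` : the scene of a finite set of cells;  `pc`, `TPc`, `Pres` : toric pieces;
* the leaves `…Stmt`.
-/

set_option autoImplicit false
set_option linter.unusedSectionVars false
noncomputable section
open Set Function Filter Topology
open scoped ContDiff Manifold
open Crest.Agent.R208.F (Ext)

namespace Crest.Agent.X212.Br55
open M G75 Wd38 Nm96 Cyl58 Dr59
open Rod53 (Z2)
open Line51 (Ln Uni LCx WL rl)
open Orx52 (Pos)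
open Sid48 (Trc)

variable {Γ : Nm} {κ lam : Type} [Fintype κ] [Fintype lam] [DecidableEq lam]

/-! ### walls and lines of a word -/

/-- the frame without frozen slices -/
abbrev f0 (w : Shp Γ) (ls : Finset Bs) : Fm Γ := ⟨w, ∅, ls⟩

/-- the twist is away from the lens arcs -/
def Away (ls : Finset Bs) (t : Tw) : Prop := ∀ l ∈ ls, l.hi + 1 < t.x ∨ t.y + 1 < l.lo

/-- admissible walls -/
def Ad (w : Shp Γ) (ls : Finset Bs) (a : Wl) : Prop := a.OK w ∧ ∀ t ∈ a.tw, Away ls t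

/-- the type of admissible walls -/
abbrev UW (w : Shp Γ) (ls : Finset Bs) : Type := {a : Wl // Ad w ls a}

/-- an untwisted wall of the set `s` -/
def IsL (s : Finset Bs) (a : Wl) : Prop := a.tw = [] ∧ a.b ∈ s

instance (s : Finset Bs) (a : Wl) : Decidable (IsL s a) := inferInstanceAs (Decidable (_ ∧ _))

/-- the twists at the caps -/
def cp (n : Wd38.Wt) (μ : ℤ × ℤ) : Wd38.Wt := { n with mL := μ.1, mR := μ.2 }

section mark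
variable {C : Cx Γ} (G : Tab C.kd κ) {w w' : Shp Γ} (hw : w.OK) (hw' : w'.OK) {ls ls' : Finset Bs}

/-- the mark of a family of admissible walls -/
abbrev mrk {A : Type} (W : A → Wl) (h : ∀ a, Ad w ls (W a)) : Mark (C.X hw).mf A κ :=
  (C.rz hw).mark G W fun a => (h a).1.1

variable (ls) in
/-- the mark of all admissible walls -/
abbrev um : Mark (C.X hw).mf (UW w ls) κ := mrk G hw Subtype.val fun a => a.2

variable {G hw hw'}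

/-- restriction of a marked line to a family -/
def rs (N : ML (um G hw ls) lam) {A : Type} (W : A → Wl) (h : ∀ a, Ad w ls (W a)) : ML (mrk G hw W h) lam where
  p := N.p
  ok := N.ok
  LY a := N.LY ⟨W a, h a⟩
  okY a := N.okY ⟨W a, h a⟩
  cst a := N.cst ⟨W a, h a⟩
  m a := N.m ⟨W a, h a⟩
  um a := N.um ⟨W a, h a⟩

/-- the identity, matching the walls of `f` -/
def sid {X : Mf 4} {A A₀ : Type} (M : Mark X A κ) (f : A₀ ↪ A) : MId M M A₀ := { M.resId f with f := f }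

variable (hw hw') in
/-- `ψ` takes the wall `a` to the wall `a'` -/
structure Mch (ψ : PartialDiffeomorph (C.X hw).mf.I (C.X hw').mf.I (C.X hw).P.M (C.X hw').P.M ∞)
    (a : UW w ls) (a' : UW w' ls') : Prop where
  E : a.1.b.ty w = a'.1.b.ty w'
  j : ∀ p, ((C.rz hw).bn a.1 a.2.1.1).j p ∈ ψ.source ∧
    ψ (((C.rz hw).bn a.1 a.2.1.1).j p) = ((C.rz hw').bn a'.1 a'.2.1.1).j (cY C.kd E p.1, p.2)
  sd : ∀ s, ∀ z ∈ ψ.source,
    ψ z ∈ ((C.rz hw').bn a'.1 a'.2.1.1).wall.sd s ↔ z ∈ ((C.rz hw).bn a.1 a.2.1.1).wall.sd s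

variable (G) in
/-- the identification of the marks along one matched pair (`Wd38.mid`, `Wd38.twId` are of this form) -/
def mid1 {ψ : PartialDiffeomorph (C.X hw).mf.I (C.X hw').mf.I (C.X hw).P.M (C.X hw').P.M ∞}
    (hψ : Pos (C.X hw).P.I (C.X hw').P.I ψ ψ.source (C.rz hw).O (C.rz hw').O) {a : UW w ls} {a' : UW w' ls'}
    (h : Mch hw hw' ψ a a') : MId (um G hw ls) (um G hw' ls') Unit :=
  mid0 (C.rz hw) (C.rz hw') G _ _ ψ ⟨fun _ => a, fun _ _ _ => rfl⟩ ⟨fun _ => a', fun _ _ _ => rfl⟩ hψ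
    (fun _ => h.E) fun _ => ⟨h.j, h.sd⟩

end mark

/-- **the lines of all frames, the lens model** -/
structure LP (C : Cx Γ) (G : Tab C.kd κ) (P : Pm Γ) (lam : Type) [Fintype lam] [DecidableEq lam] : Type 1 where
  L : LCx C P.Λ
  Lm : LM κ lam
  hJ : ∀ J, (Γ.src J).2.2 ≠ 0 ∧ (Γ.tgt J).2.2 ≠ 0
  e : Fin 8 ↪ κ
  sp : ∀ τ ≠ WT.sph, ∀ j y, Met55.atx (G.g τ).e y (e j) = 0
  W : ∀ {w ls} (h : (f0 w ls).OK P) {n} (_ : (f0 w ls).LOK P n) (μ : ℤ × ℤ), WL L (C.rz h.w) (cp n μ) lam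
  N : ∀ {w ls} (h : (f0 w ls).OK P) {n} (_ : (f0 w ls).LOK P n) (_ : ℤ × ℤ), ML (um G h.w ls) lam
  p : ∀ {w ls} (h : (f0 w ls).OK P) {n} (hn : (f0 w ls).LOK P n) μ, (N h hn μ).p = (W h hn μ).p
  spl : ∀ {w ls} (h : (f0 w ls).OK P) {n} (hn : (f0 w ls).LOK P n) μ, (N h hn μ).Spare
  I : ∀ {w ls} (h : (f0 w ls).OK P) (a : UW w ls), IsL ls a.1 →
    MId Lm.M (mrk G h.w (fun _ : Unit => a.1) fun _ => a.2) Unit
  ins : ∀ {w ls} (h : (f0 w ls).OK P) {n} (hn : (f0 w ls).LOK P n) μ a ha,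
    LId (Lm.N (sgl a.1.b n)) (rs (N h hn μ) _ _) (I h a ha) (hf Lm.M () false) (Lm.N (sgl a.1.b n)).p
  img : ∀ {w ls} (h : (f0 w ls).OK P) a ha, (I h a ha).ψ '' hf Lm.M () false = hf (um G h.w ls) a false
  out : ∀ {w ls} (h : (f0 w ls).OK P) {n} (hn : (f0 w ls).LOK P n) μ (a : UW w ls), IsL ls a.1 →
    ∀ hn' : (f0 w ls).LOK P (fl a.1.b n), LId (N h hn μ) (N h hn' μ)
      (sid _ (.subtype fun a' : UW w ls => ¬Crs a'.1.b a.1.b)) (hf (um G h.w ls) a true) (N h hn μ).p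
  cut : ∀ {w ls} (h : (f0 w ls).OK P), Wl → Wd38.Wt → An.Cut (C.X h.w).mf.M (lam ⊕ lam)
  rel : ∀ {w ls} (h : (f0 w ls).OK P) n a ha, (Lm.cut (sgl a.1.b n)).Rel (cut h a.1 n)
    ((Lm.M.sys.w ()).sd false) (I h a ha).ψ fun x => rl ((Lm.N (sgl a.1.b n)).p x)

variable {C : Cx Γ} {G : Tab C.kd κ} {P : Pm Γ} (L : LP C G P lam)

/-! ### moves -/

section mv
variable {w w' : Shp Γ} {ls ls' : Finset Bs} (h : (f0 w ls).OK P) (h' : (f0 w' ls').OK P) (μ : ℤ × ℤ)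
  (g g' : Wd38.Wt → Wd38.Wt) (Dw : Wl → Wl → Prop) (V : Set (C.X h.w).P.M)

/-- a move over `V`: the line `g n` goes to the line `g' n`, walls are matched along `Dw` -/
structure Mv0 where
  ψ : PartialDiffeomorph (C.X h.w).mf.I (C.X h'.w).mf.I (C.X h.w).P.M (C.X h'.w).P.M ∞
  pos : Pos (C.X h.w).P.I (C.X h'.w).P.I ψ ψ.source (C.rz h.w).O (C.rz h'.w).O
  op : IsOpen V
  sub : V ⊆ ψ.source
  mch : ∀ (a : UW w ls) (a' : UW w' ls'), Dw a.1 a'.1 → Mch h.w h'.w ψ a a'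
  u : Wd38.Wt → (C.X h.w).P.M → Matrix lam lam ℂ
  uni : ∀ n (hn : (f0 w ls).LOK P (g n)) (hn' : (f0 w' ls').LOK P (g' n)),
    Uni (C.X h.w).mf.I (L.N h hn μ).p (fun z => (L.N h' hn' μ).p (ψ z)) (u n) V
  lid : ∀ n (hn : (f0 w ls).LOK P (g n)) (hn' : (f0 w' ls').LOK P (g' n)) a a' (k : Dw a.1 a'.1),
    LId (L.N h hn μ) (L.N h' hn' μ) (mid1 G pos (mch a a' k)) V (u n)

/-- a move that respects the lens walls of the right frame -/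
structure Mv extends Mv0 L h h' μ g g' Dw V where
  fl : ∀ a : UW w ls, IsL ls' a.1 → ∀ n (hn : (f0 w ls).LOK P (g n)), (f0 w' ls').LOK P (g' n) →
    EqOn (u (fl a.1.b n)) (u n) (V ∩ hf (um G h.w ls) a true) ∧
      EqOn (u n) (L.N h hn μ).p (hf (um G h.w ls) a false)
  mod : ∀ (a : UW w ls) (a' : UW w' ls') ha ha', a.1 = a'.1 →
    EqOn (L.I h' a' ha').ψ (ψ ∘ (L.I h a ha).ψ) (hf L.Lm.M () false)

variable {L h h' μ g g' Dw V} in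
/-- the move is a diffeomorphism -/
def Mv0.Glob (m : Mv0 L h h' μ g g' Dw V) : Prop := m.ψ.source = univ ∧ m.ψ.target = univ

end mv

/-- `a'` is the image of `a` under the twists of the list -/
inductive Ut : List Tw → Wl → Wl → Prop
  | nil (a : Wl) : Ut [] a a
  | use {l : List Tw} {a a' : Wl} (t : Tw) : Ut l a a' → Ut (t :: l) a (a'.twist t)
  | clr {l : List Tw} {a a' : Wl} {t : Tw} : Ut l a a' → Wl.Clr t a' → Ut (t :: l) a a'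

/-- root words -/
def Root (w : Shp Γ) : Prop := ∀ j, w.s j = .rod Γ.cap

/-- MV-TW: twists -/
def TwStmt : Prop := ∀ {w ls} (h : (f0 w ls).OK P) μ (ts : List Tw), (∀ t ∈ ts, t.OK w ∧ Away ls t) →
  ∃ m : Mv0 L h h μ (acts w ts) id (Ut ts) univ, m.ψ = ((C.rz h.w).tws ts).toPartialDiffeomorph

/-- MV-CAN: insertion of a junction and its inverse -/
def CanStmt : Prop := ∀ {w w' ls} (h : (f0 w ls).OK P) (h' : (f0 w' ls).OK P) μ J J' x y g,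
  w.Can w' J J' x y → P.iv J J' → Chg ls 1 x y g → (∀ a ∈ ls, a.hi + 1 < x ∨ y + 1 < a.lo) →
  ∃ m : Mv L h h' μ id g (fun a a' => a = a' ∧ ∃ x' y', a.In x' y' ∧ (y' < x ∨ y < x')) univ, m.Glob

/-- MV-SUR: surgery inside the arc `rA x y`; the right word is a constant rod there -/
def SurStmt : Prop := ∀ {w w' ls ls'} (h : (f0 w ls).OK P) (h' : (f0 w' ls').OK P) μ x y g
  (r : UW w ls) (r' : UW w' ls'), r.1 = Bs.rA x y → r'.1 = Bs.rA x y → w.Sur w' x y →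
  ls' = {l ∈ ls | ¬(x < l.lo ∧ l.hi < y)} → (∀ l ∈ ls, (Bs.rA x y).Far l) →
  (∀ l ∈ ls, Bs.rA x y ≠ .rA (l.lo + 1) (l.lo + 2)) →
  (∀ j, x < j → j ≤ y → w'.s j = .rod (w'.s x).r) → Chg ls' 0 x y g →
  ∃ m : Mv L h h' μ g id (fun a a' => a = a' ∧ (a = Bs.rA x y ∨ a.Out x y ∧ a.b.Far (.rA x y)))
    (hf (um G h.w ls) r true), m.ψ '' hf (um G h.w ls) r true = hf (um G h'.w ls') r' true ∧
      ∀ a : UW w ls, IsL ls a.1 → (a.1.b ∈ ls' ↔ hf (um G h.w ls) a false ⊆ hf (um G h.w ls) r true)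

/-- MV-RT: any two root words -/
def RtStmt : Prop := ∀ {w w'} (h : (f0 w ∅).OK P) (h' : (f0 w' ∅).OK P) μ n n', Root w → Root w' →
  ∃ m : Mv0 L h h' μ (fun _ => n) (fun _ => n') (fun _ _ => False) univ, m.Glob

/-! ### scenes -/

variable (Γ) in
/-- a frame, walls, lines, top cells -/
structure Dt where
  F : Fm Γ
  A : Finset Wl
  L : Finset Wd38.Wt
  s : Finset (Wd38.Wt × Finset Wl)

namespace Dt
variable (P) (D : Dt Γ)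

structure OK : Prop where
  ok : D.F.OK P
  ad : ∀ a ∈ D.A, Ad D.F.w D.F.ls a
  fz : ∀ b ∈ D.F.fz, (b : Wl) ∈ D.A
  ls : ∀ b ∈ D.F.ls, (b : Wl) ∈ D.A
  lok : ∀ n ∈ D.L, D.F.LOK P n
  fl : ∀ l ∈ D.F.ls, ∀ n ∈ D.L, fl l n ∈ D.L
  mem : ∀ p ∈ D.s, p.1 ∈ D.L ∧ p.2 ⊆ D.A ∧ D.F.GC P p.1 p.2
  kfl : ∀ l ∈ D.F.ls, ∀ p ∈ D.s, (l : Wl) ∈ p.2 → (Nm96.fl l p.1, p.2) ∈ D.s
  cov : ∀ a ∈ D.A, (∃ p ∈ D.s, a ∈ p.2) ∨ IsL (D.F.fz ∪ D.F.ls) a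
  nin : ∀ a ∈ D.A, ∀ l ∈ D.F.ls, a.b ≠ .rA (l.lo + 1) (l.lo + 2)

variable {P D}

theorem OK.h0 (h : D.OK P) : (f0 D.F.w D.F.ls).OK P :=
  ⟨h.ok.w, fun _ k => absurd k (Finset.notMem_empty _), h.ok.ls, fun _ _ _ k => absurd k (Finset.notMem_empty _),
    h.ok.ll⟩

theorem OK.l0 (h : D.OK P) (i : D.L) : (f0 D.F.w D.F.ls).LOK P i.1 :=
  let k := h.lok _ i.2; ⟨k.ok, k.mL, k.mR, k.ls⟩

/-- a wall of the scene as an admissible wall -/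
abbrev OK.uw (h : D.OK P) (a : D.A) : UW D.F.w D.F.ls := ⟨a.1, h.ad _ a.2⟩

end Dt

open Classical in
/-- **THE SCENE** of a finite set of cells, with the twists `μ` at the caps -/
def LP.scn {D : Dt Γ} (h : D.OK P) (μ : ℤ × ℤ) : Scene L.Lm where
  X := (C.X h.h0.w).mf
  A := D.A
  M := mrk G h.h0.w Subtype.val fun a => h.ad _ a.2
  L := D.L
  N i := rs (L.N h.h0 (h.l0 i) μ) _ _
  fz := {a | IsL D.F.fz a.1}
  K i := {σ | ∃ p ∈ D.s, p.1 = i.1 ∧ ∀ a ∈ σ, a.1 ∈ p.2}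
  ls := {a | IsL D.F.ls a.1}
  fl a i := if k : IsL D.F.ls a.1 then ⟨fl a.1.b i.1, h.fl _ k.2 _ i.2⟩ else i
  sg a i := sgl a.1.b i.1
  I l := { L.I h.h0 (h.uw l.1) (Finset.mem_filter.1 l.2).2 with f' := ⟨fun _ => l.1, fun _ _ _ => rfl⟩ }
  cut a i := L.cut h.h0 a.1 i.1

/-- the data of a root word -/
def rt (w : Shp Γ) (n : Wd38.Wt) : Dt Γ := ⟨f0 w ∅, ∅, {n}, {(n, ∅)}⟩

/-- BR-OK -/
def OkStmt : Prop := ∀ {D : Dt Γ} (h : D.OK P) μ, (L.scn h μ).OK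

/-! ### toric pieces -/

section pc
variable {w : Shp Γ} {hw : w.OK} {X : TP V4} (R : Rz C hw X)

/-- the piece on the sides `η` of the toric walls `B` -/
def pc (B : Finset Bs) (η : Bs → Bool) : Set X.P.M := {z | ∀ a ∈ B, z ∈ Sid48.sd R a (η a)}

/-- its word part -/
def wp (B : Finset Bs) (η : Bs → Bool) : Set X.P.M := pc R B η ∩ X.τ ⁻¹' Iio (w.r + 3 / 4)

end pc

/-- `η` names a piece of the toric pinch walls `B` -/
structure TPc (F : Fm Γ) (B : Finset Bs) (η : Bs → Bool) : Prop where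
  ok : ∀ a ∈ B, a.OK F.w ∧ a.pin
  far : ∀ a ∈ B, ∀ b ∈ B, a ≠ b → a.Far b
  fz : ∀ a ∈ B, ∀ b ∈ F.fz, a.Far b
  ne : B = ∅ ∨ ∃ a ∈ B, Adj B η a

/-- `G75.Scene.Nb` without the scene -/
def NbX (X : Mf 4) (o : X.M → Ext X.E) (p : X.M → Matrix lam lam ℂ) (U : Set X.M) (β sg l2 : ℝ) : Prop :=
  ∃ (ι : Type) (_ : Fintype ι) (_ : DecidableEq ι) (e : ι → X.M → Ext X.E) (d : ι → ℝ),
    Lat X.I o U U e (Matrix.diagonal d) ∧
    β = 1 - Module.finrank ℝ (HR X.I 1 U) + {n | 0 < d n}.ncard ∧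
    sg = {n | 0 < d n}.ncard - {n | d n < 0}.ncard ∧
    l2 = ∑ n, (ip X.I o (Ln.F X.I ⟨p, 0⟩) (e n) / (2 * Real.pi)) ^ 2 / d n

section nb
variable {Λ : NmL Γ} (K : LCx C Λ) (lam : Type) [Fintype lam] [DecidableEq lam]

/-- BR-NB, middle pieces -/
def NbM : Prop := ∀ (F : Fm Γ) (hw : F.w.OK) n (W : WL K (C.rz hw) n lam) B η, TPc F B η →
  ¬F.Fst B η → ¬F.Lst B η → NbX (C.X hw).mf (-(C.rz hw).O) W.p (pc (C.rz hw) B η)
    (1 + F.tot B η lp n) (F.tot B η lg n) (F.tot B η lq n)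

/-- BR-NB, last pieces: the twist `mR` gives the reserve `M` -/
def NbL (M : ℝ) (mR : ℤ) : Prop := ∀ (F : Fm Γ) (hw : F.w.OK) n (W : WL K (C.rz hw) n lam) B η, n.mR = mR →
  TPc F B η → ¬F.Fst B η → F.Lst B η → ∃ β sg l2,
    NbX (C.X hw).mf (-(C.rz hw).O) W.p (pc (C.rz hw) B η) β sg l2 ∧
      M + 3 * max (β - (1 + F.tot B η lp n)) 0 ≤ (l2 - sg - (F.tot B η lq n - F.tot B η lg n)) / 2

/-- BR-NB, first pieces -/
def NbF (μ : ℕ → ℤ × ℤ) : Prop := ∀ (F : Fm Γ) (hw : F.w.OK) n B η (c : ℝ), TPc F B η → F.Fst B η →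
  ∀ᶠ k in atTop, ∀ W : WL K (C.rz hw) (cp n (μ k)) lam, ∃ β sg l2,
    NbX (C.X hw).mf (-(C.rz hw).O) W.p (pc (C.rz hw) B η) β sg l2 ∧ c ≤ (l2 - sg) / 2 - 3 * β

end nb

/-- BR-UTW: the numbers are invariant under diffeomorphisms -/
def NbT (lam : Type) [Fintype lam] : Prop := ∀ (X : Mf 4) (o : X.M → Ext X.E) (Φ : X.M ≃ₘ^∞⟮X.I, X.I⟯ X.M)
  (p q u : X.M → Matrix lam lam ℂ) U β sg l2, Pos X.I X.I Φ univ o o → (⟨q, 0⟩ : Ln X.E X.M lam).On X.I univ →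
  Uni X.I p (fun z => q (Φ z)) u univ → NbX X o p U β sg l2 → NbX X o q (Φ '' U) β sg l2

variable (C) in
/-- BR-PI1 -/
def Pi1Stmt : Prop := ∀ (F : Fm Γ) (hw : F.w.OK) B η, TPc F B η → ¬F.Fst B η →
  IsPreconnected (wp (C.rz hw) B η) ∧ HZ (C.X hw).mf.I 1 (wp (C.rz hw) B η) ∧
    ∀ (H : Type) [Group H], Hz56.H1 H (wp (C.rz hw) B η)

/-- the piece `π` of the broken walls `c` is the image of a toric piece with the line `n` -/
structure Pres {D : Dt Γ} (h : D.OK P) (μ : ℤ × ℤ) (i : D.L) (c : Finset D.A) (π : Reg D.A) (n : Wd38.Wt)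
    (η : Bs → Bool) where
  Φ : (C.X h.h0.w).mf.M ≃ₘ^∞⟮(C.X h.h0.w).mf.I, (C.X h.h0.w).mf.I⟯ (C.X h.h0.w).mf.M
  pos : Pos (C.X h.h0.w).P.I (C.X h.h0.w).P.I Φ univ (C.rz h.h0.w).O (C.rz h.h0.w).O
  inj : InjOn (fun a : D.A => a.1.b) c
  tp : TPc D.F (c.image fun a => a.1.b) η
  sd : ∀ a s, π a = some s ↔ a ∈ c ∧ Adj (c.image fun a => a.1.b) η a.1.b ∧ η a.1.b = s
  trc : Trc (C.rz h.h0.w) (L.scn h μ).M.sys Φ (fun a => a.1.b) {a | a ∈ c ∨ IsL (D.F.fz ∪ D.F.ls) a.1}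
  jj : ∀ a : D.A, a ∈ c ∨ IsL D.F.fz a.1 → ∀ q,
    Φ (((C.rz h.h0.w).nk a.1.b (h.ad _ a.2).1.1).j q) = ((L.scn h μ).M.bn a).j q
  U : Φ '' pc (C.rz h.h0.w) (c.image fun a => a.1.b) η = (L.scn h μ).M.sys.U π
  W : WL L.L (C.rz h.h0.w) (cp n μ) lam
  u : (C.X h.h0.w).P.M → Matrix lam lam ℂ
  uni : Uni (C.X h.h0.w).mf.I W.p (fun z => ((L.scn h μ).N i).p (Φ z)) u univ

/-- BR-ORD (with AB of helper8 and PI1): abelian points -/
def AbStmt : Prop := ∀ {D : Dt Γ} (h : D.OK P) μ (i : D.L) (σ c : Finset D.A) π n η k₀,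
  (L.scn h μ).OK → σ ∈ (L.scn h μ).K i → c ⊆ σ →
  (L.scn h μ).M.sys.Piece (↑c : Set D.A) π → Pres L h μ i c π n η → ¬D.F.Fst (c.image fun a => a.1.b) η →
  (L.scn h μ).Ab i σ c π fun k => k₀ ≤ k ∨ ∃ n', D.F.AbC n (c.image fun a => a.1.b) η n' k

/-- BR-HG: a frozen `Y₀` with an odd order -/
def HgStmt : Prop := ∀ {D : Dt Γ} (h : D.OK P) μ (i : D.L) (σ c : Finset D.A) π n η k₀,
  (L.scn h μ).OK → σ ∈ (L.scn h μ).K i → c ⊆ σ →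
  (L.scn h μ).M.sys.Piece (↑c : Set D.A) π → Pres L h μ i c π n η → ¬D.F.Fst (c.image fun a => a.1.b) η →
  D.F.Hg n (c.image fun a => a.1.b) η → (L.scn h μ).Ab i σ c π (k₀ ≤ ·)

/-- BR-RS -/
def RsStmt (RS : ∀ S : Scene L.Lm, S.L → S.A → S.A → S.A → Prop) : Prop :=
  ∀ {D : Dt Γ} (h : D.OK P) μ (i : D.L) (r e e' : D.A) x y (b b' : Bs), r.1 = Bs.rA x y → e.1 = ↑b → e'.1 = ↑b' →
    D.F.RS i.1 x y b b' → (Bs.rA x y).OKn D.F.w i.1 → (∀ l ∈ D.F.fz ∪ D.F.ls, (Bs.rA x y).Far l) →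
    (∀ p ∈ D.s, r.1 ∈ p.2 → ∀ a ∈ p.2, a = r.1 ∨ a = e.1 ∨ a = e'.1 ∨ a.Out x y ∧ a.b.Far (.rA x y)) →
    (L.scn h μ).OK → RS (L.scn h μ) i r e e'

/-- BR-DS -/
def DsStmt (DS : ∀ S : Scene L.Lm, S.L → S.A → Prop) : Prop :=
  ∀ {D : Dt Γ} (h : D.OK P) μ (i : D.L) (r : D.A) x y, r.1 = Bs.rA x y →
    (∀ j, x < j → j ≤ y → D.F.w.s j = .rod (D.F.w.s x).r) → (∀ l ∈ D.F.fz ∪ D.F.ls, (Bs.rA x y).Far l) →
    (∀ p ∈ D.s, r.1 ∈ p.2 → ∀ a ∈ p.2, a = r.1 ∨ a.Out x y ∧ a.b.Far (.rA x y)) →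
    (L.scn h μ).OK → DS (L.scn h μ) i r

/-- BR-RN (`Rf65.RN`): the numbers before and after the surgery -/
def RnStmt : Prop := ∀ {D D' : Dt Γ} (h : D.OK P) (h' : D'.OK P) μ (i : D.L) (i' : D'.L) x y b b',
  D.F.w.Sur D'.F.w x y → D'.F.ls = {l ∈ D.F.ls | ¬(x < l.lo ∧ l.hi < y)} →
  (∀ l ∈ D.F.fz ∪ D.F.ls, (Bs.rA x y).Far l) → (∀ l ∈ D.F.ls, Bs.rA x y ≠ .rA (l.lo + 1) (l.lo + 2)) →
  (∀ j, x < j → j ≤ y → D'.F.w.s j = .rod (D'.F.w.s x).r) →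
  (∀ j, j ≤ x ∨ y ≤ j → i.1.nl j = i'.1.nl j ∧ i.1.nr j = i'.1.nr j) → D.F.RS i.1 x y b b' →
  ∀ β sg l2 β' sg' l2', (L.scn h μ).Nb i univ β sg l2 → (L.scn h' μ).Nb i' univ β' sg' l2' →
    β = β' + 1 ∧ l2 - sg = l2' - sg' + 1 + (((L.scn h μ).ls.card : ℝ) - (L.scn h' μ).ls.card)

/-- BR-NV -/
def NvStmt (μ : ℕ → ℤ × ℤ) (NV : ∀ S : Scene L.Lm, S.L → Prop) : Prop :=
  ∃ (w : Shp Γ) (n : Wd38.Wt) (h : (rt w n).OK P), Root w ∧
    ∀ᶠ k in atTop, NV (L.scn h (μ k)) ⟨n, Finset.mem_singleton_self n⟩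

/-- BR-PRES -/
def PresStmt : Prop := ∀ {D : Dt Γ} (h : D.OK P) μ (i : D.L) (σ c : Finset D.A) π ts, c ⊆ σ → (∀ a ∈ c, a.1.b.pin) →
  InjOn Wl.b (σ.map (.subtype _) : Finset Wl) → D.F.Pops ts (σ.map (.subtype _)) →
  (∀ a ∈ σ, (pops ts a.1).tw = []) → D.F.Tor P (acts D.F.w ts i.1) (σ.image fun a => a.1.b) →
  (L.scn h μ).M.sys.Piece (↑c : Set D.A) π → ∃ η, Nonempty (Pres L h μ i c π (acts D.F.w ts i.1) η) ∧
    (L.scn h μ).nm σ π = Fm.nm (σ.image fun a => a.1.b) (c.image fun a => a.1.b) η ∧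
    (L.scn h μ).nh π = D.F.nh (c.image fun a => a.1.b) η ∧
    (L.scn h μ).nd c ≤ D.F.nd (c.image fun a => a.1.b)

/-- BR-NUM: good cells satisfy the numerical hypothesis -/
def NumStmt (μ : ℕ → ℤ × ℤ) : Prop := ∀ {D : Dt Γ} (h : D.OK P) (i : D.L) (σ : Finset D.A),
  D.F.GC P i.1 (σ.map (.subtype _)) → (∃ p ∈ D.s, p.1 = i.1 ∧ ∀ a ∈ σ, a.1 ∈ p.2) →
  ∀ᶠ k in atTop, ∀ c ⊆ σ, (∀ a ∈ c, a.1.b.pin) → Sid48.NumAt (L.scn h (μ k)) i σ c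

end Crest.Agent.X212.Br55
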