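import Crest.Agent.X212.Br55.Sp
import Crest.Agent.X212.Num57.Ut

/-!
# Row 212, layer G (helper55): side vectors of all pieces at once, cutting at the sphere `s`
-/

set_option autoImplicit false
set_option linter.unusedSectionVars false
noncomputable section
open Set Function Filter

namespace Crest.Agent.X212.Br55
open M G75 Wd38 Nm96 Cyl58 Br33
open Sid48 hiding chg
open Tm38 (Ref NfStmt Cpy)
open Rod53 (Z2)

variable {Γ : Nm} {κ lam : Type} [Fintype κ] [Fintype lam] [DecidableEq lam]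
  {C : Cx Γ} {G : Tab C.kd κ} {P : Pm Γ} {L : LP C G P lam}

/-! ### words -/

section wd
variable {w : Shp Γ} {F : Fm Γ} {B B' : Finset Bs} {η η' : Bs → Bool} {s t x y : ℤ} {φ : Z2 → Z2 → ℤ → ℤ → ℝ}
  {n n' : Wd38.Wt}

theorem acts_agr {j : ℤ} : ∀ {ts : List Tw} {n : Wd38.Wt}, (∀ τ ∈ ts, j < τ.x ∨ τ.y < j) →
    (acts w ts n).nl j = n.nl j ∧ (acts w ts n).nr j = n.nr j
  | [], _, _ => ⟨rfl, rfl⟩
  | τ :: _, _, h =>
    have a := acts_agr fun τ' q => h τ' (List.mem_cons_of_mem _ q)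
    have b : ¬(τ.x ≤ j ∧ j ≤ τ.y) := by have := h τ List.mem_cons_self; omega
    ⟨a.1.trans (if_neg b), a.2.trans (if_neg b)⟩

theorem ssum_cgr (h1 : ∀ c, s < c → c ≤ t → (InV B η c ↔ InV B' η' c))
    (h2 : ∀ a : Bs, a.arc → s ≤ a.lo → a.lo < t → (a ∈ B ∧ Adj B η a ↔ a ∈ B' ∧ Adj B' η' a) ∧ η a = η' a) :
    ssum w B η s t φ n = ssum w B' η' s t φ n := by
  unfold ssum
  congr 1
  · exact Finset.sum_congr (Finset.filter_congr fun c _ => by have := h1 c; tauto) fun _ _ => rfl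
  · refine Finset.sum_congr (Finset.ext fun a => ?_) fun a u => ?_
    · simp only [Finset.mem_filter]
      have := h2 a; tauto
    · have := (Finset.mem_filter.1 u).2
      rw [(h2 a this.1 this.2.1 this.2.2.1).2]

/-- the walls with the sphere -/
abbrev iB (y : ℤ) (B : Finset Bs) : Finset Bs := insert (.sS y) B

/-- the past of the sphere -/
abbrev iη (y : ℤ) (η : Bs → Bool) : Bs → Bool := update η (.sS y) false

theorem inV_ins (hB : .sS y ∉ B) {c : ℤ} : InV (iB y B) (iη y η) c ↔ c ≤ y ∧ InV B η c := by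
  simp only [InV, Finset.forall_mem_insert, update_self, Bs.side, decide_eq_false_iff_not, not_lt]
  exact and_congr_right' (forall₂_congr fun a u => by rw [iη, update_of_ne (ne_of_mem_of_not_mem u hB)])

variable (hB : ∀ a ∈ B, a.lo ≤ a.hi ∧ a.hi < x ∧ η a = true) (xy : x ≤ y)
include hB xy

theorem ins_not : .sS y ∉ B := fun u => (xy.trans_lt (hB _ u).2.1).false

theorem ssum_head (h1 : w.l ≤ x) (h2 : y ≤ w.r) :
    ssum w (iB y B) (iη y η) x (w.r + 1) φ n = ∑ c ∈ Finset.Ioc x y, vx w φ n c := by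
  rw [ssum, Finset.sum_eq_zero (s := Finset.filter _ (iB y B)), add_zero]
  · refine Finset.sum_congr (Finset.ext fun c => ?_) fun _ _ => rfl
    simp only [Finset.mem_filter, Finset.mem_Ioc, inV_ins (ins_not hB xy)]
    exact ⟨fun k => ⟨k.2.1, k.2.2.2.1⟩, fun k => ⟨by omega, k.1, by omega, k.2, fun a u =>
      (side_of_gt ((hB a u).2.1.trans k.1)).trans (hB a u).2.2.symm⟩⟩
  · intro a u
    obtain ⟨u, v, o, -⟩ := Finset.mem_filter.1 u
    obtain rfl | u := Finset.mem_insert.1 u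
    · exact v.elim
    · have := hB a u; omega

theorem ssum_past : ssum w (iB y B) (iη y η) s x φ n = ssum w B η s x φ n :=
  ssum_cgr (fun c _ u => (inV_ins (ins_not hB xy)).trans (and_iff_right (u.trans xy))) fun a u _ v => by
    have n : a ≠ .sS y := by rintro rfl; exact u
    refine ⟨and_congr (by simp [n]) ?_, update_of_ne n _ _⟩
    rw [Adj, Finset.erase_insert_of_ne n.symm]
    exact (inV_ins fun o => ins_not hB xy (Finset.mem_of_mem_erase o)).trans (and_iff_right (by omega))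

theorem tpc_ins (tp : TPc F B η) (ok : (Bs.sS y).OK F.w) (fz : ∀ b ∈ F.fz, (Bs.sS y).Far b) :
    TPc F (iB y B) (iη y η) ∧ ¬F.Lst (iB y B) (iη y η) ∧ (F.Fst (iB y B) (iη y η) ↔ F.Fst B η) := by
  have n := ins_not hB xy
  have f : ∀ a ∈ B, a.Far (.sS y) := fun a u => .inl ((hB a u).2.1.trans_le xy)
  refine ⟨⟨Finset.forall_mem_insert .. |>.2 ⟨⟨ok, trivial⟩, tp.ok⟩, fun a u b v o => ?_,
    Finset.forall_mem_insert .. |>.2 ⟨fz, tp.fz⟩, .inr ⟨_, Finset.mem_insert_self _ _, ?_⟩⟩,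
    fun u => by have := ((inV_ins n).1 u).1; have := ok.2.1; omega, (inV_ins n).trans (and_iff_right ok.1)⟩
  · rcases Finset.mem_insert.1 u with rfl | u <;> rcases Finset.mem_insert.1 v with rfl | v
    exacts [(o rfl).elim, far_symm (f b v), f a u, tp.far a u b v o]
  · rw [Adj, Finset.erase_insert n]
    exact fun a u => (side_of_gt (by have := (hB a u).2.1; change _ < y + 1; omega)).trans
      ((update_of_ne (ne_of_mem_of_not_mem u n) _ _).trans (hB a u).2.2).symm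

omit hB xy

theorem pc_ins {hw : w.OK} {X : TP V4} (R : Rz C hw X) (hB : .sS y ∉ B) :
    pc R (iB y B) (iη y η) = pc R B η ∩ sd R (.sS y) false := by
  ext z
  simp only [pc, Finset.forall_mem_insert, update_self, mem_ofPred_eq, mem_inter_iff]
  exact and_comm.trans (and_congr_left' (forall₂_congr fun a u => by
    rw [iη, update_of_ne (ne_of_mem_of_not_mem u hB)]))

theorem hd_eq {Y : Ref Γ} {d : ℤ} (h : Cpy Y.w w Y.n n d Y.a Y.s) (r : Y.s < Y.w.r) (a : Y.a ≤ x) :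
    ∑ c ∈ Finset.Ioc (x + d) (Y.s + d), vx w φ n c = Y.hd φ x := by
  rw [← Finset.map_add_right_Ioc, Finset.sum_map]
  refine Finset.sum_congr rfl fun c u => ?_
  have u := Finset.mem_Ioc.1 u
  have p := h (c - 1) (by omega) (by omega)
  have q := h c (by omega) u.2
  simp only [vx, addRightEmbedding_apply, Shp.lf, Shp.rt, show c + d - 1 = c - 1 + d by ring, p.1, p.2.2 (by omega), q.1, q.2.1]

end wd

/-! ### side vectors -/

instance conX {w : Shp Γ} (hw : w.OK) : ConnectedSpace (C.X hw).mf.M := (C.rz hw).con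

variable {D : Dt Γ} {h : D.OK P} {i : D.L} {σ c c₀ : Finset D.A} {π π' : Reg D.A} {n : Wd38.Wt}

theorem Pres.re {μ μ' η η'} (p : Pres L h μ i c π n η) (p' : PresS L h μ' i σ c π n η')
    (v : (sy G h).Piece ↑c π) : Nonempty (PresS L h μ' i σ c π n η) := by
  obtain ⟨y, hy⟩ := v.toIsReg.nonempty
  have e : ∀ b ∈ c.image fun a => a.1.b, η b = η' b := Finset.forall_mem_image.2 fun a u =>
    Wall.sd_inj _ ((mem_U p y).1 hy a u) ((mem_U p'.toPres y).1 hy a u)
  exact ⟨{ p' with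
    tp := p.tp
    sd := p.sd
    U := (congrArg _ (Set.ext fun z => forall₂_congr fun b u => by rw [e b u])).trans p'.U }⟩

variable (L h i σ c n) in
/-- presentations of all pieces -/
structure Eta (η : Reg D.A → Bs → Bool) : Prop where
  sub : c ⊆ σ
  cell : (sy G h).Cell ↑c
  pr : ∀ π, (sy G h).Piece ↑c π → ∀ μ, Nonempty (PresS L h μ i σ c π n (η π))
  nh : ∀ π, (sy G h).Piece ↑c π → ∀ μ, (L.scn h μ).nh π = D.F.nh (c.image fun a => a.1.b) (η π)
  nd : ∀ μ, (L.scn h μ).nd c ≤ D.F.nd (c.image fun a => a.1.b)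

variable (L h i σ n) in
/-- a cell that occurs, with its toric line -/
structure Oc : Prop where
  K : ∀ μ, σ ∈ (L.scn h μ).K i
  cel : Cel D.F.ls (σ.map (.subtype _))
  eta : ∀ c ⊆ σ, (∀ a ∈ c, a.1.b.pin) → ∃ η, Eta L h i σ c n η

theorem oc_of (tw : TwStmt L) {d : ℕ} {z : Nm96.Cn} (g : D.F.Cl P d z) (s : D.Sup z)
    (u : (i.1, σ.map (.subtype _)) ∈ z.support) {ts} (pp : D.F.Pops ts (σ.map (.subtype _)))
    (tn : ∀ a ∈ σ.map (Embedding.subtype _), (pops ts a).tw = []) : Oc L h i σ (acts D.F.w ts i.1) := by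
  have gc := g.gd _ u
  obtain ⟨_, -, -, tor⟩ := gc.tor
  rw [Finset.map_eq_image, Finset.image_image] at tor
  have K := fun μ => mem_K (μ := μ) L h (s _ u)
  refine ⟨K, cel_sf g.toSf _ u, fun c hc pin => ?_⟩
  have cl : (sy G h).Cell ↑c := ((okStmt L h 0).cell i σ (K 0)).1.mono fun a u => .inl (hc u)
  have pr := fun μ π => presS (π := π) tw h μ i hc pin gc.inj pp (fun a u => tn _ (Finset.mem_map_of_mem _ u))
    ⟨Finset.forall_mem_image.2 fun a v => by
      obtain v | v := (g.mem _ u).2 _ (Finset.mem_map_of_mem (Embedding.subtype _) v)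
      · change a.1.b.pin at v
        generalize a.1.b = b at v
        cases b <;> trivial
      · obtain ⟨x, e, -⟩ := h.ok.ls _ v.1
        exact (show a.1.b = _ from e) ▸ trivial, tor.far, tor.fz, tor.ls⟩
  choose! η p using pr 0
  obtain ⟨x, hx⟩ := exists_off cl
  obtain ⟨π₀, h₀, -⟩ := Sys.exists_piece cl hx
  exact ⟨η, hc, cl, fun π v μ => let ⟨_, ⟨p'⟩, _⟩ := pr μ π v; (p π v).1.elim fun p => p.toPres.re p' v,
    fun π v _ => (p π v).2.1, fun _ => (p π₀ h₀).2.2⟩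

namespace Eta
variable {η : Reg D.A → Bs → Bool} (E : Eta L h i σ c n η)
include E

theorem ex_pt {j : ℤ} (h1 : D.F.w.l ≤ j) (h2 : j ≤ D.F.w.r + 1) : ∃ x, x ∉ (sy G h).cores ↑c ∧
    ∀ π, (sy G h).Piece ↑c π → (InV (c.image fun a => a.1.b) (η π) j ↔ x ∈ (sy G h).U π) := by
  obtain ⟨x, hx⟩ := exists_off E.cell
  obtain ⟨π₀, h₀, -⟩ := Sys.exists_piece E.cell hx
  obtain ⟨p⟩ := E.pr π₀ h₀ 0
  obtain ⟨x, k⟩ := Br33.ex_pt p.toPres h1 h2
  exact ⟨x, fun e => let ⟨a, u, e⟩ := mem_iUnion₂.1 e; e _ (k a u),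
    fun π v => (E.pr π v 0).elim fun p => (mem_iff p.toPres k).symm⟩

theorem uniq {j : ℤ} (h1 : D.F.w.l ≤ j) (h2 : j ≤ D.F.w.r + 1) (v : (sy G h).Piece ↑c π) (v' : (sy G h).Piece ↑c π')
    (u : InV (c.image fun a => a.1.b) (η π) j) (u' : InV (c.image fun a => a.1.b) (η π') j) : π = π' :=
  let ⟨_, _, k⟩ := E.ex_pt h1 h2
  v.unique E.cell v' ((k π v).1 u) ((k π' v').1 u')

theorem sum (ch : Bs → Bool → ℝ) (gL gR : ℝ) :
    ∑ π ∈ pcs (sy G h) c, D.F.chg (c.image fun a => a.1.b) (η π) ch gL gR =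
      gL + gR + ∑ a ∈ c.image fun a => a.1.b, (ch a true + ch a false) := by
  classical
  have := h.ok.w.lt
  obtain ⟨xL, oL, hL⟩ := E.ex_pt le_rfl (by omega)
  obtain ⟨xR, oR, hR⟩ := E.ex_pt (j := D.F.w.r + 1) (by omega) le_rfl
  obtain ⟨π₀, h₀, -⟩ := Sys.exists_piece E.cell oL
  obtain ⟨p₀⟩ := E.pr π₀ h₀ 0
  simp only [Fm.chg, Finset.sum_add_distrib]
  rw [Finset.sum_congr rfl fun π v => (E.pr π (mem_pcs.1 v) 0).elim fun p => (chg_eq p.toPres ch).symm]
  rw [sum_chg E.cell, sum_pt E.cell oL (p := fun π => D.F.Fst _ (η π)) hL,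
    sum_pt E.cell oR (p := fun π => D.F.Lst _ (η π)) hR, Finset.sum_image p₀.inj, Finset.sum_image p₀.inj,
    Finset.sum_add_distrib]
  ring

end Eta

end Crest.Agent.X212.Br55
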