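import Crest.Agent.X212.Tm38.W

/-!
# Row 212, layer G (helper55): terminal chains of words in charge form (pure data)

On the left of `a` the broken walls are `B ⊆ sL xa σ` and `Lst` means adjacent to `a`; on the right they are
`B ⊆ sR xa σ` and `Fst` means adjacent to `a`.
-/

set_option autoImplicit false
noncomputable section

namespace Crest.Agent.X212.Br55

open Crest.Agent.X212.Rod53 Crest.Agent.X212.Wd38 Crest.Agent.X212.Nm96 Crest.Agent.X212.Tm38 Finset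

variable {Γ : Nm}

/-- the walls left of the slot `x` -/
def sL (x : ℤ) (σ : Finset Bs) : Finset Bs := {a ∈ σ | a.hi < x}

/-- the walls right of the slot `x` -/
def sR (x : ℤ) (σ : Finset Bs) : Finset Bs := {a ∈ σ | x < a.lo}

/-- the shifts of the head and of the tail, the auxiliary line, the coupling slices -/
structure TC where
  d : ℤ
  e : ℤ
  n : Wt
  G : Finset Bs

namespace TC
variable (P : Pm Γ) (Y : Ref Γ) (R : ℕ) (F : Fm Γ) (T : TC)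

section pc
variable (n : Wt) (σ B : Finset Bs) (η : Bs → Bool)

/-- the sum right of `h` -/
def rs (φ : Z2 → Z2 → ℤ → ℤ → ℝ) : ℝ := ssum F.w B η (Y.h + T.d) (F.w.r + 1) φ n

open Classical in
/-- the reserve of the right cap -/
def mb : ℝ := if F.Lst B η then P.M else 0

/-- the couplings in the piece -/
def nc : ℕ := #{γ ∈ T.G | Adj B η γ}

/-- right pieces away from `a` -/
def Bw (g : ℝ) : Prop := (¬F.Lst B η ∧ F.BdM n σ B η g) ∨ (F.Lst B η ∧ F.BdL P n σ B η g) ∨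
  g - mb P F B η ≤ F.wt n σ B η 0

/-- the right piece at `a`, irreducible points -/
def BRw (g : ℝ) : Prop := g - mb P F B η ≤
  T.rs Y F n B η al + Fm.nm σ B η / 4 - F.nh B η / 2 + 2 - Y.C - Y.hd al Y.h

/-- the relative weight of the right piece at `a` -/
def wr (k : ℝ) : ℝ := 6 * k + T.rs Y F n B η om + Fm.nm σ B η - 2 * F.nh B η + 4 - Y.hd om Y.h

/-- a lower bound for the abelian levels between `h` and `b` -/
def LbW (k : ℝ) : Prop := ∀ n', TOK F.w n' → Par F.w n n' →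
  k ≤ -ssum F.w B η (Y.h + T.d) (Y.b + T.e) lq n' / 4

end pc

variable (n : Wt) (σ : Finset Bs)

/-- the left side -/
def NL : Prop := ∀ B ⊆ σ, (∀ a ∈ B, a.pin) → B.Nonempty → ∃ (ch : Bs → Bool → ℝ) (gL gA : ℝ),
  3 < gL + gA + ∑ a ∈ B, (ch a true + ch a false) ∧ ∀ η, (∃ a ∈ B, Adj B η a) →
    (¬F.Lst B η → F.chg B η ch gL gA ≤ 4) ∧ (F.Fst B η ∨ (¬F.Lst B η ∧ F.BdM n σ B η (F.chg B η ch gL gA)) ∨
      (F.Lst B η ∧ F.chg B η ch gL gA ≤ ssum F.w B η (F.w.l - 1) (Y.a + T.d) al n + Y.hd al Y.a +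
        Fm.nm σ B η / 4 + Y.C + 3 / 2))

/-- the right side -/
def NR : Prop := ∀ B ⊆ σ, (∀ a ∈ B, a.pin) → B.Nonempty → ∃ (ch : Bs → Bool → ℝ) (gA gR : ℝ),
  3 < gA + gR + ∑ a ∈ B, (ch a true + ch a false) - 2 * F.nd B ∧ ∀ η, (∃ a ∈ B, Adj B η a) →
    (F.Fst B η → T.BRw P Y F n σ B η (F.chg B η ch gA gR)) ∧
    (¬F.Fst B η → F.chg B η ch gA gR ≤ 4 ∧ Bw P F n σ B η (F.chg B η ch gA gR))

/-- the right side, points fixed by the circle; `x` is the gain of a coupling -/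
def NS : Prop := ∀ B ⊆ σ, (∀ a ∈ B, a.pin) → ∃ (ch : Bs → Bool → ℝ) (gA gR x : ℝ),
  R + 4 + 2 * F.nd B < gA + gR + ∑ a ∈ B, (ch a true + ch a false) + x * #T.G ∧
    ∀ η g, B = ∅ ∨ (∃ a ∈ B, Adj B η a) → g = F.chg B η ch gA gR + x * T.nc B η →
      g ≤ 4 + 2 * T.nc B η ∧ ∃ k, T.LbW Y F n B η k ∧
        (¬F.Fst B η → g - mb P F B η ≤ F.wt n σ B η k ∧ Bw P F n σ B η g) ∧
        (F.Fst B η → g - mb P F B η ≤ T.wr Y F n σ B η k ∧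
          (T.BRw P Y F n σ B η g ∨ g - mb P F B η ≤ T.wr Y F n σ B η 0))

/-- **terminal chains** -/
structure OK (c : Cn) : Prop where
  ok : F.OK P
  lok : F.LOK P T.n
  fz : .yS (Y.a + T.d) ∈ F.fz ∧ .yS (Y.h + T.d) ∈ F.fz ∧ .yS (Y.b + T.e) ∈ F.fz
  G : ∀ γ ∈ T.G, γ ∈ F.fz ∧ Y.h + T.d < γ.lo
  sb : Y.s + T.d < Y.b + T.e
  r : F.w.r = Y.w.r + T.e
  hd : Cpy Y.w F.w Y.n T.n T.d Y.a Y.s
  tl : Cpy Y.w F.w Y.n T.n T.e Y.b Y.w.r
  tor : ∀ a ∈ c.walls, a.tw = [] ∨ a.In (Y.h + T.d) (Y.b + T.e)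
  side : ∀ x ∈ c.walls.image Wl.b ∪ F.fz,
    x = .yS (Y.a + T.d) ∨ x = .yS (Y.h + T.d) ∨ x.hi < Y.a + T.d ∨ Y.h + T.d < x.lo
  tw : ∀ x ∈ c.walls.image Wl.b ∪ F.fz, Y.b + T.e < x.lo → x.sh (-T.e) ∈ Y.A
  ls : ∀ l ∈ F.ls, Y.h + T.d < l.lo ∧ l.hi < Y.b + T.e
  orb : ∀ p ∈ c.support, Relation.ReflTransGen (Fl F.ls) T.n p.1
  exc : ∀ p ∈ c.support, ∀ q ∈ c.support,
    (q.1, {a ∈ p.2 | a.b.hi < Y.a + T.d} ∪ {a ∈ q.2 | Y.a + T.d < a.b.lo}) ∈ c.support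
  s : ↑(Bs.sS (Y.s + T.d)) ∈ c.walls ∨ F.GC P T.n {↑(Bs.sS (Y.s + T.d))}
  cell : ∀ p ∈ c.support, ∃ ts, F.Pops ts p.2 ∧ (∀ a ∈ p.2, (pops ts a).tw = []) ∧
    (∀ t ∈ ts, Y.h + T.d < t.x ∧ t.y < Y.b + T.e) ∧
    T.NL Y F (acts F.w ts p.1) (sL (Y.a + T.d) (p.2.image Wl.b)) ∧
    T.NR P Y F (acts F.w ts p.1) (sR (Y.a + T.d) (p.2.image Wl.b)) ∧
    T.NS P Y R F (acts F.w ts p.1) (sR (Y.a + T.d) (p.2.image Wl.b))

end TC

/-- **finite rank, charge form** -/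
def FactC (P : Pm Γ) (T : WTh Γ) : Prop := ∀ Y : Ref Γ, Y.OK P → ∃ R, ∀ F d c (t : TC),
  t.OK P Y R F c → F.Cl P d c → T.Z F d c = 0

end Crest.Agent.X212.Br55
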