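import Crest.Agent.X212.Br55.Cel
import Crest.Agent.X212.Br55.Tc
import Crest.Agent.X212.Br33.Pres
import Crest.Agent.X212.Br33.Num

/-!
# Row 212, layer G (helper55): presentations of pieces, the numerical hypothesis (after `Br33`)
-/

set_option autoImplicit false
set_option linter.unusedSectionVars false
noncomputable section
open Set Function Filter

namespace Crest.Agent.X212.Br55
open M G75 Wd38 Nm96 Cyl58 Br33
open Sid48 hiding chg

variable {Γ : Nm} {κ lam : Type} [Fintype κ] [Fintype lam] [DecidableEq lam]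
  {C : Cx Γ} {G : Tab C.kd κ} {P : Pm Γ} {L : LP C G P lam}

/-- `Fm.Tor` without the numbers -/
structure Tor0 (F : Fm Γ) (n : Wd38.Wt) (σ : Finset Bs) : Prop where
  ok : ∀ a ∈ σ, a.OKn F.w n
  far : ∀ a ∈ σ, ∀ b ∈ σ, a ≠ b → a.Far b
  fz : ∀ a ∈ σ, ∀ b ∈ F.fz, a.Far b
  ls : ∀ a ∈ σ, ∀ l ∈ F.ls, a = l ∨ Crs a l ∨ a.hi < l.lo - 1 ∨ l.hi + 1 < a.lo ∨
    (a.arc ∧ a.lo < l.lo ∧ l.hi < a.hi)

theorem tor0 {F : Fm Γ} {n σ} (h : F.Tor P n σ) : Tor0 F n σ := ⟨fun a k => (h.ok a k).2, h.far, h.fz, h.ls⟩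

variable {D : Dt Γ} {h : D.OK P} {μ : ℤ × ℤ} {i : D.L} {σ σ' c c₀ : Finset D.A} {π : Reg D.A} {n : Wd38.Wt}
  {η : Bs → Bool}

theorem presS (tw : TwStmt L) (h : D.OK P) (μ) (i : D.L) {ts} (hc : c ⊆ σ) (pin : ∀ a ∈ c, a.1.b.pin)
    (inj : InjOn Wl.b (σ.map (.subtype _) : Finset Wl)) (pp : D.F.Pops ts (σ.map (.subtype _)))
    (tn : ∀ a ∈ σ, (pops ts a.1).tw = []) (tor : Tor0 D.F (acts D.F.w ts i.1) (σ.image fun a => a.1.b))
    (hπ : (L.scn h μ).M.sys.Piece (↑c : Set D.A) π) : ∃ η, Nonempty (PresS L h μ i σ c π (acts D.F.w ts i.1) η) ∧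
      (L.scn h μ).nh π = D.F.nh (c.image fun a => a.1.b) η ∧ (L.scn h μ).nd c ≤ D.F.nd (c.image fun a => a.1.b) := by
  have := (C.rz h.h0.w).con
  have := (L.scn h μ).M.con
  have ml : ∀ {a : D.A}, a ∈ (L.scn h μ).ls → IsL D.F.ls a.1 := fun k => (Finset.mem_filter.1 k).2
  have ut : ∀ a : D.A, a ∈ σ ∨ IsL (D.F.fz ∪ D.F.ls) a.1 → Utw ts a.1 := fun a q =>
    utw_cell pp (fun _ u => by obtain ⟨b, v, rfl⟩ := Finset.mem_map.1 u; exact tn b v)
      (q.imp_left (Finset.mem_map_of_mem _))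
  have T := tr G h (σ := {a | a ∈ σ ∨ IsL (D.F.fz ∪ D.F.ls) a.1}) ut
  have sub : ↑c ⊆ {a : D.A | a ∈ σ ∨ IsL (D.F.fz ∪ D.F.ls) a.1} := fun a q => .inl (hc q)
  have iσ : InjOn (fun a : D.A => a.1.b) σ := fun a q a' q' e =>
    Subtype.ext (inj (Finset.mem_map_of_mem _ q) (Finset.mem_map_of_mem _ q') e)
  have im := fun a (q : a ∈ σ) => Finset.mem_image_of_mem (fun a : D.A => a.1.b) q
  have far : ∀ a ∈ σ, ∀ a' ∈ σ, a ≠ a' → a.1.b.Far a'.1.b := fun a q a' q' n =>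
    tor.far _ (im a q) _ (im a' q') fun e => n (iσ q q' e)
  have fc := fun a q a' q' => far a (hc q) a' (hc q')
  have cl := (T.mono sub).cell fc
  obtain ⟨η, hU⟩ := exists_eta (X := C.X h.h0.w) cl hπ (iσ.mono hc)
  have sd := fun a => some_iff T sub hU hπ (a := a) fc
  have tm := fun t k => let q := pops_mem (t := t) pp k; And.intro q.1 q.2.2
  obtain ⟨m, hm⟩ := tw h.h0 μ ts tm
  have lk := lok_acts h.h0 tm (h.l0 i)
  have lu : ∀ {a : D.A}, IsL D.F.ls a.1 → a ∈ σ ∨ IsL (D.F.fz ∪ D.F.ls) a.1 := fun k =>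
    .inr ⟨k.1, Finset.mem_union_right _ k.2⟩
  have il : InjOn (fun a : D.A => a.1.b) {a | a ∈ (L.scn h μ).ls} := fun a q a' q' => ext_b (ml q) (ml q')
  refine ⟨η, ⟨⟨⟨(C.rz h.h0.w).tws ts, by have := m.pos; rw [hm] at this; exact this, iσ.mono hc, ⟨?_, ?_, ?_, ?_⟩, sd,
    T.mono fun a q => q.imp_left (hc ·), fun a q => utw_j _ (ut a (q.imp (hc ·) fun k =>
      ⟨k.1, Finset.mem_union_left _ k.2⟩)) _, image_pc T sub hU, L.W h.h0 lk μ, m.u i.1, ?_⟩, T,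
      fun a q => utw_j _ (ut a q) _, fun a q => tor.ok _ (im a q), far, fun a q => tor.fz _ (im a q),
      fun a q => tor.ls _ (im a q)⟩⟩, ncard_eq (il.mono inter_subset_left) fun b => ?_, ?_⟩
  · exact Finset.forall_mem_image.2 fun a q => ⟨(h.ad _ a.2).1.1, pin a q⟩
  · exact fun a q b q' => tor.far a (Finset.image_subset_image hc q) b (Finset.image_subset_image hc q')
  · exact fun a q => tor.fz a (Finset.image_subset_image hc q)
  · rcases c.eq_empty_or_nonempty with rfl | ⟨a, q⟩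
    · exact .inl rfl
    refine .inr (by_contra fun n => hπ.not_inn a q ?_)
    obtain rfl : π = top _ := funext fun a => Option.eq_none_iff_forall_ne_some.2 fun s e =>
      n ⟨_, Finset.mem_image_of_mem _ ((sd a s).1 e).1, ((sd a s).1 e).2.1⟩
    exact (Sys.inn_top _).ge trivial
  · have := m.uni i.1 lk (h.l0 i)
    rw [hm, L.p] at this
    exact this
  · rw [Finset.mem_filter]
    constructor
    · rintro ⟨q, f, k⟩
      have u : IsL D.F.ls (⟨b, h.ls b q⟩ : D.A).1 := ⟨rfl, q⟩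
      have f' := Finset.forall_mem_image.1 f
      exact ⟨_, ⟨mem_fil.2 u, (inn_iff T sub hU hπ (lu u) (fun v => not_far_self (le_hi h _) (f' v))
        fun _ v => f' v).2 k⟩, rfl⟩
    · rintro ⟨a, ⟨q, k⟩, rfl⟩
      have n' : a ∉ c := fun u => hπ.not_inn a u k
      have f : ∀ a' ∈ c, a'.1.b.Far a.1.b := fun a' u => by
        refine (sep_of_cmp (G := G) h (ml q) (ne_of_mem_of_not_mem u n') ?_).far (ls_arc h (ml q).2).1
        by_cases e : π a' = none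
        · exact ((hπ.toIsReg.outer e (fun b v => cl u (hπ.bd_subset v) fun o => v (o ▸ e))
            (hπ.not_inn a' u)).1.mono_left k.2.1).symm
        · exact (k.2.2 a' e).symm
      exact ⟨(ml q).2, Finset.forall_mem_image.2 f, (inn_iff T sub hU hπ (lu (ml q)) n' f).1 k⟩
  · rw [Fm.nd, ← ncard_coe_finset]
    refine ncard_le_ncard_of_injOn (fun a => a.1.b) (fun l ⟨q, a, u, n⟩ => Finset.mem_coe.2 (Finset.mem_filter.2
      ⟨(ml q).2, _, Finset.mem_image_of_mem _ u, fun f => n (T.cmp (sub u) (lu (ml q)) f)⟩))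
      (il.mono fun _ k => k.1) (Finset.finite_toSet _)

namespace PresS
variable (p : PresS L h μ i σ c π n η) (hc : c ⊆ σ) (hπ : (L.scn h μ).M.sys.Piece (↑c : Set D.A) π)
include p

theorem inj' : InjOn (fun a : D.A => a.1.b) σ := fun a q b q' e => by_contra fun k =>
  not_far_self (le_hi h a) (by have := p.far a q b q' k; rwa [← show a.1.b = b.1.b from e] at this)

include hc hπ

theorem inn {a : D.A} (k : a ∈ σ ∨ IsL D.F.fz a.1) (k' : a ∉ c) :
    a ∈ (L.scn h μ).M.sys.inn π ↔ Adj (c.image fun a => a.1.b) η a.1.b :=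
  inn_iff (X := C.X h.h0.w) p.trs (fun _ q => .inl (hc q)) (mem_U p.toPres) hπ
    (k.imp_right fun k => ⟨k.1, Finset.mem_union_left _ k.2⟩) k' fun b q => k.elim
      (fun k => p.far b (hc q) a k (ne_of_mem_of_not_mem q k')) fun k => p.fz b (hc q) _ k.2

theorem nm (s : σ' ⊆ σ) :
    (L.scn h μ).nm σ' π = Fm.nm (σ'.image fun a => a.1.b) (c.image fun a => a.1.b) η :=
  ncard_eq (p.inj'.mono (inter_subset_left.trans s)) fun b => by
    rw [Finset.mem_filter, Finset.mem_sdiff]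
    constructor
    · rintro ⟨⟨q', u⟩, k⟩
      obtain ⟨a, q, rfl⟩ := Finset.mem_image.1 q'
      exact ⟨a, ⟨q, (p.inn hc hπ (.inl (s q)) fun v => u (Finset.mem_image_of_mem _ v)).2 k⟩, rfl⟩
    · rintro ⟨a, ⟨q, k⟩, rfl⟩
      have u : a ∉ c := fun u => hπ.not_inn a u k
      refine ⟨⟨Finset.mem_image_of_mem _ q, fun v => ?_⟩, (p.inn hc hπ (.inl (s q)) u).1 k⟩
      obtain ⟨a', v, e⟩ := Finset.mem_image.1 v
      exact u (p.inj' (hc v) (s q) e ▸ v)

/-- lower bounds for pieces that are not first -/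
theorem bd {mR : ℤ} (hμ : μ.2 = mR) (ok : (L.scn h μ).OK) (nM : NbM L.L lam) (nL : NbL L.L lam P.M mR)
    (nT : NbT lam) (ab : AbS L) (hg : HgS L) (hK : σ ∈ (L.scn h μ).K i) (cel : Cel D.F.ls (σ.map (.subtype _)))
    (h₀ : c ⊆ c₀) (hπ₀ : (L.scn h μ).M.sys.Piece (↑c₀ : Set D.A) π) (f : ¬D.F.Fst (c.image fun a => a.1.b) η)
    {τ : Finset Bs} (e1 : (L.scn h μ).nm σ π = Fm.nm τ (c.image fun a => a.1.b) η)
    (e2 : (L.scn h μ).nh π = D.F.nh (c.image fun a => a.1.b) η) :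
    ∃ β sg l2, (L.scn h μ).Nb i ((L.scn h μ).M.sys.U π) β sg l2 ∧
      (∀ g k, g - TC.mb P D.F (c.image fun a => a.1.b) η ≤ D.F.wt n τ (c.image fun a => a.1.b) η k →
        g ≤ G75.Wt β sg l2 ((L.scn h μ).nm σ π) ((L.scn h μ).nh π) k) ∧
      ∀ g, TC.Bw P D.F n τ (c.image fun a => a.1.b) η g → (L.scn h μ).Bd i σ c₀ π g := by
  have A : ∀ g β sg l2, (D.F.Hg n (c.image fun a => a.1.b) η ∨ ∀ n' l,
      D.F.AbC n (c.image fun a => a.1.b) η n' l → G75.Lv sg l2 l →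
        g ≤ G75.Wt β sg l2 ((L.scn h μ).nm σ π) ((L.scn h μ).nh π) l) → (L.scn h μ).Ab i σ c₀ π fun l =>
      G75.Lv sg l2 l → g ≤ G75.Wt β sg l2 ((L.scn h μ).nm σ π) ((L.scn h μ).nh π) l := fun g β sg l2 u => by
    have big : ∀ l, (g + 3 * β - (l2 - sg) / 2 + 2 * (L.scn h μ).nh π) / 6 ≤ l →
        g ≤ G75.Wt β sg l2 ((L.scn h μ).nm σ π) ((L.scn h μ).nh π) l := fun l w => by
      unfold G75.Wt
      linarith [Nat.cast_nonneg (α := ℝ) ((L.scn h μ).nm σ π)]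
    rcases u with u | u
    · exact ab_mono (hg h μ i σ c c₀ π _ η _ ok hK cel hc h₀ hπ hπ₀ p f u) fun l w _ => big l w
    · exact ab_mono (ab h μ i σ c c₀ π _ η _ ok hK cel hc h₀ hπ hπ₀ p f) fun l w =>
        w.elim (fun w _ => big l w) fun ⟨n', w⟩ => u n' l w
  have Z : ∀ {β sg l2 g}, (L.scn h μ).Nb i ((L.scn h μ).M.sys.U π) β sg l2 →
      g ≤ G75.Wt β sg l2 ((L.scn h μ).nm σ π) ((L.scn h μ).nh π) 0 → (L.scn h μ).Bd i σ c₀ π g := fun k u =>
    bd_of_lv k le_rfl le_rfl fun l v => u.trans (by unfold G75.Wt; linarith [v.1])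
  by_cases l : D.F.Lst (c.image fun a => a.1.b) η
  · obtain ⟨β, sg, l2, k1, k2⟩ := nL D.F _ _ p.W _ η hμ p.tp f l
    have m1 := le_max_left (β - (1 + D.F.tot (c.image fun a => a.1.b) η lp n)) 0
    have m2 := le_max_right (β - (1 + D.F.tot (c.image fun a => a.1.b) η lp n)) 0
    replace k2 : P.M + 3 * max (β - (1 + D.F.tot _ η lp n)) 0 ≤
      (l2 - sg - (D.F.tot _ η lq n - D.F.tot _ η lg n)) / 2 := k2
    rw [TC.mb, if_pos l]
    have W : ∀ g k, g - P.M ≤ D.F.wt n τ (c.image fun a => a.1.b) η k →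
        g ≤ G75.Wt β sg l2 ((L.scn h μ).nm σ π) ((L.scn h μ).nh π) k := fun g k u => by
      rw [e1, e2]
      unfold Fm.wt wg at u
      unfold G75.Wt
      linarith
    have N := nb p.toPres nT k1
    refine ⟨β, sg, l2, N, W, fun g u => ?_⟩
    obtain b2 | u := u.resolve_left fun u => u.1 l
    · refine ⟨β, sg, l2, N, fun l _ w => ?_, A _ _ _ _ (b2.2.2.imp_right fun u n' l w _ => W _ _ (u n' l w))⟩
      have := b2.2.1 (l - 3 * (β - (1 + D.F.tot (c.image fun a => a.1.b) η lp n)) / 8)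
        (by rw [e1, e2] at w; unfold G75.Dl at w; unfold Fm.ix dl; linarith)
      rw [e1, e2]
      unfold Fm.wt wg at this
      unfold G75.Wt
      linarith
    · exact Z N (W _ _ (by rwa [TC.mb, if_pos l] at u))
  · have N := nb p.toPres nT (nM D.F _ _ p.W _ η p.tp f l)
    rw [TC.mb, if_neg l]
    refine ⟨_, _, _, N, fun g k u => ?_, fun g u => ?_⟩
    · rw [e1, e2]; exact (sub_zero g).ge.trans u
    obtain ⟨-, b1, b2⟩ | u | u := u
    · refine ⟨_, _, _, N, ?_, A _ _ _ _ ?_⟩ <;> rw [e1, e2]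
      exacts [b1, b2]
    · exact (l u.1).elim
    · refine Z N ?_
      rw [TC.mb, if_neg l] at u
      rw [e1, e2]; exact (sub_zero g).ge.trans u

end PresS

theorem bd_fst {μ : ℕ → ℤ × ℤ} (nF : NbF L.L lam μ) (nT : NbT lam) (g : ℝ)
    (pr : ∀ k, ∃ η, Nonempty (Pres L h (μ k) i c π n η)) (p : Pres L h (μ 0) i c π n η)
    (v : (L.scn h (μ 0)).M.sys.Piece (↑c : Set D.A) π) (f : D.F.Fst (c.image fun a => a.1.b) η) :
    ∀ᶠ k in atTop, (L.scn h (μ k)).Bd i σ c₀ π g := by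
  filter_upwards [nF D.F h.h0.w n _ η (g + 2 * (L.scn h (μ 0)).nh π) p.tp f] with k hk
  obtain ⟨η', ⟨p'⟩⟩ := pr k
  obtain ⟨β, sg, l2, k1, k2⟩ := hk p'.W
  have := (L.scn h (μ 0)).M.con
  obtain ⟨y, hy⟩ := v.toIsReg.nonempty
  have e : ∀ b ∈ c.image fun a => a.1.b, η b = η' b := Finset.forall_mem_image.2 fun a u =>
    Wall.sd_inj _ ((mem_U p y).1 hy a u) ((mem_U p' y).1 hy a u)
  rw [show pc _ _ η = pc _ _ η' from Set.ext fun z => forall₂_congr fun b u => by rw [e b u]] at k1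
  refine bd_of_lv (nb p' nT k1) (Nat.zero_le _) (h₀ := (L.scn h (μ 0)).nh π) le_rfl fun l u => ?_
  unfold G75.Wt
  push_cast
  linarith [u.1]

variable (L)

/-- **BR-NUM** -/
theorem numS {μ : ℕ → ℤ × ℤ} {mR : ℤ} (hμ : ∀ k, (μ k).2 = mR) (ok : OkStmt L) (tw : TwStmt L)
    (nM : NbM L.L lam) (nL : NbL L.L lam P.M mR) (nF : NbF L.L lam μ) (nT : NbT lam) (ab : AbS L)
    (hg : HgS L) : NumS L μ := by
  classical
  intro D h i σ gc cel hK
  obtain ⟨ts, pp, tn, tor⟩ := gc.tor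
  rw [Finset.map_eq_image, Finset.image_image] at tor
  replace tor : D.F.Tor P _ (σ.image fun a => a.1.b) := tor
  refine eventually_all.2 fun c => ?_
  by_cases q : c ⊆ σ ∧ ∀ a ∈ c, a.1.b.pin
  swap
  · exact .of_forall fun _ a b => absurd ⟨a, b⟩ q
  have := fun k => (L.scn h (μ k)).M.con
  have pr' := fun k π => presS (π := π) tw h (μ k) i q.1 q.2 gc.inj pp
    (fun a u => tn _ (Finset.mem_map_of_mem _ u)) (tor0 tor)
  have cl : (L.scn h (μ 0)).M.sys.Cell (↑c : Set D.A) := ((ok h _).cell i σ hK).1.mono fun a u => .inl (q.1 u)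
  obtain ⟨x, hx⟩ := exists_off cl
  obtain ⟨π₀, h₀, -⟩ := Sys.exists_piece cl hx
  obtain ⟨η₀, ⟨p₀⟩, -, nd⟩ := pr' 0 π₀ h₀
  have := h.ok.w.lt
  obtain ⟨xL, hL⟩ := ex_pt p₀.toPres le_rfl (by omega)
  obtain ⟨xR, hR⟩ := ex_pt p₀.toPres (j := D.F.w.r + 1) (by omega) le_rfl
  have off : ∀ {x j}, (∀ a ∈ c, x ∈ ((L.scn h (μ 0)).M.sys.w a).sd (a.1.b.side j)) →
      x ∉ (L.scn h (μ 0)).M.sys.cores (↑c : Set D.A) := fun k e => let ⟨a, u, e⟩ := mem_iUnion₂.1 e; e _ (k a u)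
  obtain ⟨ch, gL, gR, h5, hb⟩ := numC tor.num (Finset.image_subset_image q.1) fun a u => (p₀.tp.ok a u).2
  set g := fun π => Sid48.chg (fun a : D.A => ch a.1.b) π + (if xL ∈ (L.scn h (μ 0)).M.sys.U π then gL else 0) +
    if xR ∈ (L.scn h (μ 0)).M.sys.U π then gR else 0 with hg'
  have ge : ∀ {k π η}, Pres L h (μ k) i c π (acts D.F.w ts i.1) η →
      D.F.chg (c.image fun a => a.1.b) η ch gL gR = g π := fun p => by
    rw [hg', Fm.chg, ← chg_eq p]
    exact congrArg₂ _ (congrArg _ (if_congr (mem_iff p hL).symm rfl rfl)) (if_congr (mem_iff p hR).symm rfl rfl)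
  suffices ∀ π, ∀ᶠ k in atTop, (L.scn h (μ 0)).M.sys.Piece (↑c : Set D.A) π → (L.scn h (μ k)).Bd i σ c π (g π) by
    filter_upwards [eventually_all.2 this] with k hk _ _
    refine numAt_of_chg (L.scn h (μ k)) i σ c cl _ gL gR _ (off hL) (off hR) (fun _ _ => Iff.rfl) (fun _ _ => Iff.rfl) hk
      (fun u π v => ?_) (Nat.cast_le.2 nd) ?_
    · obtain ⟨η, ⟨p⟩, -⟩ := pr' 0 π v
      exact (ge p.toPres).ge.trans ((hb η p.tp.ne).1 (u.image _))
    · rw [Finset.sum_image p₀.inj] at h5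
      simp only [add_comm (ch _ true)] at h5
      exact (show _ < gL + gR + ∑ a ∈ c, (ch a.1.b false + ch a.1.b true) by linarith)
  intro π
  refine eventually_imp_distrib_left.2 fun v => ?_
  by_cases f : xL ∈ (L.scn h (μ 0)).M.sys.U π
  · obtain ⟨η, ⟨p⟩, -⟩ := pr' 0 π v
    exact bd_fst nF nT _ (fun k => (pr' k π v).imp fun _ u => u.1.map (·.toPres)) p.toPres v ((mem_iff p.toPres hL).1 f)
  refine .of_forall fun k => ?_
  obtain ⟨η, ⟨p⟩, e2, -⟩ := pr' k π v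
  have f' := mt (mem_iff p.toPres hL).2 f
  obtain ⟨-, -, -, -, -, b⟩ := p.bd q.1 v (hμ k) (ok h _) nM nL nT ab hg hK cel subset_rfl v f'
    (p.nm q.1 v subset_rfl) e2
  exact b _ ((ge p.toPres ▸ (hb η p.tp.ne).2.resolve_left f').imp_right .inl)

end Crest.Agent.X212.Br55
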