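import Crest.Agent.X212.Br55.Win
import Crest.Agent.X212.Br55.Nm

/-!
# Row 212, layer G (helper55): the head, the tail and the left part of a terminal scene (TM-GEO)
-/

set_option autoImplicit false
set_option linter.unusedSectionVars false
noncomputable section
open Set Function Filter
open scoped ContDiff Manifold

namespace Crest.Agent.X212.Br55
open M G75 Wd38 Nm96 Cyl58 Br33 Dr59
open Sid48 hiding chg
open Tm38 (Ref Fl Cpy NrStmt ZhsStmt)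

variable {Γ : Nm} {κ lam : Type} [Fintype κ] [Fintype lam] [DecidableEq lam]
  {C : Cx Γ} {G : Tab C.kd κ} {P : Pm Γ} {L : LP C G P lam}

variable (C) in
/-- rational homology spheres (`Dr59.hz_fil`) -/
def QhsStmt : Prop := ∀ τ : Γ.ι × Rod53.Z2, Pr τ.2 → τ.2.2 ≠ 0 → ∀ k < 2,
  HZ (𝓡 3) (k + 1) (univ : Set (mF C.kd τ).M)

theorem orb_agr {ls : Finset Bs} {n n' : Wd38.Wt} (h : Relation.ReflTransGen (Fl ls) n n') {j : ℤ}
    (k : ∀ l ∈ ls, ¬(l.lo < j ∧ j < l.hi)) : n'.nl j = n.nl j ∧ n'.nr j = n.nr j := by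
  induction h with
  | refl => exact ⟨rfl, rfl⟩
  | tail _ v ih =>
    obtain ⟨l, u, rfl⟩ := v
    exact ⟨(if_neg (k l u)).trans ih.1, (if_neg (k l u)).trans ih.2⟩

section sd
variable {Lm : LM κ lam} {y : YD κ lam} {S : Scene Lm} {t : G75.TD y S} {σ σ' : Finset S.A} {x : S.A} {e e' : Bool}

theorem mem_sd : x ∈ t.sd e σ ↔ x ∈ σ ∧ t.Sd e x := by classical exact Finset.mem_filter

theorem mem_sdu : x ∈ t.sd e σ ∪ t.sd e' σ' ↔ x ∈ σ ∧ t.Sd e x ∨ x ∈ σ' ∧ t.Sd e' x :=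
  Finset.mem_union.trans (or_congr mem_sd mem_sd)

end sd

section fz
variable {D : Dt Γ} (h : D.OK P) {a x : D.A} {z : ℤ} (ha : a.1 = Bs.yS z) (hz : .yS z ∈ D.F.fz)
include ha hz

/-- every wall of the scene lies on one side of a frozen slice -/
theorem fz_side (n : x ≠ a) : (sy G h).Cmp a x ∧ (x.1.b.hi < z ∧ ((sy G h).w x).band ⊆ ((sy G h).w a).sd false ∨
    z < x.1.b.lo ∧ ((sy G h).w x).band ⊆ ((sy G h).w a).sd true) := by
  have e : a.1.b = .yS z := congrArg Wl.b ha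
  have u : IsL (D.F.fz ∪ D.F.ls) a.1 := ha ▸ ⟨rfl, Finset.mem_union_left _ hz⟩
  obtain ⟨ts, σ, T, p, q, f⟩ : ∃ ts σ, Tr G h ts σ ∧ a ∈ σ ∧ x ∈ σ ∧ a.1.b.Far x.1.b := by
    rw [e]
    rcases h.cov _ x.2 with ⟨p, hp, k⟩ | k
    · obtain ⟨ts, v, v', t⟩ := (h.mem p hp).2.2.tor
      exact ⟨ts, _, tr G h fun _ q => utw_cell v v' q, .inr u, .inl k,
        far_symm (t.fz _ (Finset.mem_image_of_mem _ k) _ hz)⟩
    · exact ⟨[], {b | IsL (D.F.fz ∪ D.F.ls) b.1}, tr G h fun _ q => utw_nil q.1, u, k,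
        (Finset.mem_union.1 k.2).elim (fun q => far_fz h hz q fun v => n (ext_b k u (v.symm.trans e.symm)))
          fun q => h.ok.lf _ q _ hz⟩
  refine ⟨T.cmp p q f, ?_⟩
  have s := T.far_sd p q f
  have := le_hi h x
  simp only [e, sw, Bs.side] at s f
  rcases f with f | f | f | f
  · exact .inr ⟨f, by rwa [decide_eq_true (by change z < _ at f; omega)] at s⟩
  · exact .inl ⟨f, by rwa [decide_eq_false (by change _ < z at f; omega)] at s⟩
  exacts [f.1.elim, f.2.2.2.elim]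

omit ha hz in
theorem not_self (s : Bool) : ¬((sy G h).w a).band ⊆ ((sy G h).w a).sd s := fun k =>
  let ⟨_, q⟩ := ((sy G h).w a).ne (!s); Wall.not_mem_sd _ (k q.1) q.2

theorem sd_true : ((sy G h).w x).band ⊆ ((sy G h).w a).sd true ↔ z < x.1.b.lo := by
  by_cases n : x = a
  · exact iff_of_false (n ▸ not_self h true) (by rw [n, ha]; exact lt_irrefl z)
  have := le_hi h x
  obtain ⟨p, q⟩ | ⟨p, q⟩ := (fz_side (G := G) h ha hz n).2
  · obtain ⟨_, v⟩ := ((sy G h).w x).ne true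
    exact iff_of_false (fun k => Wall.not_mem_sd _ (k v.1) (q v.1)) (by omega)
  · exact iff_of_true q p

theorem sd_false : ((sy G h).w x).band ⊆ ((sy G h).w a).sd false ↔ x.1.b.hi < z := by
  by_cases n : x = a
  · exact iff_of_false (n ▸ not_self h false) (by rw [n, ha]; exact lt_irrefl z)
  have := le_hi h x
  obtain ⟨p, q⟩ | ⟨p, q⟩ := (fz_side (G := G) h ha hz n).2
  · exact iff_of_true q p
  · obtain ⟨_, v⟩ := ((sy G h).w x).ne true
    exact iff_of_false (fun k => Wall.not_mem_sd _ (q v.1) (k v.1)) (by omega)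

theorem hf_le (k : ((sy G h).w x).band ⊆ ((sy G h).w a).sd false ∪ ((sy G h).w a).band) :
    x = a ∨ x.1.b.hi < z := or_iff_not_imp_left.2 fun n => by
  obtain ⟨c, ⟨p, -⟩ | ⟨-, q⟩⟩ := fz_side (G := G) h ha hz n
  · exact p
  · obtain ⟨_, v⟩ := ((sy G h).w x).ne true
    exact ((k v.1).elim (Wall.not_mem_sd _ (q v.1)) (disjoint_right.1 c v.1)).elim

include G h in
theorem eq_fz (k : x.1.b = .yS z) : x = a := by_contra fun n => by
  have := (fz_side (G := G) h ha hz n).2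
  rw [k] at this
  exact this.elim (lt_irrefl z ·.1) (lt_irrefl z ·.1)

theorem ls_sub (k : IsL D.F.ls x.1) {s : Bool} (q : ((sy G h).w x).band ⊆ ((sy G h).w a).sd s) :
    ((sy G h).w x).sd false ∪ ((sy G h).w x).band ⊆ ((sy G h).w a).sd s :=
  have := (C.rz h.h0.w).con
  have u := sub_of_sep (G := G) h (a := a) k (sep_fz h (by rw [ha]; exact hz) k.2)
  Wall.nest (X := (C.X h.h0.w).P.M) u.2.symm u.1 q

end fz

/-! ### the reference -/

section y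
variable {Y : Ref Γ} (hY : Y.OK P)

/-- the walls of the reference -/
def yA (Y : Ref Γ) : Finset Bs := {.yS Y.a, .yS Y.h, .sS Y.s, .yS Y.b} ∪ Y.A

include hY

theorem y_ok : (f0 Y.w ∅).OK P :=
  ⟨hY.w, fun _ k => absurd k (Finset.notMem_empty _), fun _ k => absurd k (Finset.notMem_empty _),
    fun _ k => absurd k (Finset.notMem_empty _), fun _ k => absurd k (Finset.notMem_empty _)⟩

theorem y_lok : (f0 Y.w ∅).LOK P Y.n := ⟨hY.n, hY.mL, hY.mR, fun _ k => absurd k (Finset.notMem_empty _)⟩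

theorem y_ad (a : yA Y) : Ad Y.w ∅ (a.1 : Wl) := by
  refine ⟨⟨?_, nofun⟩, nofun⟩
  have := hY.lt
  have := hY.ah.lo
  obtain ⟨a, k⟩ := a
  simp only [yA, Finset.mem_union, Finset.mem_insert, Finset.mem_singleton] at k
  obtain (rfl | rfl | rfl | rfl) | k := k
  exacts [⟨by omega, by omega⟩, ⟨by omega, by omega⟩, ⟨by omega, by omega, hY.s⟩, ⟨by omega, by omega⟩, (hY.A a k).1]

variable (L) in
/-- **the reference** -/
def yd (μ : ℤ × ℤ) : YD κ lam where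
  X := (C.X hY.w).mf
  A := yA Y
  M := mrk G (y_ok hY).w (fun a => (a.1 : Wl)) (y_ad hY)
  N := rs (L.N (y_ok hY) (y_lok hY) μ) _ _
  a := ⟨.yS Y.a, by simp [yA]⟩
  h := ⟨.yS Y.h, by simp [yA]⟩
  s := ⟨.sS Y.s, by simp [yA]⟩
  b := ⟨.yS Y.b, by simp [yA]⟩
  C := Y.C

theorem yd_ok (nr : NrStmt L) (zh : ZhsStmt C) (qh : QhsStmt C) (μ : ℤ × ℤ) : (yd L hY μ).OK := by
  have l := hY.lt
  have := hY.ah.lo
  have pr := fun j a b => (hY.w.pr j a b).2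
  have gt := fun a b x x' y => band_gt (G := G) (hw := hY.w) (hW := y_ad hY) (a := a) (b := b) (x := x) (x' := x') (y := y)
  have lt := fun a b x x' y => band_lt (G := G) (hw := hY.w) (hW := y_ad hY) (a := a) (b := b) (x := x) (x' := x') (y := y)
  have cm := fun a b => (C.rz hY.w).mark_cmp G _ (fun a => (y_ad hY a).1.1) (a := a) (a' := b)
  refine ⟨?_, ?_, ?_, ?_, ?_, ?_, ?_, ?_, ?_, ?_⟩
  · exact (C.rz hY.w).mark_spare G _ _ L.e L.sp
  · obtain ⟨e, he⟩ := L.spl (y_ok hY) (y_lok hY) μ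
    exact ⟨e, fun a => he ⟨_, y_ad hY a⟩⟩
  · exact ⟨nofun, nofun, rfl, nofun⟩
  · exact ⟨cm _ _ (.bs (.inl l.1)), (gt _ _ _ _ _ (.inl rfl) (in_nil rfl) l.1).1⟩
  · exact ⟨cm _ _ (.bs (.inl l.2.1)), (gt _ _ _ _ _ (.inl rfl) (in_nil rfl) l.2.1).1⟩
  · exact ⟨cm _ _ (.bs (.inl l.2.2.1)), (gt _ _ _ _ _ (.inr rfl) (in_nil rfl) l.2.2.1).1⟩
  · exact ⟨(lt _ _ _ _ _ (.inl rfl) (in_nil rfl) l.1).1, (lt _ _ _ _ _ (.inr rfl) (in_nil rfl) l.2.1).1,
      (lt _ _ _ _ _ (.inl rfl) (in_nil rfl) l.2.2.1).1⟩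
  · exact nr (y_ok hY) (y_lok hY) μ ⟨_, y_ad hY (yd L hY μ).a⟩ Y.a rfl hY.a.1 hY.a.2
  swap
  · exact zh _ (pr Y.h (by omega) (by omega)) hY.h
  · have h0 : (Y.w.s Y.h).r.2.2 ≠ 0 := fun e => by simpa [e] using hY.h
    rintro x (rfl | rfl) k (rfl | rfl)
    exacts [qh _ (pr Y.h (by omega) (by omega)) h0 0 (by omega), qh _ (pr Y.h (by omega) (by omega)) h0 1 (by omega),
      qh _ (pr Y.b (by omega) (by omega)) hY.b 0 (by omega), qh _ (pr Y.b (by omega) (by omega)) hY.b 1 (by omega)]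

end y

theorem bsh_inj (e : ℤ) : Injective (Bs.sh e) := fun a b h => by
  cases a <;> cases b <;> simp_all [Bs.sh]

theorem bsh_neg (e : ℤ) (b : Bs) : (b.sh (-e)).sh e = b ∧ (b.sh (-e)).lo = b.lo - e := by
  cases b <;> simp [Bs.sh, Bs.lo, sub_eq_add_neg]

section sc
variable {Y : Ref Γ} {T : TC} {R d : ℕ} {D : Dt Γ} {h : D.OK P} {μ : ℤ × ℤ} {c : Nm96.Cn}

theorem ch_mem {i σ} (u : L.ch h μ c i σ ≠ 0) : (i.1, σ.map (.subtype _)) ∈ c.support := Finsupp.mem_support_iff.2 u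

theorem ch_wall {i σ} (u : L.ch h μ c i σ ≠ 0) {x : D.A} (k : x ∈ σ) : x.1 ∈ c.walls :=
  Nm96.Cn.mem_walls.2 ⟨_, ch_mem u, Finset.mem_map_of_mem (Embedding.subtype _) k⟩

theorem ch_mw {i σ} (u : L.ch h μ c i σ ≠ 0) {x : D.A} (k : x ∈ σ ∨ IsL D.F.fz x.1) :
    x.1.b ∈ c.walls.image Wl.b ∪ D.F.fz :=
  Finset.mem_union.2 (k.imp (fun v => Finset.mem_image_of_mem _ (ch_wall u v)) (·.2))

variable (k : T.OK P Y R D.F c) (q : TDt Y T c D)
include k q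

theorem ln_agr (i : D.L) {j : ℤ} (e : j ≤ Y.h + T.d + 1 ∨ Y.b + T.e ≤ j) :
    i.1.nl j = T.n.nl j ∧ i.1.nr j = T.n.nr j :=
  orb_agr (q.orb _ i.2) fun l u => by have := k.ls l u; omega

include h in
theorem tw_nil {x : D.A} (e : x.1.b.lo < Y.h + T.d ∨ Y.b + T.e < x.1.b.hi) : x.1.tw = [] := by
  obtain ⟨p, u, v⟩ | u := h.cov _ x.2
  · obtain u | rfl := q.s p u
    · exact (k.tor _ (Nm96.Cn.mem_walls.2 ⟨p, u, v⟩)).resolve_right fun w => by have := w.1; have := w.2.1; omega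
    · rw [Finset.mem_singleton.1 v]
  · exact u.1

omit k in
theorem orb_scn (i : D.L) : Relation.ReflTransGen (fun i i' => ∃ l ∈ (L.scn h μ).ls, i' = (L.scn h μ).fl l i)
    ⟨T.n, q.n⟩ i := by
  obtain ⟨n, hn⟩ := i
  have r := q.orb n hn
  induction r with
  | refl => exact .refl
  | @tail m _ _ v ih =>
    obtain ⟨l, u, rfl⟩ := v
    have s : IsL D.F.ls (⟨l, h.ls l u⟩ : D.A).1 := ⟨rfl, u⟩
    exact (ih ((congrArg (· ∈ _) (Br55.fl_fl l _)).mp (h.fl l u _ hn))).tail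
      ⟨_, mem_ls.2 s, (fl_eq h L μ s ⟨m, _⟩).symm⟩

end sc

/-- **TM-GEO** -/
theorem geo (H : Mv27.Nat L) {μ : ℕ → ℤ × ℤ} {m : ℤ} (hμ : ∀ k, (μ k).2 = m) (nr : NrStmt L) (zh : ZhsStmt C)
    (qh : QhsStmt C) : GeoStmt L μ := by
  classical
  refine fun Y hY => ⟨yd L hY (μ 0), yd_ok hY nr zh qh _, rfl, fun R d c T D h j k g q => ?_⟩
  have l := hY.lt
  have := hY.ah.lo
  have := k.sb
  have oa := (h.ok.fz _ k.fz.1).1.1
  have ob := (h.ok.fz _ k.fz.2.2).1.2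
  have oh := (h.ok.fz _ k.fz.2.1).1
  let y := yd L hY (μ 0)
  let a : D.A := ⟨_, h.fz _ k.fz.1⟩
  let hh : D.A := ⟨_, h.fz _ k.fz.2.1⟩
  let s : D.A := ⟨_, q.sA⟩
  let b : D.A := ⟨_, h.fz _ k.fz.2.2⟩
  let f : Fin 3 ↪ yA Y := ⟨![y.a, y.h, y.s], fun i j e => by
    have e' := congrArg (·.1.lo) e
    fin_cases i <;> fin_cases j <;> first | rfl | (simp only [y, yd, Bs.lo] at e'; simp at e'; omega)⟩
  let f' : Fin 3 ↪ D.A := ⟨![a, hh, s], fun i j e => by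
    have e' := congrArg (·.1.b.lo) e
    fin_cases i <;> fin_cases j <;> first | rfl | (simp [a, hh, s, Bs.lo] at e'; omega)⟩
  obtain ⟨IH, h1, h2, h3, h4⟩ := exists_win (G := G) (y := Y.s + 1) (eR := False) (y_ok hY) h.h0 (y_ad hY)
    (fun a : D.A => h.ad _ a.2) f f' H hY.ah.lo (l.1.trans l.2.1) oa (fun j p q => (k.hd j p q).1)
    (.inr ⟨id, rfl, by omega, by omega, hY.s1⟩) fun i => by
      fin_cases i
      exacts [⟨.yS Y.a, rfl, rfl, le_rfl, le_rfl, by change Y.a ≤ _; omega, by change Y.a < _; omega⟩,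
        ⟨.yS Y.h, rfl, rfl, l.1.le, le_rfl, l.2.1.le, by change Y.h < _; omega⟩,
        ⟨.sS Y.s, rfl, rfl, by change _ ≤ Y.s; omega, le_rfl, le_rfl, Int.lt_succ _⟩]
  obtain ⟨wH, h4⟩ := h4 (μ := μ 0) (μ' := μ j) (y_lok hY) (h.l0 ⟨T.n, q.n⟩) k.hd False.elim
  let B := {x : yA Y // Y.b ≤ x.1.lo ∧ ↑(x.1.sh T.e) ∈ D.A}
  obtain ⟨IT, t1, t2, t3, t4⟩ := exists_win (G := G) (y := Y.w.r) (eR := True) (y_ok hY) h.h0 (y_ad hY)
    (fun a : D.A => h.ad _ a.2) (.subtype _ : B ↪ _) ⟨fun x => ⟨_, x.2.2⟩, fun _ _ e => Subtype.ext (Subtype.ext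
      (bsh_inj _ (congrArg (·.1.b) e)))⟩ H (x := Y.b) (by omega) l.2.2.2 (h.ok.fz _ k.fz.2.2).1.1
    (fun j p q => (k.tl j p q).1) (.inl ⟨trivial, rfl, rfl, k.r⟩) fun x =>
      have o := (y_ad hY x.1).1.1
      ⟨x.1.1, rfl, rfl, x.2.1, (OK_hi o).1, (OK_hi o).2, (OK_lo o).2⟩
  choose wT t4 using fun i : D.L => t4 (μ := μ 0) (μ' := μ j) (y_lok hY) (h.l0 i) (fun j p v => by
    have u := k.tl j p v
    have := ln_agr k q i (j := j + T.e) (.inr (by omega))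
    exact ⟨u.1, this.1.trans u.2.1, fun o => this.2.trans (u.2.2 o)⟩) fun _ => (hμ j).trans (hμ 0).symm
  choose wL hL using fun i : D.L => exists_left (G := G) h.h0 (fun a : D.A => h.ad _ a.2)
    (.subtype fun x => ((sy G h).w x).band ⊆ hf (L.scn h (μ j)).M hh false) H (μ := μ j) (h.l0 ⟨T.n, q.n⟩) (h.l0 i)
    oh.1 oh.2 (fun j p => ln_agr k q i (.inl p)) fun x => (hf_le h rfl k.fz.2.1 x.2).elim
      (fun e => by rw [show (Embedding.subtype _ x).1 = hh.1 from congrArg _ e]; exact ⟨rfl, le_rfl⟩)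
      fun e => ⟨tw_nil (h := h) k q (.inl ((le_hi h _).trans_lt e)), e.le⟩
  have sy' := fun a x => sl_time (G := G) (hw := hY.w) (hW := y_ad hY) (a := a) (x := x)
  have sl := fun a x => sl_time (G := G) (hw := h.h0.w) (hW := fun a : D.A => h.ad _ a.2) (a := a) (x := x)
  have e1 : hf y.M y.a true ∩ hf y.M y.s false =
      (C.X hY.w).τ ⁻¹' {t | Y.a + 1 / 4 < t ∧ (False ∨ t < Y.s + 3 / 4)} :=
    (congrArg₂ _ (sy' _ _ (.inl rfl)).2.2.2 (sy' _ _ (.inr rfl)).2.2.1).trans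
      (Set.ext fun _ => and_congr_right' (false_or _).symm.to_iff)
  have e2 : hf y.M y.b true = (C.X hY.w).τ ⁻¹' {t | Y.b + 1 / 4 < t ∧ (True ∨ t < Y.w.r + 3 / 4)} :=
    (sy' _ _ (.inl rfl)).2.2.2.trans (Set.ext fun _ => (and_iff_left (.inl trivial)).symm)
  have mz := fun x => mem_fz (L := L) (μ := μ j) (h := h) (a := x)
  have St := fun x => sd_true (G := G) h (a := a) (x := x) rfl k.fz.1
  have Sf := fun x => sd_false (G := G) h (a := a) (x := x) rfl k.fz.1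
  refine ⟨⟨a, hh, s, b, ⟨T.n, q.n⟩, {x | IsL T.G x.1}, IH, wH, B, IT, ⟨y.b, le_rfl, h.fz _ k.fz.2.2⟩, wT, wL, 0, 0, 0⟩,
    ⟨rfl, rfl, rfl, rfl, rfl, fun _ => mem_fil⟩, ⟨(mz _).2 ⟨rfl, k.fz.1⟩, (mz _).2 ⟨rfl, k.fz.2.1⟩,
      (mz _).2 ⟨rfl, k.fz.2.2⟩, fun x v => (mz _).2 ⟨(mem_fil.1 v).1, (k.G _ (mem_fil.1 v).2).1⟩⟩,
    fun x v => (sd_true h rfl k.fz.2.1).2 (k.G _ (mem_fil.1 v).2).2, ?_, fun i σ u x v => ?_, fun x v => ?_,
    fun i i' _ _ => ?_, fun i σ i' σ' u u' => ?_, fun i => ?_, ⟨congrArg _ h1, congrArg _ h2⟩, ?_, e1 ▸ h4,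
    ⟨DFunLike.congr_fun t1 _, DFunLike.congr_fun t2 _⟩, ?_, fun i _ => e2 ▸ t4 i, fun i σ u x v o => ?_⟩
  · exact ⟨(band_gt (hW := fun a : D.A => h.ad _ a.2) (a := s) (b := b) (.inr rfl) (in_nil rfl) k.sb).1,
      (band_lt (hW := fun a : D.A => h.ad _ a.2) (a := b) (b := s) (.inl rfl) (in_nil rfl) k.sb).1⟩
  · rcases k.side _ (ch_mw u ((Finset.mem_union.1 v).imp_right (mz _).1)) with e | e | e | e
    exacts [.inl (eq_fz (G := G) h rfl k.fz.1 e), .inr (.inl (eq_fz (G := G) h rfl k.fz.2.1 e)),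
      .inr (.inr (.inl ((Sf x).2 e))), .inr (.inr (.inr ((sd_true h rfl k.fz.2.1).2 e)))]
  · have v := mem_ls.1 v
    exact subset_inter (ls_sub h rfl k.fz.2.1 v ((sd_true h rfl k.fz.2.1).2 (k.ls _ v.2).1))
      (ls_sub h rfl k.fz.2.2 v ((sd_false h rfl k.fz.2.2).2 (k.ls _ v.2).2))
  · refine Relation.ReflTransGen.trans
      (Relation.ReflTransGen.mono ?_ _ _ (orb_scn (L := L) (h := h) (μ := μ j) q i).swap) (orb_scn q i')
    rintro i i' ⟨l, u, rfl⟩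
    exact ⟨l, u, ((okStmt L h _).inv l u i').symm⟩
  · refine Finsupp.mem_support_iff.1 ((congrArg (fun τ => (i'.1, τ) ∈ c.support) ?_).mp
      (k.exc _ (ch_mem u) _ (ch_mem u')))
    ext x
    simp only [Finset.mem_union, Finset.mem_filter, Finset.mem_map]
    constructor
    · rintro (⟨⟨x, v, rfl⟩, o⟩ | ⟨⟨x, v, rfl⟩, o⟩)
      exacts [⟨x, mem_sdu.2 (.inl ⟨v, (Sf x).2 o⟩), rfl⟩, ⟨x, mem_sdu.2 (.inr ⟨v, (St x).2 o⟩), rfl⟩]
    · rintro ⟨x, v, rfl⟩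
      obtain ⟨v, o⟩ | ⟨v, o⟩ := mem_sdu.1 v
      exacts [.inl ⟨⟨x, v, rfl⟩, (Sf x).1 o⟩, .inr ⟨⟨x, v, rfl⟩, (St x).1 o⟩]
  · exact (sl hh _ (.inl rfl)).2.2.1 ▸ hL i
  · exact (congrArg _ e1).trans (h3.trans ((congrArg₂ _ (sl a _ (.inl rfl)).2.2.2 (sl s _ (.inr rfl)).2.2.1).trans
      (Set.ext fun _ => and_congr_right' (false_or _).symm.to_iff)).symm)
  · exact (congrArg _ e2).trans (t3.trans ((sl b _ (.inl rfl)).2.2.2.trans
      (Set.ext fun _ => (and_iff_left (.inl trivial)).symm)).symm)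
  · have o := (sd_true h rfl k.fz.2.2).1 o
    have e := bsh_neg T.e x.1.b
    have n : ↑((x.1.b.sh (-T.e)).sh T.e) = x.1 := by
      rw [e.1]
      exact eta_b (s := {x.1.b}) ⟨tw_nil (h := h) k q (.inr (o.trans_le (le_hi h x))), Finset.mem_singleton_self _⟩
    exact ⟨⟨⟨_, Finset.mem_union_right _ (k.tw _ (ch_mw u ((Finset.mem_union.1 v).imp_right (mz _).1)) o)⟩,
      by rw [e.2]; omega, (congrArg (· ∈ D.A) n).mpr x.2⟩, (DFunLike.congr_fun t2 _).trans (Subtype.ext n)⟩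

end Crest.Agent.X212.Br55
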