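import Crest.Agent.X212.Br55.Ch
import Crest.Agent.X212.Br55.Th

/-!
# Row 212, layer G (helper55): identifications of scenes from moves
-/

set_option autoImplicit false
set_option linter.unusedSectionVars false
noncomputable section
open Set Function
open scoped ContDiff Manifold

namespace Crest.Agent.X212.Br55
open M G75 Wd38 Nm96
open Line51 (Ln Uni)

variable {Γ : Nm} {κ lam : Type} [Fintype κ] [Fintype lam] [DecidableEq lam] {C : Cx Γ} {G : Tab C.kd κ}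
  {P : Pm Γ} (L : LP C G P lam) {D D' : Dt Γ} {μ : ℤ × ℤ} {d : ℕ} {c : Nm96.Cn}

theorem eq_of_isL {s : Finset Bs} {a : Wl} (h : IsL s a) : a = ↑a.b := by
  obtain ⟨b, l⟩ := a
  obtain rfl : l = [] := h.1
  rfl

variable {L} in
theorem mem_ls {h : D.OK P} {a : D.A} : a ∈ (L.scn h μ).ls ↔ IsL D.F.ls a.1 :=
  Finset.mem_filter.trans (and_iff_right (Finset.mem_univ _))

variable {L} in
theorem mem_fz {h : D.OK P} {a : D.A} : a ∈ (L.scn h μ).fz ↔ IsL D.F.fz a.1 :=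
  Finset.mem_filter.trans (and_iff_right (Finset.mem_univ _))

/-! ### chains -/

/-- the chain on the scene -/
def LP.ch (h : D.OK P) (μ : ℤ × ℤ) (c : Nm96.Cn) : G75.Cn (L.scn h μ).L (L.scn h μ).A :=
  Br55.ch (L := D.L) (A := D.A) Subtype.val (Embedding.subtype _) c

theorem mem_K (h : D.OK P) {i : D.L} {σ : Finset D.A}
    (k : ∃ q ∈ D.s, q.1 = i.1 ∧ σ.map (Embedding.subtype _) ⊆ q.2) : σ ∈ (L.scn h μ).K i :=
  let ⟨q, a, b, e⟩ := k; ⟨q, a, b, fun _ r => e (Finset.mem_map_of_mem _ r)⟩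

theorem sf_ch (h : D.OK P) (s : D.Sup c) (k : D.F.Sf d c) : (L.scn h μ).Sf d (L.ch h μ c) := by
  refine ⟨fun i σ e => ?_, fun l hl i σ e => ?_⟩
  · have e' := Finsupp.mem_support_iff.2 e
    refine ⟨mem_K L h (s _ e'), (Finset.card_map _).symm.trans (k.mem _ e').1, fun a r => ?_⟩
    exact ((k.mem _ e').2 _ (Finset.mem_map_of_mem _ r)).imp Bs.ty_sph.2 fun q => mem_ls.2 ⟨q.2, q.1⟩
  · have q := mem_ls.1 hl
    refine Eq.trans ?_ (k.sym _ q.2 i.1 _ (eq_of_isL q ▸ Finset.mem_map_of_mem (Embedding.subtype _) e))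
    change c ((dite _ _ _ : D.L).1, _) = _
    rw [dif_pos q]

theorem bd_ch (h : D.OK P) (s : D.Sup c) : L.ch h μ c.bd = (L.ch h μ c).bd :=
  ch_bd (L := (L.scn h μ).L) (A := (L.scn h μ).A) (lf_of (s.mem h))

theorem cl_ch (h : D.OK P) (s : D.Sup c) (k : D.F.Sf d c) (e : c.bd = 0) : (L.scn h μ).Cl d (L.ch h μ c) :=
  ⟨sf_ch L h s k, by rw [← bd_ch L h s, e]; rfl⟩

/-! ### the identification -/

variable (D D') in
/-- the combinatorial part of a move -/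
structure Mp (A₀ : Finset Wl) (L₀ : Finset Wd38.Wt) (f f' : Wl → Wl) (g g' : Wd38.Wt → Wd38.Wt)
    (Dw : Wl → Wl → Prop) : Prop where
  a : ∀ a ∈ A₀, f a ∈ D.A ∧ f' a ∈ D'.A ∧ Dw (f a) (f' a)
  ia : InjOn f A₀
  ia' : InjOn f' A₀
  l : ∀ n ∈ L₀, g n ∈ D.L ∧ g' n ∈ D'.L
  il : InjOn g L₀
  il' : InjOn g' L₀
  ls : ∀ l ∈ D'.F.ls, ↑l ∈ A₀ ∧ f l = l ∧ f' l = l ∧ l ∈ D.F.ls
  fl : ∀ l ∈ D'.F.ls, ∀ n ∈ L₀, fl l n ∈ L₀ ∧ g (fl l n) = fl l (g n) ∧ g' (fl l n) = fl l (g' n) ∧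
    sgl l (g n) = sgl l (g' n)
  fz : ∀ b ∈ D.F.fz, ∃ a ∈ A₀, f a = b ∧ IsL D'.F.fz (f' a)

section mt
variable {L} {A₀ : Finset Wl} {L₀ : Finset Wd38.Wt} {f f' : Wl → Wl} {g g' : Wd38.Wt → Wd38.Wt}
  {Dw : Wl → Wl → Prop} (q : Mp D D' A₀ L₀ f f' g g' Dw)

/-- walls, left -/
def Mp.e : A₀ ↪ D.A := ⟨fun a => ⟨f a.1, (q.a _ a.2).1⟩, fun a b k => Subtype.ext (q.ia a.2 b.2 (congrArg (·.1) k))⟩

/-- walls, right -/
def Mp.e' : A₀ ↪ D'.A :=
  ⟨fun a => ⟨f' a.1, (q.a _ a.2).2.1⟩, fun a b k => Subtype.ext (q.ia' a.2 b.2 (congrArg (·.1) k))⟩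

include q in
theorem Mp.fix {a : Wl} (k : IsL D'.F.ls a) : f a = a ∧ f' a = a ∧ IsL D.F.ls a :=
  have e := eq_of_isL k
  have r := q.ls _ k.2
  ⟨e ▸ r.2.1, e ▸ r.2.2.1, k.1, r.2.2.2⟩

include q in
theorem Mp.isL {a : A₀} (k : IsL D'.F.ls (f' a.1)) : IsL D'.F.ls a.1 := by
  have r := q.ls _ k.2
  rwa [q.ia' a.2 r.1 ((eq_of_isL k).trans r.2.2.1.symm), ← eq_of_isL k]

variable (h : D.OK P) (h' : D'.OK P) {V : Set (C.X h.h0.w).P.M} (m : Mv L h.h0 h'.h0 μ g g' Dw V)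

/-- the identification of the marks -/
def Mp.mid : MId (L.scn h μ).M (L.scn h' μ).M A₀ :=
  mid0 (C.rz h.h0.w) (C.rz h'.h0.w) G _ _ m.ψ q.e q.e' m.pos
    (fun a => (m.mch (h.uw (q.e a)) (h'.uw (q.e' a)) (q.a _ a.2).2.2).E)
    fun a => let k := m.mch (h.uw (q.e a)) (h'.uw (q.e' a)) (q.a _ a.2).2.2; ⟨k.j, k.sd⟩

open Classical in
/-- **the identification of the scenes** -/
def Mp.mt (hl : ∀ a : UW D.F.w D.F.ls, IsL D.F.ls a.1 → (a.1.b ∈ D'.F.ls ↔ hf (um G h.h0.w D.F.ls) a false ⊆ V)) :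
    Mt (L.scn h μ) (L.scn h' μ) V where
  A₀ := A₀
  L₀ := L₀
  I := q.mid h h' m
  ι := ⟨fun i => ⟨g i.1, (q.l _ i.2).1⟩, fun a b k => Subtype.ext (q.il a.2 b.2 (congrArg (·.1) k))⟩
  ι' := ⟨fun i => ⟨g' i.1, (q.l _ i.2).2⟩, fun a b k => Subtype.ext (q.il' a.2 b.2 (congrArg (·.1) k))⟩
  w i := m.u i.1
  lid i :=
    have k := fun a : A₀ => m.lid i.1 (h.l0 ⟨_, (q.l _ i.2).1⟩) (h'.l0 ⟨_, (q.l _ i.2).2⟩) (h.uw (q.e a))
      (h'.uw (q.e' a)) (q.a _ a.2).2.2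
    ⟨m.op, m.sub, m.uni i.1 _ _, fun a => (k a).LY (), fun a => (k a).m ()⟩
  ls := {a | IsL D'.F.ls a.1}
  ls' := by
    refine Finset.ext fun a => mem_ls.trans ⟨fun k => Finset.mem_map.2 ⟨⟨_, (q.ls _ k.2).1⟩, ?_, ?_⟩, fun k => ?_⟩
    · exact Finset.mem_filter.2 ⟨Finset.mem_univ _, rfl, k.2⟩
    · exact Subtype.ext ((q.ls _ k.2).2.2.1.trans (eq_of_isL k).symm)
    · obtain ⟨b, z, rfl⟩ := Finset.mem_map.1 k
      have z := (Finset.mem_filter.1 z).2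
      exact (congrArg (IsL _) (q.fix z).2.1).mpr z
  lsub a k := by
    obtain ⟨b, z, rfl⟩ := Finset.mem_map.1 k
    have z := q.fix (Finset.mem_filter.1 z).2
    exact mem_ls.2 ((congrArg (IsL _) z.1).mpr z.2.2)
  lin a k := by
    have k := mem_ls.1 k
    refine Iff.trans ⟨fun r => ?_, fun r => Finset.mem_map.2 ⟨⟨_, (q.ls _ r).1⟩, ?_, ?_⟩⟩ (hl (h.uw a) k)
    · obtain ⟨b, z, rfl⟩ := Finset.mem_map.1 r
      have z := (Finset.mem_filter.1 z).2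
      exact (congrArg Wl.b (q.fix z).1).symm ▸ z.2
    · exact Finset.mem_filter.2 ⟨Finset.mem_univ _, rfl, r⟩
    · exact Subtype.ext ((q.ls _ r).2.1.trans (eq_of_isL k).symm)
  fl a i := if k : IsL D'.F.ls a.1 then ⟨Nm96.fl a.1.b i.1, (q.fl _ k.2 _ i.2).1⟩ else i
  hfl a k i := by
    have k := (Finset.mem_filter.1 k).2
    have r := q.fix k
    have s := q.fl _ k.2 _ i.2
    have k1 : IsL D.F.ls (f a.1) := r.1.symm ▸ r.2.2
    have k2 : IsL D'.F.ls (f' a.1) := r.2.1.symm ▸ k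
    have t := m.fl (h.uw (q.e a)) ((congrArg (IsL _) r.1).mpr k) i.1 (h.l0 ⟨_, (q.l _ i.2).1⟩) (h'.l0 ⟨_, (q.l _ i.2).2⟩)
    rw [dif_pos k]
    refine ⟨Eq.trans (Subtype.ext ?_) (dif_pos k1).symm, Eq.trans (Subtype.ext ?_) (dif_pos k2).symm, ?_, ?_, t.2⟩
    · exact s.2.1.trans (congrArg (fun a : Wl => Nm96.fl a.b _) r.1.symm)
    · exact s.2.2.1.trans (congrArg (fun a : Wl => Nm96.fl a.b _) r.2.1.symm)
    · exact (congrArg (fun a : Wl => sgl a.b _) r.1).trans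
        (s.2.2.2.trans (congrArg (fun a : Wl => sgl a.b _) r.2.1.symm))
    · exact (congrArg (fun a : Wl => m.u (Nm96.fl a.b i.1)) r.1) ▸ t.1
  mod a k k' :=
    have r := q.fix (q.isL (mem_ls.1 k'))
    m.mod (h.uw (q.e a)) (h'.uw (q.e' a)) (mem_ls.1 k) (mem_ls.1 k') (r.1.trans r.2.1.symm)
  fz a k := by
    have k := mem_fz.1 k
    obtain ⟨b, r, e, s⟩ := q.fz _ k.2
    exact ⟨⟨b, r⟩, Subtype.ext (e.trans (eq_of_isL k).symm), mem_fz.2 s⟩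

variable (hl : ∀ a : UW D.F.w D.F.ls, IsL D.F.ls a.1 → (a.1.b ∈ D'.F.ls ↔ hf (um G h.h0.w D.F.ls) a false ⊆ V))

/-- the chain on the matched cells -/
def Mp.ch (c : Nm96.Cn) : G75.Cn (q.mt h h' m hl).L₀ (q.mt h h' m hl).A₀ :=
  Br55.ch (L := L₀) (A := A₀) Subtype.val (Embedding.subtype _) c

theorem Mp.ch_l (s : ∀ p ∈ c.support, p.1 ∈ L₀ ∧ p.2 ⊆ A₀) (τ : Finset D.A) :
    (q.mt h h' m hl).l τ (q.ch h h' m hl c) = L.ch h μ (c.mp g f (τ.map (Embedding.subtype _))) :=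
  ch_pj (L := (q.mt h h' m hl).L₀) (A := (q.mt h h' m hl).A₀) (L' := (L.scn h μ).L) (A' := (L.scn h μ).A)
    Subtype.val_injective Subtype.val_injective (lf_of s) (fun _ => rfl) (fun _ => rfl) rfl

theorem Mp.ch_r (s : ∀ p ∈ c.support, p.1 ∈ L₀ ∧ p.2 ⊆ A₀) :
    (q.mt h h' m hl).r (q.ch h h' m hl c) = L.ch h' μ (c.mp g' f' ∅) :=
  ch_pj (L := (q.mt h h' m hl).L₀) (A := (q.mt h h' m hl).A₀) (L' := (L.scn h' μ).L) (A' := (L.scn h' μ).A)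
    Subtype.val_injective Subtype.val_injective (lf_of s) (fun _ => rfl) (fun _ => rfl) rfl

end mt

/-! ### the identity -/

section id
variable {w : Shp Γ} {ls : Finset Bs} (h : (f0 w ls).OK P) (μ)

theorem mch_id (a a' : UW w ls) (e : a.1 = a'.1) :
    Mch (C := C) h.w h.w (Diffeomorph.refl _ _ ∞).toPartialDiffeomorph a a' := by
  obtain rfl := Subtype.ext e
  exact ⟨rfl, fun _ => ⟨trivial, rfl⟩, fun _ _ _ => Iff.rfl⟩

open Classical in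
/-- the identity move -/
def mvId : Mv L h h μ id id Eq univ where
  ψ := (Diffeomorph.refl _ _ ∞).toPartialDiffeomorph
  pos := Orx52.pos_id.2 (Orx52.oriOn (C.rz h.w).O_spec.ori _).same
  op := isOpen_univ
  sub := subset_rfl
  mch := mch_id h
  u n := if k : (f0 w ls).LOK P n then (L.N h k μ).p else 0
  uni n (k : (f0 w ls).LOK P n) _ := by
    rw [dif_pos k]
    exact ⟨(L.N h k μ).ok.sm, fun x hx => ((L.N h k μ).ok.prj x hx).refl⟩
  lid n (k : (f0 w ls).LOK P n) _ a a' e := by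
    obtain rfl := Subtype.ext e
    rw [dif_pos k]
    refine ⟨isOpen_univ, subset_rfl, ⟨(L.N h k μ).ok.sm, fun x hx => ((L.N h k μ).ok.prj x hx).refl⟩,
      fun _ => ?_, fun _ z r _ => ((L.N h k μ).um a |>.iso z r).idem⟩
    exact congrArg (Ln.mk _) (Dr59.pm_id _)
  fl a k n (r : (f0 w ls).LOK P n) _ := by
    have r' := lok_fl h r k.2
    rw [dif_pos r, dif_pos r']
    refine ⟨fun z hz => ?_, fun _ _ => rfl⟩
    have := (L.out h r μ a k r').uni.iso z hz.2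
    exact this.tgt.symm.trans (((L.N h r μ).ok.prj z trivial).refl.tgt)
  mod a a' _ _ e := by
    obtain rfl := Subtype.ext e
    exact fun _ _ => rfl

theorem mvId_glob : (mvId L μ h).Glob := ⟨rfl, rfl⟩

end id

/-- without lens walls -/
def Mv0.mv {w w' : Shp Γ} {ls : Finset Bs} {h : (f0 w ls).OK P} {h' : (f0 w' ∅).OK P} {g g' Dw V}
    (m : Mv0 L h h' μ g g' Dw V) : Mv L h h' μ g g' Dw V :=
  { m with
    fl := fun _ k => absurd k.2 (Finset.notMem_empty _)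
    mod := fun _ _ _ k => absurd k.2 (Finset.notMem_empty _) }

end Crest.Agent.X212.Br55
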