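import Crest.Agent.X212.Br55.Tc
import Crest.Agent.X212.Br55.Cel
import Crest.Agent.X212.Tm38.Defs

/-!
# Row 212, layer G (helper55): the leaves of the bridge for terminal chains
-/

set_option autoImplicit false
set_option linter.unusedSectionVars false
noncomputable section
open Set Function Filter

namespace Crest.Agent.X212.Br55
open M G75 Wd38 Nm96 Cyl58
open Line51 (LCx WL)

variable {Γ : Nm} {κ lam : Type} [Fintype κ] [Fintype lam] [DecidableEq lam]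
  {C : Cx Γ} {G : Tab C.kd κ} {P : Pm Γ} (L : LP C G P lam)

/-- TM-LB: characteristic classes on the part of a piece between two frozen slices -/
def LbG : Prop := ∀ {D : Dt Γ} (h : D.OK P) μ (i : D.L) (σ c c₀ : Finset D.A) π n η (a b : D.A) x y k,
  (L.scn h μ).OK → σ ∈ (L.scn h μ).K i → c ⊆ c₀ → c₀ ⊆ σ → (∀ z ∈ c₀, z.1.b.pin) →
  (L.scn h μ).M.sys.Piece (↑c : Set D.A) π → PresS L h μ i σ c π n η → a.1 = Bs.yS x → b.1 = Bs.yS y → D.F.Cut x → D.F.Cut y → x < y →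
  (∀ n', TOK D.F.w n' → Par D.F.w n n' → k ≤ -ssum D.F.w (c.image fun a => a.1.b) η x y lq n' / 4) →
  (L.scn h μ).Lb i c₀ ((L.scn h μ).M.sys.U π)
    ((L.scn h μ).M.sys.U π ∩ ((L.scn h μ).M.sys.w a).sd true ∩ ((L.scn h μ).M.sys.w b).sd false) k

/-- TM-NBH: the numbers of a first piece from those of the past of a rational homology sphere -/
def NbH {Λ : NmL Γ} (K : LCx C Λ) (lam : Type) [Fintype lam] [DecidableEq lam] (M : ℝ) (mR : ℤ) : Prop :=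
  ∀ (F : Fm Γ) (hw : F.w.OK) n (W : WL K (C.rz hw) n lam) t, (Bs.yS t).OK F.w → F.Cut t →
    (∃ β sg l2, NbX (C.X hw).mf (-(C.rz hw).O) W.p (Sid48.sd (C.rz hw) (.yS t) false) β sg l2) ∧
    ∀ β₁ s₁ l₁ B η, NbX (C.X hw).mf (-(C.rz hw).O) W.p (Sid48.sd (C.rz hw) (.yS t) false) β₁ s₁ l₁ →
      TPc F B η → (∀ a ∈ B, t < a.lo) → F.Fst B η →
      (¬F.Lst B η → NbX (C.X hw).mf (-(C.rz hw).O) W.p (pc (C.rz hw) B η) (β₁ + ssum F.w B η t (F.w.r + 1) lp n)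
        (s₁ + ssum F.w B η t (F.w.r + 1) lg n) (l₁ + ssum F.w B η t (F.w.r + 1) lq n)) ∧
      (F.Lst B η → n.mR = mR → ∃ β sg l2, NbX (C.X hw).mf (-(C.rz hw).O) W.p (pc (C.rz hw) B η) β sg l2 ∧
        M + 3 * max (β - (β₁ + ssum F.w B η t (F.w.r + 1) lp n)) 0 ≤
          (l2 - sg - (l₁ - s₁ + (ssum F.w B η t (F.w.r + 1) lq n - ssum F.w B η t (F.w.r + 1) lg n))) / 2)

/-- **BR-TM** -/
def TcStmt (μ : ℕ → ℤ × ℤ) : Prop := ∀ Y : Tm38.Ref Γ, Y.OK P → ∃ y : YD κ lam, ∀ R F d c (T : TC),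
  T.OK P Y R F c → F.Cl P d c → c ≠ 0 → ∃ (D : Dt Γ) (h : D.OK P), D.F = F ∧ D.Sup c ∧
    ∀ᶠ k in atTop, G75.Tm y R (L.scn h (μ k)) (L.ch h (μ k) c)

end Crest.Agent.X212.Br55
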