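import Crest.Agent.X212.Br55.Et

/-!
# Row 212, layer G (helper55): the numbers of closed pieces and of the left side of a terminal scene
-/

set_option autoImplicit false
set_option linter.unusedSectionVars false
noncomputable section
open Set Function Filter

namespace Crest.Agent.X212.Br55
open M G75 Wd38 Nm96 Cyl58 Br33
open Sid48 hiding chg
open Tm38 (Ref NfStmt)

variable {Γ : Nm} {κ lam : Type} [Fintype κ] [Fintype lam] [DecidableEq lam]
  {C : Cx Γ} {G : Tab C.kd κ} {P : Pm Γ} {L : LP C G P lam}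

variable (L) in
/-- the inputs of the numbers -/
structure Hy (μ : ℕ → ℤ × ℤ) (m : ℤ) : Prop where
  hμ : ∀ k, (μ k).2 = m
  tw : TwStmt L
  nM : NbM L.L lam
  nL : NbL L.L lam P.M m
  nH : NbH L.L lam P.M m
  nF : NbF L.L lam μ
  ab : AbS L
  hg : HgS L
  lb : LbG L
  nf : NfStmt L

variable {D : Dt Γ} {h : D.OK P} {i : D.L} {σ c c₀ e : Finset D.A} {π : Reg D.A} {n : Wd38.Wt}
  {η : Reg D.A → Bs → Bool} {μ : ℕ → ℤ × ℤ} {m : ℤ} {a : D.A} {s : Bool} {z : ℤ}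

theorem Eta.bd (E : Eta L h i σ c n η) (O : Oc L h i σ n) (H : Hy L μ m) (h₀ : c ⊆ c₀) (v : (sy G h).Piece ↑c π)
    (v₀ : (sy G h).Piece ↑c₀ π) {τ : Finset Bs}
    (e1 : (L.scn h 0).nm σ π = Fm.nm τ (c.image fun a => a.1.b) (η π)) {g : ℝ}
    (b : D.F.Fst (c.image fun a => a.1.b) (η π) ∨ TC.Bw P D.F n τ (c.image fun a => a.1.b) (η π) g) :
    ∀ᶠ k in atTop, (L.scn h (μ k)).Bd i σ c₀ π g := by
  by_cases f : D.F.Fst (c.image fun a => a.1.b) (η π)
  · exact (E.pr π v (μ 0)).elim fun p => bd_fst H.nF (Num57.nbT lam) g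
      (fun k => ⟨_, (E.pr π v (μ k)).map (·.toPres)⟩) p.toPres v f
  refine .of_forall fun k => (E.pr π v (μ k)).elim fun p => ?_
  obtain ⟨-, -, -, -, -, u⟩ := p.bd E.sub v (H.hμ k) (okStmt L h _) H.nM H.nL (Num57.nbT lam) H.ab H.hg (O.K _) O.cel
    h₀ v₀ f e1 (E.nh π v _)
  exact u g (b.resolve_left f)

/-- closed pieces -/
theorem na_ev (H : Hy L μ m) (O : Oc L h i σ n) (N : D.F.NumC P n (σ.image fun a => a.1.b))
    (sp : Spl (sy G h) a s e c) (he : e ⊆ σ) (pin : ∀ x ∈ e, x.1.b.pin) : ∀ᶠ k in atTop, ∃ w : Reg D.A → ℝ,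
      (∀ π, Pcs (sy G h) a s e π → π a = none → (L.scn h (μ k)).Bd i σ (insert a e) π (w π)) ∧
      ∀ J : Finset (Reg D.A), (∀ π ∈ J, Pcs (sy G h) a s e π ∧ π a = none) → c.Nonempty ∨ J.Nonempty →
        1 < ∑ π ∈ J, w π + 4 * ((c.card : ℝ) - J.card) - 2 * (L.scn h (μ k)).nd c := by
  have ce : c ⊆ e := fun x u => ((sp.mem x).1 u).1
  obtain ⟨η, E⟩ := O.eta c (ce.trans he) fun x u => pin x (ce u)
  obtain ⟨ch, gL, gR, h5, hb⟩ := numC N (Finset.image_subset_image E.sub)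
    (Finset.forall_mem_image.2 fun x u => pin x (ce u))
  have pc : ∀ {π}, Pcs (sy G h) a s e π → π a = none → (sy G h).Piece ↑c π := fun p u => up_self u ▸ sp.piece p
  have hb' := fun π v => (E.pr π v 0).elim fun p => hb (η π) p.tp.ne
  filter_upwards [eventually_all.2 fun π => eventually_imp_distrib_left.2 fun (p : Pcs (sy G h) a s e π) =>
    eventually_imp_distrib_left.2 fun u => (E.pr π (pc p u) 0).elim fun r => E.bd O H sp.sub (pc p u) p.1
      (r.nm E.sub (pc p u) subset_rfl) ((hb' π (pc p u)).2.imp_right (.imp_right .inl))] with k hk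
  refine ⟨_, hk, fun J u => lt_of_sum E.cell (fun o π v => (hb' π v).1 (o.image _)) ?_ J fun π v =>
    pc (u π v).1 (u π v).2⟩
  rw [E.sum]
  linarith [(Nat.cast_le (α := ℝ)).2 (E.nd (μ k))]

section side
variable (ha : a.1 = Bs.yS z) (hz : .yS z ∈ D.F.fz) (p : Pcs (sy G h) a s e π)
include ha hz p

theorem inn_eq {Z Z' : Set D.A} (k : ∀ x, x ∈ Z' ↔ x ∈ Z ∧ ((sy G h).w x).band ⊆ ((sy G h).w a).sd s) :
    Z ∩ (sy G h).inn π = Z' ∩ (sy G h).inn (update π a none) := Set.ext fun x => by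
  rw [mem_inter_iff, mem_inter_iff, k]
  by_cases o : x = a
  · subst o
    exact iff_of_false (fun u => p.1.not_inn x (by simp) u.2) fun u => band_ns u.1.2
  · rw [p.inn o (fz_side h ha hz o).1.symm]; tauto

variable (E : Eta L h i σ c n η) (sp : Spl (sy G h) a s e c)
include E sp

theorem adj_inV : π a ≠ none ↔ InV (c.image fun a => a.1.b) (η (update π a none)) (z + 1) := by
  obtain ⟨r⟩ := E.pr _ (sp.piece p) 0
  refine p.adj.symm.trans ((r.inn E.sub (sp.piece p) (.inr (ha ▸ ⟨rfl, hz⟩)) fun u => sp.ne u rfl).trans ?_)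
  rw [ha, Adj, Finset.erase_eq_of_notMem fun u => by exact (r.tp.ok _ u).2]
  rfl

theorem nm_eq {τ : Finset Bs}
    (k : ∀ b, b ∈ τ ↔ ∃ x ∈ σ, ((sy G h).w x).band ⊆ ((sy G h).w a).sd s ∧ x.1.b = b) (ν) :
    (L.scn h ν).nm σ π = Fm.nm τ (c.image fun a => a.1.b) (η (update π a none)) := by
  classical
  obtain ⟨r⟩ := E.pr _ (sp.piece p) ν
  have := r.nm E.sub (sp.piece p) (σ.filter_subset fun x => ((sy G h).w x).band ⊆ ((sy G h).w a).sd s)
  rw [show Finset.image _ _ = τ from Finset.ext fun b => by simp only [k, Finset.mem_image, Finset.mem_filter, and_assoc]] at this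
  exact (congrArg ncard (inn_eq ha hz p fun x => Finset.mem_filter)).trans this

end side

theorem nl' {Y : Ref Γ} {F : Fm Γ} {T : TC} {σ B : Finset Bs} (h : T.NL Y F n σ) (hB : B ⊆ σ) (pin : ∀ a ∈ B, a.pin) :
    ∃ (ch : Bs → Bool → ℝ) (gL gA : ℝ), 3 < gL + gA + ∑ a ∈ B, (ch a true + ch a false) ∧
      ∀ η, B = ∅ ∨ (∃ a ∈ B, Adj B η a) → (¬F.Lst B η → F.chg B η ch gL gA ≤ 4) ∧
        (F.Fst B η ∨ (¬F.Lst B η ∧ F.BdM n σ B η (F.chg B η ch gL gA)) ∨ (F.Lst B η ∧ F.chg B η ch gL gA ≤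
          ssum F.w B η (F.w.l - 1) (Y.a + T.d) al n + Y.hd al Y.a + Fm.nm σ B η / 4 + Y.C + 3 / 2)) := by
  rcases B.eq_empty_or_nonempty with rfl | k
  · exact ⟨0, 4, 0, by norm_num, fun η _ => ⟨fun q => (q nofun).elim, .inl nofun⟩⟩
  · obtain ⟨ch, gL, gR, h1, h2⟩ := h B hB pin k
    exact ⟨ch, gL, gR, h1, fun η q => h2 η (q.resolve_left k.ne_empty)⟩

/-- the body of `G75.TD.BL` -/
def BLx {Lm : LM κ lam} (S : Scene Lm) (a s : S.A) (i₀ : S.L) (C : ℤ) (R : ℕ) (i : S.L) (σ c : Finset S.A)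
    (π : Reg S.A) (w : ℝ) : Prop :=
  (π a = none → S.Bd i σ (insert a c) π w) ∧ (π a ≠ none → ∃ β sg l2,
    S.Nb i₀ (S.M.sys.U (update π a none) ∩ (S.M.sys.w s).sd false) β sg l2 ∧
    (S.Nf i a (insert a c) π ∧ w ≤ Ta β sg l2 (S.nm σ π) 0 + C - 7 / 4 ∨ w ≤ G75.Wt β sg l2 (S.nm σ π) 0 0 - R))

theorem sd_nil {x : D.A} (k : x.1.tw = []) (s : Bool) : ((sy G h).w x).sd s = sd (C.rz h.h0.w) x.1.b s :=
  Set.ext ((tr G h (ts := []) (σ := {x}) fun _ u => utw_nil (u ▸ k)).sd x rfl s)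

theorem nb_of {ν : ℤ × ℤ} {U β sg l2} (k : NbX (C.X h.h0.w).mf (-(C.rz h.h0.w).O) (L.W h.h0 (h.l0 i) ν).p U β sg l2) :
    (L.scn h ν).Nb i U β sg l2 := by rwa [← L.p] at k

variable {Y : Ref Γ} {T : TC} {R : ℕ} {z : Nm96.Cn} (hY : Y.OK P) (k : T.OK P Y R D.F z) (q : TDt Y T z D)
  {b : D.A} (hb : b.1 = Bs.sS (Y.s + T.d))
include hY k q hb

omit hY k q in
include G h in
theorem s_far : (Bs.sS (Y.s + T.d)).OK D.F.w ∧ ∀ y ∈ D.F.fz, (Bs.sS (Y.s + T.d)).Far y := by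
  refine ⟨by have := (h.ad _ b.2).1.1; rwa [hb] at this, fun y u => ?_⟩
  obtain ⟨-, x, rfl⟩ := h.ok.fz y u
  have := (fz_side (G := G) h (a := ⟨_, h.fz _ u⟩) (x := b) rfl u fun o => by rw [o] at hb; cases hb).2
  rw [hb] at this
  exact this.elim (.inl ·.1) fun o => .inr (.inl o.1)

/-- **the left side** -/
theorem left_ev (H : Hy L μ m) (O : Oc L h i σ n) (ha : a.1 = Bs.yS (Y.a + T.d))
    (ag : ∀ j ≤ Y.h + T.d, n.nl j = T.n.nl j ∧ n.nr j = T.n.nr j)
    (N : T.NL Y D.F n (sL (Y.a + T.d) (σ.image fun a => a.1.b))) (sp : Spl (sy G h) a false e c) (he : e ⊆ σ)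
    (pin : ∀ x ∈ e, x.1.b.pin) : ∀ᶠ j in atTop, ∃ w : Reg D.A → ℝ,
      (∀ π, Pcs (sy G h) a false e π → BLx (L.scn h (μ j)) a b ⟨T.n, q.n⟩ Y.C R i σ e π (w π)) ∧
      ∀ J : Finset (Reg D.A), (∀ π ∈ J, Pcs (sy G h) a false e π) → (∃ π ∈ J, π a ≠ none) →
        -1 < ∑ π ∈ J, w π + 4 * ((c.card : ℝ) - J.card) := by
  have l := hY.lt
  have lr : D.F.w.l ≤ D.F.w.r + 1 := by have := h.ok.w.lt; omega
  have oa := (h.ok.fz _ k.fz.1).1
  have ce : c ⊆ e := fun x u => ((sp.mem x).1 u).1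
  have hi : ∀ x ∈ c, x.1.b.hi < Y.a + T.d := fun x u => (sd_false h ha k.fz.1).1 ((sp.mem x).1 u).2
  obtain ⟨η, E⟩ := O.eta c (ce.trans he) fun x u => pin x (ce u)
  obtain ⟨ch, gL, gA, h3, hc⟩ := nl' N (B := c.image fun a => a.1.b) (Finset.forall_mem_image.2 fun x u =>
    Finset.mem_filter.2 ⟨Finset.mem_image_of_mem _ (E.sub u), hi x u⟩) (Finset.forall_mem_image.2 fun x u => pin x (ce u))
  have hc' := fun π v => (E.pr π v 0).elim fun p => hc (η π) p.tp.ne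
  have lst : ∀ {π}, Pcs (sy G h) a false e π →
      (π a ≠ none ↔ D.F.Lst (c.image fun a => a.1.b) (η (update π a none))) := fun p =>
    (adj_inV ha k.fz.1 p E sp).trans (forall₂_congr (Finset.forall_mem_image.2 fun x u => by
      have := hi x u
      have := oa.2
      rw [side_of_gt (by omega), side_of_gt (by omega)]))
  have nm := fun π (p : Pcs (sy G h) a false e π) => nm_eq ha k.fz.1 p E sp
    (τ := sL (Y.a + T.d) (σ.image fun a => a.1.b)) fun b => by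
      simp only [sL, Finset.mem_filter, Finset.mem_image, sd_false h ha k.fz.1]
      exact ⟨fun ⟨⟨x, u, v⟩, o⟩ => ⟨x, u, v ▸ o, v⟩, fun ⟨x, u, o, v⟩ => ⟨⟨x, u, v⟩, v ▸ o⟩⟩
  suffices ∀ π, Pcs (sy G h) a false e π → ∀ᶠ j in atTop, BLx (L.scn h (μ j)) a b ⟨T.n, q.n⟩ Y.C R i σ e π
      (D.F.chg (c.image fun a => a.1.b) (η (update π a none)) ch gL gA) by
    filter_upwards [eventually_all.2 fun π => eventually_imp_distrib_left.2 (this π)] with j hj
    refine ⟨_, hj, fun J u ⟨π, v, o⟩ => ?_⟩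
    have := sp.sum (g := fun ρ => D.F.chg (c.image fun a => a.1.b) (η ρ) ch gL gA) u fun ρ r t => by
      refine (hc' ρ r).1 fun f => t π v ?_
      have f' := (lst (u π v)).1 o
      have v' := sp.piece (u π v)
      exact E.uniq lr le_rfl v' r f' f
    rw [E.sum] at this
    exact lt_of_lt_of_le (lt_sub_iff_add_lt.2 ((by norm_num : (-1 : ℝ) + 4 = 3) ▸ h3)) this
  intro π p
  have v := sp.piece p
  by_cases o : π a = none
  · have e1 := nm π p 0
    have e2 := (hc' _ v).2.imp_right fun u => u.resolve_right fun u => (lst p).2 u.1 o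
    rw [up_self o] at v e1 e2 ⊢
    exact (E.bd O H sp.sub v p.1 e1 (e2.imp_right .inl)).mono fun j u => ⟨fun _ => u, fun u => (u o).elim⟩
  have f := (lst p).1 o
  obtain ⟨r⟩ := E.pr _ v 0
  have hB : ∀ x ∈ c.image fun a => a.1.b, x.lo ≤ x.hi ∧ x.hi < Y.a + T.d ∧ η (update π a none) x = true :=
    Finset.forall_mem_image.2 fun x u => ⟨le_hi h x, hi x u, (f _ (Finset.mem_image_of_mem _ u)).symm.trans
      (side_of_gt (by have := hi x u; have := oa.2; omega))⟩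
  have xy : Y.a + T.d ≤ Y.s + T.d := by omega
  have sf := s_far (G := G) (h := h) hb
  obtain ⟨tp, nl, fs⟩ := tpc_ins hB xy r.tp sf.1 sf.2
  have U : pc (C.rz h.h0.w) (iB (Y.s + T.d) (c.image fun a => a.1.b)) (iη (Y.s + T.d) (η (update π a none))) =
      (sy G h).U (update π a none) ∩ ((sy G h).w b).sd false := by
    rw [pc_ins _ (ins_not hB xy), sd_nil (x := b) (by rw [hb]), hb]
    refine congrArg (· ∩ _) (Set.ext fun y => Finset.forall_mem_image.trans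
      ((forall₂_congr fun x u => ?_).trans (mem_U r.toPres y).symm))
    have := hi x u
    have := le_hi h x
    exact (Set.ext_iff.1 (sd_nil (h := h) (tw_nil (h := h) k q (.inl (by omega))) _) y).symm
  by_cases ft : D.F.Fst (c.image fun a => a.1.b) (η (update π a none))
  · filter_upwards [H.nF D.F h.h0.w T.n _ _ (D.F.chg (c.image fun a => a.1.b) (η (update π a none)) ch gL gA + R)
      tp (fs.2 ft)] with j hj
    obtain ⟨β, sg, l2, k1, k2⟩ := hj (L.W h.h0 (h.l0 ⟨_, q.n⟩) _)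
    refine ⟨fun u => (o u).elim, fun _ => ⟨β, sg, l2, nb_of (U ▸ k1), .inr ?_⟩⟩
    unfold G75.Wt
    push_cast
    linarith [Nat.cast_nonneg (α := ℝ) ((L.scn h (μ j)).nm σ π)]
  refine .of_forall fun j => ⟨fun u => (o u).elim, fun _ => ⟨_, _, _,
    nb_of (U ▸ H.nM D.F h.h0.w _ (L.W h.h0 (h.l0 ⟨_, q.n⟩) (μ j)) _ _ tp (mt fs.1 ft) nl), .inl ⟨?_, ?_⟩⟩⟩
  · obtain ⟨y, hy⟩ := ex_pt r.toPres le_rfl lr
    obtain ⟨x, s, u, t⟩ : ∃ x s, update π a none x = some s ∧ y ∉ ((sy G h).w x).sd s := by_contra fun w =>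
      ft ((mem_iff r.toPres hy).1 fun x s u => by_contra fun t => w ⟨x, s, u, t⟩)
    exact nf_left hY k q ha H.nf i pin p o u fun w => t (w ▸ hy x (v.bd_subset (Sys.mem_bd_of u)))
  · have u := (((hc' _ v).2.resolve_left ft).resolve_left fun u => u.1 f).2
    have e1 : D.F.tot (iB (Y.s + T.d) (c.image fun a => a.1.b)) (iη (Y.s + T.d) (η (update π a none))) al T.n =
        ssum D.F.w (c.image fun a => a.1.b) (η (update π a none)) (D.F.w.l - 1) (Y.a + T.d) al n + Y.hd al Y.a := by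
      have := oa.1
      have := oa.2
      rw [Fm.tot, ssum_cut (t := Y.a + T.d) (by omega) (by omega), ssum_past hB xy,
        ssum_head hB xy oa.1 sf.1.2.1.le, hd_eq k.hd (by omega) le_rfl]
      exact congrArg (· + _) (Fm.Sm.ssum (F := D.F) (F' := D.F) ⟨rfl, rfl, fun _ _ _ => rfl,
        fun j _ o => (ag j (by omega)).1.symm, fun j _ o => (ag j (by omega)).2.symm, rfl, fun _ _ _ => id⟩
        (fun x u => ⟨by have := (OK_lo (r.tp.ok x u).1).1; have := (hB x u).1; omega, (hB x u).2.1.le⟩) le_rfl le_rfl)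
    rw [Fm.tot, ssum_al, ssum_uu] at e1
    rw [nm π p]
    change _ ≤ Ta (1 + ssum _ _ _ _ _ lp T.n) (ssum _ _ _ _ _ lg T.n) (ssum _ _ _ _ _ lq T.n) _ 0 + _ - _
    unfold Ta G75.Wt Dl
    push_cast
    linarith

end Crest.Agent.X212.Br55
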