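import Crest.Agent.X212.Br55.Nl

/-!
# Row 212, layer G (helper55): the numbers of the right side of a terminal scene
-/

set_option autoImplicit false
set_option linter.unusedSectionVars false
noncomputable section
open Set Function Filter
open scoped ContDiff

namespace Crest.Agent.X212.Br55
open M G75 Wd38 Nm96 Cyl58 Br33
open Sid48 hiding chg
open Tm38 (Ref NfStmt)

variable {Γ : Nm} {κ lam : Type} [Fintype κ] [Fintype lam] [DecidableEq lam]
  {C : Cx Γ} {G : Tab C.kd κ} {P : Pm Γ} {L : LP C G P lam}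

theorem nb_id {Lm : LM κ lam} {S : Scene Lm} {i i' : S.L} {U V w β sg l2}
    (u : Line51.Uni S.X.I (S.N i).p (S.N i').p w V) (s : U ⊆ V) (k : S.Nb i U β sg l2) : S.Nb i' U β sg l2 := by
  have := Num57.nbx_push (Diffeomorph.refl S.X.I S.X.M ∞).toPartialDiffeomorph (subset_univ U) S.M.ori
    (Orx52.pos_id.2 (Orx52.oriOn S.M.ori _).same) ((S.N i').ok.mono (subset_univ _)) (u.mono s) k
  exact image_id U ▸ this

variable {D : Dt Γ} {h : D.OK P} {i : D.L} {σ c e : Finset D.A} {π : Reg D.A} {n : Wd38.Wt}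
  {μ : ℕ → ℤ × ℤ} {m : ℤ} {ν : ℤ × ℤ}

/-- first pieces, relative to the past of a frozen rational homology sphere -/
theorem fst_num {η : Bs → Bool} (nH : NbH L.L lam P.M ν.2) (r : PresS L h ν i σ c π n η) {b : D.A} {x : ℤ}
    (hb : b.1 = Bs.yS x) (cut : D.F.Cut x) (lo : ∀ a ∈ c, x < a.1.b.lo) (f : D.F.Fst (c.image fun a => a.1.b) η)
    {β₁ s₁ l₁ : ℝ} (N : (L.scn h ν).Nb i (((sy G h).w b).sd false) β₁ s₁ l₁) :
    ∃ β sg l2, (L.scn h ν).Nb i ((sy G h).U π) β sg l2 ∧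
      TC.mb P D.F (c.image fun a => a.1.b) η + (-3 / 4 * β₁ + (l₁ - s₁) / 2) +
        ssum D.F.w (c.image fun a => a.1.b) η x (D.F.w.r + 1) al n ≤ -3 / 4 * β + (l2 - sg) / 2 ∧
      TC.mb P D.F (c.image fun a => a.1.b) η + (-3 * β₁ + (l₁ - s₁) / 2) +
        ssum D.F.w (c.image fun a => a.1.b) η x (D.F.w.r + 1) om n ≤ -3 * β + (l2 - sg) / 2 := by
  obtain ⟨⟨β', s', l', N'⟩, K⟩ := nH D.F h.h0.w _ r.W x (h.ok.fz _ cut.1).1 cut
  have N2 := Num57.nbT lam _ _ r.Φ _ _ r.u _ _ _ _ r.pos.neg ((L.scn h ν).N i).ok r.uni N'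
  have sd := r.trs.sd b (.inr (hb ▸ ⟨rfl, Finset.mem_union_left _ cut.1⟩)) false
  rw [hb] at sd
  rw [show r.Φ '' _ = ((sy G h).w b).sd false from Set.ext fun y => by
    obtain ⟨z, rfl⟩ := r.trs.bij.2 y
    exact r.trs.bij.1.mem_set_image.trans (sd z).symm] at N2
  obtain ⟨rfl, rfl, rfl⟩ := Num57.nbx_uniq (((L.scn h ν).N i).ok.mono (subset_univ _)) N2 N
  have K := K _ _ _ _ η N' r.tp (Finset.forall_mem_image.2 lo) f
  rw [ssum_al, ssum_om, ssum_uu, TC.mb]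
  split_ifs with l
  · obtain ⟨β, sg, l2, k1, k2⟩ := K.2 l rfl
    replace k2 : P.M + 3 * max (β - (β' + ssum _ _ η x _ lp n)) 0 ≤
      (l2 - sg - (l' - s' + (ssum _ _ η x _ lq n - ssum _ _ η x _ lg n))) / 2 := k2
    have m1 := le_max_left (β - (β' + ssum D.F.w (c.image fun a => a.1.b) η x (D.F.w.r + 1) lp n)) 0
    have m2 := le_max_right (β - (β' + ssum D.F.w (c.image fun a => a.1.b) η x (D.F.w.r + 1) lp n)) 0
    exact ⟨β, sg, l2, nb r.toPres (Num57.nbT lam) k1, by linarith, by linarith⟩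
  · exact ⟨β' + ssum _ _ η x _ lp n, s' + ssum _ _ η x _ lg n, l' + ssum _ _ η x _ lq n,
      nb r.toPres (Num57.nbT lam) (K.1 l), by linarith, by linarith⟩

variable {Y : Ref Γ} {T : TC} {R : ℕ} {z : Nm96.Cn} (hY : Y.OK P) (k : T.OK P Y R D.F z)
include hY k

theorem cut_h : D.F.Cut (Y.h + T.d) :=
  ⟨k.fz.2.1, (k.hd _ hY.lt.1.le hY.lt.2.1.le).1 ▸ fun e => by simpa [e] using hY.h⟩

theorem cut_b : D.F.Cut (Y.b + T.e) := ⟨k.fz.2.2, (k.tl _ le_rfl hY.lt.2.2.2.le).1 ▸ hY.b⟩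

variable (q : TDt Y T z D)
include q

/-- the numbers of the pasts of `s` and `h` -/
theorem head_num (nH : NbH L.L lam P.M m) (ν : ℤ × ℤ) {a b : D.A} (ha : a.1 = Bs.yS (Y.h + T.d))
    (hb : b.1 = Bs.sS (Y.s + T.d)) : ∃ β₀ s₀ l₀ β₁ s₁ l₁,
      (L.scn h ν).Nb ⟨T.n, q.n⟩ (((sy G h).w b).sd false) β₀ s₀ l₀ ∧
      (L.scn h ν).Nb ⟨T.n, q.n⟩ (((sy G h).w a).sd false) β₁ s₁ l₁ ∧
      -3 / 4 * β₀ + (l₀ - s₀) / 2 = -3 / 4 * β₁ + (l₁ - s₁) / 2 + Y.hd al Y.h ∧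
      -3 * β₀ + (l₀ - s₀) / 2 = -3 * β₁ + (l₁ - s₁) / 2 + Y.hd om Y.h := by
  have l := hY.lt
  have o := (h.ok.fz _ k.fz.2.1).1
  obtain ⟨⟨β₁, s₁, l₁, N⟩, K⟩ := nH D.F h.h0.w _ (L.W h.h0 (h.l0 ⟨_, q.n⟩) ν) _ o (cut_h hY k)
  have hB : ∀ a ∈ (∅ : Finset Bs), a.lo ≤ a.hi ∧ a.hi < Y.h + T.d ∧ (fun _ => true) a = true := nofun
  have xy : Y.h + T.d ≤ Y.s + T.d := by omega
  have sf := s_far (G := G) (h := h) hb
  obtain ⟨tp, nl, fs⟩ := tpc_ins hB xy ⟨nofun, nofun, nofun, .inl rfl⟩ sf.1 sf.2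
  have K := (K _ _ _ _ _ N tp (Finset.forall_mem_insert .. |>.2 ⟨Int.add_lt_add_right l.2.1 _, nofun⟩) (fs.2 nofun)).1 nl
  rw [pc_ins _ (Finset.notMem_empty _), inter_eq_right.2 fun _ _ _ u => absurd u (Finset.notMem_empty _)] at K
  have e := fun φ => (ssum_head (φ := φ) (n := T.n) hB xy o.1 sf.1.2.1.le).trans (hd_eq k.hd (by omega) l.1.le)
  refine ⟨β₁ + ssum _ _ _ _ _ lp T.n, s₁ + ssum _ _ _ _ _ lg T.n, l₁ + ssum _ _ _ _ _ lq T.n, β₁, s₁, l₁,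
    nb_of (by rw [sd_nil (by rw [hb]), hb]; exact K), nb_of (by rw [sd_nil (by rw [ha]), ha]; exact N), ?_, ?_⟩
  · rw [← e, ssum_al, ssum_uu]; ring
  · rw [← e, ssum_om, ssum_uu]; ring

omit hY q in
theorem nd_le {a : D.A} (ha : a.1 = Bs.yS (Y.a + T.d)) (l : Y.a ≤ Y.h) (sp : Spl (sy G h) a true e c)
    (pin : ∀ x ∈ e, x.1.b.pin) : (L.scn h ν).nd e ≤ (L.scn h ν).nd c :=
  ncard_le_ncard (fun y ⟨u, x, v, w⟩ => ⟨u, x, (sp.mem x).2 ⟨v, ((fz_side (G := G) h ha k.fz.1 fun o => by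
      have := pin x v
      rw [o, ha] at this
      exact this).2.resolve_left fun o => w (disjoint_left.2 fun p p1 p2 => Wall.not_mem_sd _ (o.2 p1)
        ((sd_true h ha k.fz.1).2 (by have := (k.ls _ (mem_ls.1 u).2).1; omega) p2))).2⟩, w⟩) (toFinite _)

/-- **the right side** -/
theorem right (H : Hy L μ m) (O : Oc L h i σ n) (NR : T.NR P Y D.F n (sR (Y.a + T.d) (σ.image fun a => a.1.b)))
    (NS : T.NS P Y R D.F n (sR (Y.a + T.d) (σ.image fun a => a.1.b))) {j : ℕ} {y : YD κ lam}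
    (t : G75.TD y (L.scn h (μ j))) (hC : y.C = Y.C) (tm : TMt L Y T h (μ j) t) {β₁ s₁ l₁ : ℝ}
    (N : (L.scn h (μ j)).Nb i (((sy G h).w t.h).sd false) β₁ s₁ l₁)
    (e1 : -3 / 4 * t.β₀ + (t.l₀ - t.s₀) / 2 = -3 / 4 * β₁ + (l₁ - s₁) / 2 + Y.hd al Y.h)
    (e2 : -3 * t.β₀ + (t.l₀ - t.s₀) / 2 = -3 * β₁ + (l₁ - s₁) / 2 + Y.hd om Y.h) (he : e ⊆ σ)
    (pin : ∀ x ∈ e, x.1.b.pin) (sd : ∀ x ∈ e, Y.a + T.d < x.1.b.lo → Y.h + T.d < x.1.b.lo)
    (sp : Spl (sy G h) t.a true e c) :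
    (∃ w : Reg D.A → ℝ, (∀ π, Pcs (sy G h) t.a true e π → t.BR i σ e π (w π)) ∧
      ∀ J : Finset (Reg D.A), (∀ π ∈ J, Pcs (sy G h) t.a true e π) → (∃ π ∈ J, π t.a ≠ none) →
        (∃ π, Pcs (sy G h) t.a true e π ∧ π ∉ J) →
        -1 < ∑ π ∈ J, w π + 4 * ((c.card : ℝ) - J.card) - 2 * (L.scn h (μ j)).nd e) ∧
    ∃ w : Reg D.A → ℝ, (∀ π, Pcs (sy G h) t.a true e π → t.BS i σ e π (w π)) ∧
      ∀ J : Finset (Reg D.A), (∀ π ∈ J, Pcs (sy G h) t.a true e π) →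
        R < ∑ π ∈ J, (w π - 2 * t.nc π) + 4 * ((c.card : ℝ) - J.card) + 2 * t.G.card - 2 * (L.scn h (μ j)).nd e := by
  have l := hY.lt
  have lr : D.F.w.l ≤ D.F.w.r + 1 := by have := h.ok.w.lt; omega
  have oa := (h.ok.fz _ k.fz.1).1.1
  have sb := k.sb
  have ha := tm.a
  have ce : c ⊆ e := fun x u => ((sp.mem x).1 u).1
  have lo : ∀ x ∈ c, Y.h + T.d < x.1.b.lo := fun x u => sd x (ce u) ((sd_true h ha k.fz.1).1 ((sp.mem x).1 u).2)
  obtain ⟨η, E⟩ := O.eta c (ce.trans he) fun x u => pin x (ce u)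
  have hB : c.image (fun a => a.1.b) ⊆ sR (Y.a + T.d) (σ.image fun a => a.1.b) := Finset.forall_mem_image.2 fun x u =>
    Finset.mem_filter.2 ⟨Finset.mem_image_of_mem _ (E.sub u), by have := lo x u; omega⟩
  have pB : ∀ a ∈ c.image fun a => a.1.b, a.pin := Finset.forall_mem_image.2 fun x u => pin x (ce u)
  have ne := fun π v => (E.pr π v 0).elim fun p => p.tp.ne
  have nd : ((L.scn h (μ j)).nd e : ℝ) ≤ D.F.nd (c.image fun a => a.1.b) :=
    Nat.cast_le.2 ((nd_le k ha l.1.le sp pin).trans (E.nd _))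
  have fst : ∀ {π}, Pcs (sy G h) t.a true e π →
      (π t.a ≠ none ↔ D.F.Fst (c.image fun a => a.1.b) (η (update π t.a none))) := fun p =>
    (adj_inV ha k.fz.1 p E sp).trans (forall₂_congr (Finset.forall_mem_image.2 fun x u => by
      have := lo x u
      rw [side_of_le (c' := D.F.w.l) (by omega) (by omega)]))
  have key : ∀ π, Pcs (sy G h) t.a true e π → ∃ β sg l2, (L.scn h (μ j)).Nb i (t.op π) β sg l2 ∧
      (π t.a = none → (∀ g k, g - TC.mb P D.F (c.image fun a => a.1.b) (η (update π t.a none)) ≤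
          D.F.wt n (sR (Y.a + T.d) (σ.image fun a => a.1.b)) (c.image fun a => a.1.b) (η (update π t.a none)) k →
          g ≤ G75.Wt β sg l2 ((L.scn h (μ j)).nm σ π) ((L.scn h (μ j)).nh π) k) ∧
        ∀ g, TC.Bw P D.F n (sR (Y.a + T.d) (σ.image fun a => a.1.b)) (c.image fun a => a.1.b)
          (η (update π t.a none)) g → (L.scn h (μ j)).Bd i σ (insert t.a e) π g) ∧
      (π t.a ≠ none → (L.scn h (μ j)).Nf i t.a (insert t.a e) π ∧
        (∀ g, T.BRw P Y D.F n (sR (Y.a + T.d) (σ.image fun a => a.1.b)) (c.image fun a => a.1.b)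
          (η (update π t.a none)) g → g ≤ Ta β sg l2 ((L.scn h (μ j)).nm σ π) ((L.scn h (μ j)).nh π) + 4 -
            Ta t.β₀ t.s₀ t.l₀ 0 0 - y.C - 2) ∧
        ∀ g k, g - TC.mb P D.F (c.image fun a => a.1.b) (η (update π t.a none)) ≤ T.wr Y D.F n
          (sR (Y.a + T.d) (σ.image fun a => a.1.b)) (c.image fun a => a.1.b) (η (update π t.a none)) k →
          g ≤ G75.Wt β sg l2 ((L.scn h (μ j)).nm σ π) ((L.scn h (μ j)).nh π) k + 4 - G75.Wt t.β₀ t.s₀ t.l₀ 0 0 0) := by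
    intro π p
    have v := sp.piece p
    have nm := nm_eq ha k.fz.1 p E sp (τ := sR (Y.a + T.d) (σ.image fun a => a.1.b)) (fun b => by
      simp only [sR, Finset.mem_filter, Finset.mem_image, sd_true h ha k.fz.1]
      exact ⟨fun ⟨⟨x, u, v⟩, o⟩ => ⟨x, u, v ▸ o, v⟩, fun ⟨x, u, o, v⟩ => ⟨⟨x, u, v⟩, v ▸ o⟩⟩) (μ j)
    have nh : (L.scn h (μ j)).nh π = _ := (congrArg ncard (inn_eq ha k.fz.1 p fun x => (and_iff_left_of_imp fun u =>
      (sd_true h ha k.fz.1).2 (by have := (k.ls _ (mem_ls.1 u).2).1; omega)).symm)).trans (E.nh _ v (μ j))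
    obtain ⟨r⟩ := E.pr _ v (μ j)
    by_cases o : π t.a = none
    · have f := fun u => (fst p).2 u o
      have u : update π t.a none = π := up_self o
      have u' : t.op π = (sy G h).U π := congrArg (sy G h).U u
      rw [u] at v r f nm nh ⊢
      rw [u']
      obtain ⟨β, sg, l2, u1, u2⟩ := r.bd E.sub v (H.hμ j) (okStmt L h _) H.nM H.nL (Num57.nbT lam) H.ab H.hg (O.K _) O.cel
        sp.sub p.1 f nm nh
      exact ⟨β, sg, l2, u1, fun _ => u2, fun u => (u o).elim⟩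
    · obtain ⟨β, sg, l2, u1, u2, u3⟩ := fst_num ((H.hμ j).symm ▸ H.nH) r tm.h' (cut_h hY k) lo ((fst p).1 o) N
      refine ⟨β, sg, l2, u1, fun u => (o u).elim, fun _ => ⟨nf_right hY k q ha H.nf i sd p o, fun g u => ?_, fun g k u => ?_⟩⟩
      all_goals
        rw [nm, nh]
        simp only [TC.BRw, TC.wr, TC.rs] at u
        simp only [Ta, G75.Wt, Dl, hC]
        push_cast
        linarith
  have br : ∀ {π g}, Pcs (sy G h) t.a true e π →
      (π t.a = none → TC.Bw P D.F n (sR (Y.a + T.d) (σ.image fun a => a.1.b)) (c.image fun a => a.1.b)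
        (η (update π t.a none)) g) → (π t.a ≠ none → T.BRw P Y D.F n (sR (Y.a + T.d) (σ.image fun a => a.1.b))
        (c.image fun a => a.1.b) (η (update π t.a none)) g) → t.BR i σ e π g := fun p u v =>
    let ⟨β, sg, l2, u1, u2, u3⟩ := key _ p
    ⟨fun o => (u2 o).2 _ (u o), fun o => ⟨β, sg, l2, u1, (u3 o).1, (u3 o).2.1 _ (v o)⟩⟩
  constructor
  · rcases c.eq_empty_or_nonempty with rfl | cn
    · have : ∀ π, ∃ w, Pcs (sy G h) t.a true e π → t.BR i σ e π w := fun π =>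
        ⟨_, fun p => br p (fun o => ((fst p).2 nofun o).elim) fun _ => (add_sub_cancel_right _ _).le⟩
      choose w hw using this
      refine ⟨w, hw, fun J u ⟨π, v, _⟩ ⟨π', v', o⟩ => (o ?_).elim⟩
      have v1 := sp.piece (u π v)
      have v2 := sp.piece v'
      have := E.uniq le_rfl lr v1 v2 nofun nofun
      exact (u π v).inj sp v' this ▸ v
    obtain ⟨ch, gA, gR, h3, hc⟩ := NR _ hB pB (cn.image _)
    have hc' := fun π v => hc (η π) ((ne π v).resolve_left (cn.image _).ne_empty)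
    refine ⟨fun π => D.F.chg (c.image fun a => a.1.b) (η (update π t.a none)) ch gA gR, fun π p => ?_,
      fun J u ⟨π, v, o⟩ _ => ?_⟩
    · have v := sp.piece p
      have b := hc' _ v
      exact br p (fun o => (b.2 fun u => (fst p).2 u o).2) fun o => b.1 ((fst p).1 o)
    have := sp.sum (g := fun ρ => D.F.chg (c.image fun a => a.1.b) (η ρ) ch gA gR) u fun ρ r t => by
      refine ((hc' ρ r).2 fun f => t π v ?_).1
      have f' := (fst (u π v)).1 o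
      have v' := sp.piece (u π v)
      exact E.uniq le_rfl lr v' r f' f
    rw [E.sum] at this
    linarith
  obtain ⟨ch, gA, gR, x, h3, hc⟩ := NS _ hB pB
  have gz : ∀ {γ : D.A}, γ ∈ t.G → IsL D.F.fz γ.1 ∧ γ ∉ c ∧ ∃ z, γ.1 = Bs.yS z ∧ .yS z ∈ D.F.fz := fun {γ} u => by
    have u := (tm.G γ).1 u
    have v := (k.G _ u.2).1
    obtain ⟨-, z, w⟩ := h.ok.fz _ v
    exact ⟨⟨u.1, v⟩, fun o => (w ▸ pin γ (ce o) : (Bs.yS z).pin), z, w ▸ eq_of_isL u, w ▸ v⟩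
  have gi : InjOn (fun a : D.A => a.1.b) {γ | γ ∈ t.G} := fun _ u _ v => ext_b (gz u).1 (gz v).1
  have nc : ∀ ρ, (sy G h).Piece ↑c ρ → ({γ | γ ∈ t.G} ∩ (sy G h).inn ρ).ncard = T.nc (c.image fun a => a.1.b) (η ρ) :=
    fun ρ v => (E.pr ρ v 0).elim fun r => ncard_eq (gi.mono inter_subset_left) fun b => by
      rw [Finset.mem_filter]
      refine ⟨fun u => ?_, ?_⟩
      · have w := (tm.G ⟨b, h.fz _ (k.G _ u.1).1⟩).2 ⟨rfl, u.1⟩
        exact ⟨_, ⟨w, (r.inn E.sub v (.inr (gz w).1) (gz w).2.1).2 u.2⟩, rfl⟩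
      · rintro ⟨γ, ⟨w, u⟩, rfl⟩
        exact ⟨((tm.G γ).1 w).2, (r.inn E.sub v (.inr (gz w).1) (gz w).2.1).1 u⟩
  have nc' : ∀ π, Pcs (sy G h) t.a true e π → t.nc π = T.nc (c.image fun a => a.1.b) (η (update π t.a none)) :=
    fun π p => (congrArg ncard (inn_eq ha k.fz.1 p fun x => (and_iff_left_of_imp fun u => (sd_true h ha k.fz.1).2
      (by have := (k.G _ ((tm.G x).1 u).2).2; omega)).symm)).trans (nc _ (sp.piece p))
  have gc : t.G.card = T.G.card := (ncard_coe_finset _).symm.trans (ncard_eq gi fun b =>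
    ⟨fun u => ⟨⟨b, h.fz _ (k.G _ u).1⟩, (tm.G _).2 ⟨rfl, u⟩, rfl⟩, fun ⟨γ, u, v⟩ => v ▸ ((tm.G γ).1 u).2⟩)
  have hc' := fun π v => hc (η π) _ (ne π v) rfl
  refine ⟨fun π => D.F.chg (c.image fun a => a.1.b) (η (update π t.a none)) ch gA gR +
    x * T.nc (c.image fun a => a.1.b) (η (update π t.a none)), fun π p => ?_, fun J u => ?_⟩
  · have v := sp.piece p
    obtain ⟨-, k₀, lb, b1, b2⟩ := hc' _ v
    obtain ⟨β, sg, l2, u1, u2, u3⟩ := key π p
    obtain ⟨r⟩ := E.pr _ v (μ j)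
    have lb := H.lb h _ i σ c e _ n _ t.h t.b _ _ k₀ (okStmt L h _) (O.K _) ce he pin v r tm.h' tm.b (cut_h hY k)
      (cut_b hY k) (by omega) lb
    have s : ((sy G h).w t.h).sd true ⊆ ((sy G h).w t.a).sd true := by
      rw [(sl_time (hW := fun a : D.A => h.ad _ a.2) (.inl tm.h')).2.1, (sl_time (hW := fun a : D.A => h.ad _ a.2) (.inl ha)).2.1]
      exact preimage_mono (Ioi_subset_Ioi (by linarith [cast_lt (Int.add_lt_add_right l.1 T.d)]))
    have V : t.V π = (sy G h).U (update π t.a none) ∩ ((sy G h).w t.h).sd true ∩ ((sy G h).w t.b).sd false :=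
      congrArg (· ∩ _) ((congrArg (· ∩ _) p.U_eq).trans ((inter_assoc ..).trans (congrArg _ (inter_eq_right.2 s))))
    refine ⟨β, sg, l2, k₀, u1, V ▸ lb, fun o => ?_, fun o => ?_⟩
    · have b := b1 fun u => (fst p).2 u o
      exact ⟨(u2 o).1 _ _ b.1, (u2 o).2 _ b.2⟩
    · have b := b2 ((fst p).1 o)
      exact ⟨(u3 o).2.2 _ _ b.1, b.2.imp (fun u => br p (fun u => (o u).elim) fun _ => u) ((u3 o).2.2 _ _)⟩
  · have := sp.sum (g := fun ρ => D.F.chg (c.image fun a => a.1.b) (η ρ) ch gA gR +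
      (x - 2) * T.nc (c.image fun a => a.1.b) (η ρ)) u fun ρ r _ => by linarith [(hc' ρ r).1]
    rw [Finset.sum_add_distrib, E.sum, ← Finset.mul_sum, Finset.sum_congr rfl fun ρ v =>
      congrArg Nat.cast (nc ρ (mem_pcs.1 v)).symm] at this
    have s := sum_inn E.cell (G := t.G) fun γ u => ⟨(gz u).2.1, fun y v =>
      let ⟨_, a, b⟩ := (gz u).2.2; (fz_side h a b (ne_of_mem_of_not_mem v (gz u).2.1)).1⟩
    rw [Finset.sum_congr rfl fun π v => show _ = D.F.chg (c.image fun a => a.1.b) (η (update π t.a none)) ch gA gR +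
      (x - 2) * T.nc (c.image fun a => a.1.b) (η (update π t.a none)) by rw [nc' π (u π v)]; ring]
    replace this := (congrArg (fun r => _ + (x - 2) * r - 4) (s.trans (congrArg Nat.cast gc))).ge.trans this
    rw [gc]
    linarith

omit hY k q

/-- **TM-NUM** -/
theorem tn (H : Hy L μ m) : TnStmt L μ := by
  intro Y R d z T D h hY k g q
  have l := hY.lt
  have im : ∀ σ : Finset D.A, (σ.map (.subtype _)).image Wl.b = σ.image fun a => a.1.b := fun σ => by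
    rw [Finset.map_eq_image, Finset.image_image]; rfl
  have ev1 := fun (i : D.L) (σ e c : Finset D.A) (a : D.A) (s : Bool) (u : (i.1, σ.map (.subtype _)) ∈ z.support)
      (he : e ⊆ σ) (pin : ∀ x ∈ e, x.1.b.pin) (sp : Spl (sy G h) a s e c) =>
    (g.gd _ u).tor.elim fun _ r => na_ev H (oc_of H.tw g q.sup u r.1 r.2.1) (im σ ▸ r.2.2.num) sp he pin
  have ev2 := fun (i : D.L) (σ e c : Finset D.A) (a b : D.A) (u : (i.1, σ.map (.subtype _)) ∈ z.support)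
      (he : e ⊆ σ) (pin : ∀ x ∈ e, x.1.b.pin) (ha : a.1 = Bs.yS (Y.a + T.d)) (hb : b.1 = Bs.sS (Y.s + T.d))
      (sp : Spl (sy G h) a false e c) => (k.cell _ u).elim fun _ r =>
    left_ev (R := R) hY k q hb H (oc_of H.tw g q.sup u r.1 r.2.1) ha (fun j v =>
      have a1 := acts_agr (w := D.F.w) (n := i.1) fun τ o => .inl (v.trans_lt (r.2.2.1 τ o).1)
      have a2 := ln_agr k q i (.inl (v.trans (Int.lt_succ _).le))
      ⟨a1.1.trans a2.1, a1.2.trans a2.2⟩) (im σ ▸ r.2.2.2.1) sp he pin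
  simp only [← eventually_imp_distrib_left, ← eventually_all] at ev1 ev2
  filter_upwards [ev1, ev2] with j ev1 ev2 y t hC tm o
  have ei : t.i₀ = ⟨T.n, q.n⟩ := Subtype.ext tm.i
  obtain ⟨β₀, s₀, l₀, β₁, s₁, l₁, N₀, N₁, e1, e2⟩ := head_num hY k q H.nH (μ j) tm.h' tm.s
  rw [← ei] at N₀ N₁
  refine ⟨β₀, s₀, l₀, N₀, fun i σ u e he pin => ?_⟩
  have pin' : ∀ x : D.A, x ∈ e → x.1.b.pin := fun x v => Bs.ty_sph.1 (pin x v)
  have sp : ∀ s, Spl (sy G h) t.a s e (t.sd s e) := fun s =>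
    ⟨((okStmt L h (μ j)).cell i σ (mem_K L h (q.sup _ (ch_mem u)))).1.mono fun x v =>
      (Finset.mem_insert.1 v).elim (fun v => .inr (v ▸ o.fz.1)) fun v => .inl (he v), fun _ => mem_sd⟩
  obtain ⟨ts, pp, tn, -, -, NR, NS⟩ := k.cell _ (ch_mem u)
  have r := right hY k q H (oc_of H.tw g q.sup (ch_mem u) pp tn) (im σ ▸ NR) (im σ ▸ NS)
    { t with β₀ := β₀, s₀ := s₀, l₀ := l₀ } hC ⟨tm.a, tm.h', tm.s, tm.b, tm.i, tm.G⟩
    (nb_id (o.left i).uni subset_union_left N₁) e1 e2 he pin' (fun x v w => by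
      have := le_hi h x
      rcases k.side _ (ch_mw u (.inl (he v))) with p | p | p | p
      exacts [(p ▸ pin' x v : (Bs.yS _).pin).elim, (p ▸ pin' x v : (Bs.yS _).pin).elim, by omega, p]) (sp true)
  refine ⟨?_, r.1, r.2, fun s => ?_⟩
  · obtain ⟨w, h1, h2⟩ := ev2 i σ e _ t.a t.s (ch_mem u) he pin' tm.a tm.s (sp false)
    rw [← hC, ← ei] at h1
    exact ⟨w, h1, h2⟩
  · obtain ⟨w, h1, h2⟩ := ev1 i σ e _ t.a s (ch_mem u) he pin' (sp s)
    refine ⟨w, h1, fun J v p => (h2 J v (.inl p)).trans_le (sub_le_sub_left (mul_le_mul_of_nonneg_left ?_ zero_le_two) _)⟩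
    cases s
    exacts [Nat.cast_nonneg _, Nat.cast_le.2 (nd_le k tm.a l.1.le (sp true) pin')]

end Crest.Agent.X212.Br55
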