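import Crest.Agent.X212.Br55.Ax
import Crest.Agent.X212.Wd38.Tl

/-!
# Row 212, layer G (helper55): the face `S¹ × S²`, the bridge
-/

set_option autoImplicit false
set_option linter.unusedSectionVars false
noncomputable section
open Function Filter Finset

namespace Crest.Agent.X212.Br55
open Wd38 Nm96 Nm96.Cn
open G75 (Th)

variable {Γ : Nm} {κ lam : Type} [Fintype κ] [Fintype lam] [DecidableEq lam] {C : Cx Γ} {G : Tab C.kd κ}
  {P : Pm Γ} {L : LP C G P lam} {T : Th L.Lm} {μ : ℕ → ℤ × ℤ} {F : Fm Γ} {n : Wt} {σ : Finset Wl} {x y : ℤ}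
  {j : ℕ → ℕ}

theorem not_crs (hF : F.OK P) (hr : ∀ j, x < j → j ≤ y → F.w.s j = .rod (F.w.s x).r) (xy : x + 3 ≤ y) {l : Bs}
    (hl : l ∈ F.ls) : ¬Crs (.rA x y) l := by
  obtain ⟨z, rfl, -, -, h⟩ := hF.ls l hl
  rintro (k | k) <;> simp only [Bs.lo, Bs.hi] at k
  · have := hr (z + 3) (by omega) (by omega)
    rw [h _ (by omega) (by omega), h x (by omega) (by omega), lrd, lrd, if_neg (by omega), if_neg (by omega),
      if_neg (by omega), if_pos (by omega)] at this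
    simp [Sl.r] at this
  · have := (hr z (by omega) (by omega)).trans (hr (z + 1) (by omega) (by omega)).symm
    rw [h _ (by omega) (by omega), h _ (by omega) (by omega), lrd, lrd, if_pos le_rfl, if_neg (by omega),
      if_pos (by omega)] at this
    simp at this

theorem gc_tor (h : F.GC P n σ) {a : Wl} (k : a ∈ σ) : a.b.OK F.w ∧ (∀ b ∈ F.fz, a.b.Far b) ∧
    ∀ l ∈ F.ls, a.b = l ∨ Crs a.b l ∨ a.b.hi < l.lo - 1 ∨ l.hi + 1 < a.b.lo ∨
      (a.b.arc ∧ a.b.lo < l.lo ∧ l.hi < a.b.hi) :=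
  let ⟨_, _, _, q⟩ := h.tor
  have r := mem_image_of_mem Wl.b k
  ⟨(q.ok _ r).1, q.fz _ r, q.ls _ r⟩

theorem not_pin (hF : F.OK P) {l : Bs} (hl : l ∈ F.ls) : ¬l.pin ∧ l.arc ∧ l.hi = l.lo + 3 ∧ ∀ x y, l ≠ .rA x y := by
  obtain ⟨z, rfl, -⟩ := hF.ls l hl
  exact ⟨id, trivial, rfl, nofun⟩

/-- a good cell of the data -/
def Dt.Gc (D : Dt Γ) (P : Pm Γ) (n : Wt) (σ : Finset Wl) : Prop := D.F.GC P n σ ∧ ∃ q ∈ D.s, q.1 = n ∧ σ ⊆ q.2

theorem rf_ev (H : Lvs L T μ) {D D' : Dt Γ} (h : D.OK P) (h' : D'.OK P) {e e' : Bs} {g : Wt → Wt} {d : ℕ} {c : Cn}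
    (q : Mp D D' D'.A D'.L id id g id fun a a' => a = a' ∧ (a = Bs.rA x y ∨ a.Out x y ∧ a.b.Far (.rA x y)))
    (hs : D.F.w.Sur D'.F.w x y) (hz : D'.F.fz ⊆ D.F.fz) (hl : D'.F.ls = {l ∈ D.F.ls | ¬(x < l.lo ∧ l.hi < y)})
    (hr : ∀ j, x < j → j ≤ y → D'.F.w.s j = .rod (D'.F.w.s x).r) (hg : Chg D'.F.ls 0 x y g)
    (fr : ∀ l ∈ D.F.fz ∪ D.F.ls, (Bs.rA x y).Far l) (nin : ∀ l : Bs, Bs.rA x y ≠ .rA (l.lo + 1) (l.lo + 2))
    (r₀ : ↑(Bs.rA x y) ∈ D'.A) (a₁ : ↑e ∈ D.A) (a₂ : ↑e' ∈ D.A)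
    (cs : ∀ p ∈ D.s, ∀ a ∈ p.2, a = Bs.rA x y ∨ a = e ∨ a = e' ∨ a.Out x y ∧ a.b.Far (.rA x y))
    (s : D.Sup (c.mp g id {↑e} + c.mp g id {↑e'})) (s' : D'.Sup c)
    (k : D.F.Cl P (d + 1) (c.mp g id {↑e} + c.mp g id {↑e'})) (k' : D'.F.Cl P d c)
    (hc : ∀ p ∈ c.support, D.Gc P (g p.1) (p.2 ∪ {↑(Bs.rA x y), ↑e}) ∧ D.Gc P (g p.1) (p.2 ∪ {↑(Bs.rA x y), ↑e'}) ∧
      D'.Gc P p.1 (p.2 ∪ {↑(Bs.rA x y)}) ∧ D.F.RS (g p.1) x y e e') :
    ∀ᶠ i in atTop, zz T μ j h (d + 1) (c.mp g id {↑e} + c.mp g id {↑e'}) i = zz T μ j h' d c i := by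
  filter_upwards [nc_ev H h, nc_ev H h', cn_ev H h s k, cn_ev H h' s' k'] with i n1 n2 c1 c2
  let R : D.A := q.e ⟨_, r₀⟩
  obtain ⟨m, im, lin⟩ := H.sur h.h0 h'.h0 (μ i) x y g (h.uw R) (h'.uw ⟨_, r₀⟩) rfl rfl hs hl
    (fun l u => fr l (mem_union_right _ u)) (fun l _ => nin l) hr hg
  have e1 := q.ch_l h h' m lin (s'.mem h') {⟨_, a₁⟩}
  have e2 := q.ch_l h h' m lin (s'.mem h') {⟨_, a₂⟩}
  have e3 := q.ch_r h h' m lin (s'.mem h')
  rw [map_singleton] at e1 e2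
  rw [mp_id] at e3
  have e4 := congrArg₂ (· + ·) e1 e2
  have := H.ax.rf (L.scn h (μ i)) (L.scn h' (μ i)) R (⟨_, a₁⟩ : D.A) (⟨_, a₂⟩ : D.A) (q.mt h h' m lin)
    (⟨_, r₀⟩ : D'.A) (j i) d (q.ch h h' m lin c) rfl im
    (fun a u => ⟨a, rfl, mem_fz.2 ⟨(mem_fz.1 u).1, hz (mem_fz.1 u).2⟩⟩) ((congrArg _ e3).mpr c2) (fun n σ u => ?_)
    ((congrArg _ e4).mpr c1)
  · exact (congrArg _ e4).symm.trans (this.trans (congrArg _ e3))
  have u := Finsupp.mem_support_iff.2 u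
  obtain ⟨g1, g2, g3, g4⟩ := hc _ u
  have t : ∀ b (v : (b : Wl) ∈ D.A), (σ.map q.e ∪ {R, ⟨b, v⟩}).map (Embedding.subtype _) =
      σ.map (Embedding.subtype _) ∪ {↑(Bs.rA x y), b} := fun b v => by
    rw [map_union, Finset.map_map, map_insert, map_singleton]
    rfl
  have t' : (σ.map q.e' ∪ {q.e' ⟨_, r₀⟩}).map (Embedding.subtype _) =
      σ.map (Embedding.subtype _) ∪ {↑(Bs.rA x y)} := by
    rw [map_union, Finset.map_map, map_singleton]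
    rfl
  have o := fun a v => And.intro ((k'.mem _ u).2 a v) (q.a a ((s'.mem h' _ u).2 v)).2.2.2
  have o1 := fun a v => (o a v).imp_left (Or.imp_right fun z => (⟨z.2, (mem_filter.1 (hl ▸ z.1)).1⟩ : IsL D.F.ls a))
  have o2 := fun a v => (o a v).imp_left (Or.imp_right fun z => (z.symm : IsL D'.F.ls a))
  obtain ⟨_, _, _, _, _, _, -, -, -, -, -, -, -, -, -, pe, xe, ey, -, pe', xe', ey', -⟩ := id g4
  refine ⟨fun v => nin_sf h'.ok k'.toSf _ u _ (mem_map_of_mem _ v) x y rfl,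
    n1 ⟨_, (q.l _ n.2).1⟩ _ (t _ a₁ ▸ g1.1) (t _ a₁ ▸ g1.2) (t _ a₁ ▸ cel_rf o1 (by simp [*])),
    n1 ⟨_, (q.l _ n.2).1⟩ _ (t _ a₂ ▸ g2.1) (t _ a₂ ▸ g2.2) (t _ a₂ ▸ cel_rf o1 (by simp [*])),
    n2 n _ (t' ▸ g3.1) (t' ▸ g3.2) (t' ▸ cel_rf o2 (by simp)),
    H.rs h _ ⟨_, (q.l _ n.2).1⟩ R ⟨_, a₁⟩ ⟨_, a₂⟩ x y e e' rfl rfl rfl g4 (g1.1.okn (Bs.rA x y) (by simp)).1 fr
      (fun p v _ => cs p v) (H.ok h _),
    H.ds h' _ n ⟨_, r₀⟩ x y rfl hr (fun l v => fr l (union_subset_union hz (hl ▸ filter_subset _ _) v))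
      (fun p v _ a o => (q.a a ((h'.mem p v).2.1 o)).2.2.2) (H.ok h' _),
    H.rn h h' _ ⟨_, (q.l _ n.2).1⟩ n x y e e' hs hl fr (fun l _ => nin l) hr
      (fun j v => ⟨(hg.1 _ j).1 (by omega), (hg.1 _ j).2 (by omega)⟩) g4⟩

theorem rf (H : Lvs L T μ) (F F' : Fm Γ) (x y : ℤ) (e e' : Bs) (g : Wt → Wt) (d : ℕ) (c : Cn)
    (hs : F'.w.Sur F.w x y) (hz : F'.fz = F.fz) (hl : F.ls = {l ∈ F'.ls | ¬(x < l.lo ∧ l.hi < y)})
    (hr : ∀ j, x < j → j ≤ y → F.w.s j = .rod (F.w.s x).r) (hg : Chg F.ls 0 x y g)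
    (ha : ∀ a ∈ c.walls, a.Out x y ∧ a.b.Far (.rA x y)) (k : F.Cl P d c)
    (hc : ∀ p ∈ c.support, F.GC P p.1 (insert ↑(Bs.rA x y) p.2) ∧ F'.RS (g p.1) x y e e' ∧
      F'.GC P (g p.1) (p.2 ∪ {↑(Bs.rA x y), ↑e}) ∧ F'.GC P (g p.1) (p.2 ∪ {↑(Bs.rA x y), ↑e'}))
    (k' : F'.Cl P (d + 1) (c.mp g id {↑e} + c.mp g id {↑e'})) :
    (wth T μ j).Z F' (d + 1) (c.mp g id {↑e} + c.mp g id {↑e'}) = (wth T μ j).Z F d c := by
  classical
  rcases c.support.eq_empty_or_nonempty with z | ⟨p₀, z⟩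
  · rw [Finsupp.support_eq_empty.1 z, mp_zero, mp_zero, add_zero, z_zero H, z_zero H]
  obtain ⟨g₀, ⟨_, _, _, _, _, _, -, -, -, -, -, -, -, -, ar, pe, xe, ey, -, pe', -⟩, g₁, -⟩ := hc p₀ z
  have hF := g₀.ok
  have hF' := g₁.ok
  have xy : x + 3 ≤ y := by
    have := (Sid48.OK_rg (gc_tor g₁ (a := e) (by simp)).1 ar).lt
    change e.lo < e.hi at this
    omega
  have sub : F.ls ⊆ F'.ls := hl ▸ filter_subset _ _
  have fr' : ∀ l ∈ F'.fz ∪ F'.ls, (Bs.rA x y).Far l := fun l u => by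
    have t := (gc_tor g₁ (a := Bs.rA x y) (by simp)).2
    refine (mem_union.1 u).elim (t.1 l) fun u => ?_
    have v := not_pin hF' u
    by_cases q : x < l.lo ∧ l.hi < y
    · exact .inr (.inr (.inl ⟨trivial, q.1, q.2, v.2.1⟩))
    rcases t.2 l u with t | t | t | t | t
    · exact (v.2.2.2 _ _ t.symm).elim
    · exact (not_crs hF hr xy (hl ▸ mem_filter.2 ⟨u, q⟩) t).elim
    · exact .inl (lt_of_lt_of_le t (by omega))
    · exact .inr (.inl (lt_of_le_of_lt (by omega) t))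
    · exact (q t.2).elim
  have fr : ∀ l ∈ F.fz ∪ F.ls, (Bs.rA x y).Far l := fun l u => fr' l (union_subset_union hz.ge sub u)
  have ps : ∀ l ∈ F.ls, l.lo < x ∧ (l.hi < x ∨ y < l.hi) ∨ y < l.lo := fun l u => by
    have := (mem_filter.1 (hl ▸ u)).2
    have := (not_pin hF u).2.2.1
    have t : y < l.lo ∨ l.hi < x ∨ (_ ∧ x < l.lo ∧ l.hi < y ∧ _) ∨ (_ ∧ l.lo < x ∧ y < l.hi ∧ _) :=
      fr l (mem_union_right _ u)
    omega
  have out : ∀ a, IsL (F.fz ∪ F.ls) a → a.Out x y ∧ a.b.Far (.rA x y) := fun a u => by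
    refine ⟨and_assoc.1 ⟨?_, by simp [u.1]⟩, Sid48.far_symm (fr _ u.2)⟩
    rcases mem_union.1 u.2 with v | v
    · obtain ⟨z, t⟩ := (hF.fz _ v).2
      have := fr _ u.2
      rw [t] at this ⊢
      simp only [Bs.Far, Bs.lo, Bs.hi, Bs.arc, and_false, false_and, or_false] at this ⊢
      omega
    · have := ps _ v
      have := (not_pin hF v).2.2.1
      omega
  have nin : ∀ l : Bs, Bs.rA x y ≠ .rA (l.lo + 1) (l.lo + 2) := fun l t => by
    simp only [Bs.rA.injEq] at t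
    omega
  let cl : Bs → Wt × Finset Wl → Wt × Finset Wl := fun b p => (g p.1, p.2 ∪ {↑(Bs.rA x y), ↑b})
  have ms : ∀ {q}, q ∈ c.support.image (cl e) ∪ c.support.image (cl e') →
      ∃ b p, (b = e ∨ b = e') ∧ p ∈ c.support ∧ cl b p = q := fun u => (mem_union.1 u).elim
    (fun u => let ⟨p, a, b⟩ := mem_image.1 u; ⟨e, p, .inl rfl, a, b⟩)
    fun u => let ⟨p, a, b⟩ := mem_image.1 u; ⟨e', p, .inr rfl, a, b⟩
  have sm : ∀ {b p}, b = e ∨ b = e' → p ∈ c.support → cl b p ∈ c.support.image (cl e) ∪ c.support.image (cl e') :=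
    fun u v => mem_union.2 (u.elim (fun t => .inl (t ▸ mem_image_of_mem _ v)) fun t => .inr (t ▸ mem_image_of_mem _ v))
  have pb : ∀ {b}, b = e ∨ b = e' → b.pin := fun u => u.elim (· ▸ pe) (· ▸ pe')
  have h : (dt F' (c.support.image (cl e) ∪ c.support.image (cl e'))).OK P := by
    refine dt_ok hF' (fun q o => ?_) (fun l v q o t => ?_) fun q o a t l _ => ?_ <;>
      obtain ⟨b, p, u, u', rfl⟩ := ms o
    · exact u.elim (· ▸ (hc p u').2.2.1) (· ▸ (hc p u').2.2.2)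
    · have v' := not_pin hF' v
      have t : (l : Wl) ∈ p.2 := (mem_union.1 t).resolve_right fun t => (mem_insert.1 t).elim
        (fun t => v'.2.2.2 _ _ (congrArg Wl.b t)) fun t => v'.1 ((show l = b from congrArg Wl.b (mem_singleton.1 t)) ▸ pb u)
      have s := (((k.mem p u').2 _ t).resolve_left v'.1).1
      have := sm u (kfl_sf k.toSf l s p u' t)
      simp only [cl, hg.2 l s] at this
      exact this
    · refine (mem_union.1 t).elim (nin_sf hF k.toSf p u' a · _ _) fun t => (mem_insert.1 t).elim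
        (fun t => t ▸ nin l) fun t r => ?_
      have := pb u
      rwa [show b = _ from (congrArg Wl.b (mem_singleton.1 t)).symm.trans r] at this
  have h' : (dt F (c.support.image fun p => (p.1, insert ↑(Bs.rA x y) p.2))).OK P := by
    refine dt_ok hF (fun q o => ?_) (fun l v q o t => ?_) fun q o a t l _ => ?_ <;>
      obtain ⟨p, u, rfl⟩ := mem_image.1 o
    · exact (hc p u).1
    · exact mem_image_of_mem _ (kfl_sf k.toSf l v p u ((mem_insert.1 t).resolve_left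
        fun t => (not_pin hF v).2.2.2 _ _ (congrArg Wl.b t)))
    · exact (mem_insert.1 t).elim (fun t => t ▸ nin l) (nin_sf hF k.toSf p u a · _ _)
  have s : (dt F' (c.support.image (cl e) ∪ c.support.image (cl e'))).Sup (c.mp g id {↑e} + c.mp g id {↑e'}) := fun q u => (mem_add u).elim
    (fun u => let ⟨p, a, b⟩ := mem_mp u; ⟨_, sm (.inl rfl) a, b ▸ ⟨rfl, by
      rw [image_id]; exact union_subset_union_right (subset_insert _ _)⟩⟩)
    fun u => let ⟨p, a, b⟩ := mem_mp u; ⟨_, sm (.inr rfl) a, b ▸ ⟨rfl, by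
      rw [image_id]; exact union_subset_union_right (subset_insert _ _)⟩⟩
  have s' : (dt F (c.support.image fun p => (p.1, insert ↑(Bs.rA x y) p.2))).Sup c :=
    fun p u => ⟨_, mem_image_of_mem _ u, rfl, subset_insert _ _⟩
  have mA : ∀ {b p a}, b = e ∨ b = e' → p ∈ c.support → a ∈ (cl b p).2 → a ∈ (dt F' _).A :=
    fun u v t => (h.mem _ (sm u v)).2.1 t
  have q : Mp _ _ _ _ id id g id fun a a' => a = a' ∧ (a = Bs.rA x y ∨ a.Out x y ∧ a.b.Far (.rA x y)) :=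
    ⟨fun a u => ⟨?_, u, rfl, ?_⟩, Set.injOn_id _, Set.injOn_id _,
      fun n u => ⟨dtL_ind (Q := fun n => g n ∈ _) (fun q o => ?_)
        (fun l v n t => (hg.2 l v n).symm ▸ h.fl l (sub v) _ t) u, u⟩,
      fun n u n' v t => eq_of_rod (F := F) (h'.lok _ u) (h'.lok _ v) hs.rg'.lo hs.rg'.hi hr
        (fun j o => ((hg.1 n j).1 (by omega)).symm.trans
          ((congrArg (·.nl j) t).trans ((hg.1 n' j).1 (by omega))))
        fun j o => ((hg.1 n j).2 (by omega)).symm.trans ((congrArg (·.nr j) t).trans ((hg.1 n' j).2 (by omega))),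
      Set.injOn_id _, fun l u => ⟨h'.ls l u, rfl, rfl, sub u⟩,
      fun l u n v => ⟨h'.fl l u n v, hg.2 l u n, rfl, ?_⟩,
      fun b u => ⟨b, h'.fz b (hz ▸ u), rfl, rfl, hz ▸ u⟩⟩
  rotate_left
  · refine (mem_dtA.1 u).elim (fun ⟨q, o, t⟩ => ?_) fun u => mem_dtA.2 (.inr ⟨u.1, union_subset_union hz.ge sub u.2⟩)
    obtain ⟨p, v, rfl⟩ := mem_image.1 o
    exact mA (.inl rfl) v (mem_union.2 ((mem_insert.1 t).symm.imp_right fun t => mem_insert.2 (.inl t)))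
  · refine (mem_dtA.1 u).elim (fun ⟨q, o, t⟩ => ?_) fun u => .inr (out a u)
    obtain ⟨p, v, rfl⟩ := mem_image.1 o
    exact (mem_insert.1 t).imp_right fun t => ha a (mem_walls.2 ⟨p, v, t⟩)
  · obtain ⟨p, v, rfl⟩ := mem_image.1 o
    exact (h.mem _ (sm (.inl rfl) v)).1
  · have := ps l u
    rw [sgl, sgl, (hg.1 n _).1 (by omega)]
    rfl
  refine z_of H h h' s s' k' k (rf_ev H h h' q hs hz.ge hl hr hg fr' nin
    ((h'.mem _ (mem_image_of_mem _ z)).2.1 (mem_insert_self _ _)) (mA (.inl rfl) z (by simp [cl]))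
    (mA (.inr rfl) z (by simp [cl])) (fun q o a t => ?_) s s' k' k fun p u => ⟨⟨(hc p u).2.2.1, _, sm (.inl rfl) u,
      rfl, Subset.rfl⟩, ⟨(hc p u).2.2.2, _, sm (.inr rfl) u, rfl, Subset.rfl⟩, ?_, (hc p u).2.1⟩)
  · obtain ⟨b, p, u, v, rfl⟩ := ms o
    refine (mem_union.1 t).elim (fun t => .inr (.inr (.inr (ha a (mem_walls.2 ⟨p, v, t⟩))))) fun t =>
      (mem_insert.1 t).imp_right fun t => ?_
    rw [mem_singleton.1 t]
    exact u.elim (fun u => .inl (u ▸ rfl)) fun u => .inr (.inl (u ▸ rfl))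
  · rw [union_comm, ← insert_eq]
    exact ⟨(hc p u).1, _, mem_image_of_mem _ u, rfl, Subset.rfl⟩

/-- **the bridge** -/
theorem bridge (H : Lvs L T μ) : ∃ j, Ax0 P (wth T μ j) ∧ (wth T μ j).Fact P :=
  (nv H).imp fun _ k => ⟨⟨add H, fun _ _ _ => stk H, frz H, twi H, can H, rf H, k⟩, fact H⟩

theorem ax_of {W : WTh Γ} (h : Ax0 P W) (f : W.Fact P) : W.Ax P :=
  ⟨h.add, fun F d e a b c => h.stk F d e a b (fun p u => (c p u).1) ⟨sf_bd b, bd_bd e, fun q u => by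
      obtain ⟨p, v, a, t, rfl⟩ := mem_bd u
      exact (c p v).2 a t⟩, h.frz, h.twi, h.can,
    fun F F' x y e e' g d c a1 a2 a3 a4 a5 a6 a7 a8 => h.rf F F' x y e e' g d c a1 a2 a3 a4 a5 a6 a7
      fun p u => ⟨(a8 p u).1.1, (a8 p u).2.1, (a8 p u).2.2.1.1, (a8 p u).2.2.2.1⟩, f, h.nv⟩

end Crest.Agent.X212.Br55
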