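import Crest.Agent.X212.Br55.Geo
import Crest.Agent.X212.Pi52.Stmt

/-!
# Row 212, layer G (helper55): pieces on one side of a frozen wall, no flat connections next to `a`
-/

set_option autoImplicit false
set_option linter.unusedSectionVars false
noncomputable section
open Set Function Filter

namespace Crest.Agent.X212.Br55
open M G75 Wd38 Nm96 Cyl58 Br33
open Sid48 hiding chg
open Tm38 (Ref NfStmt)

section sys
variable {X A : Type} [TopologicalSpace X] [PreconnectedSpace X] [Nonempty X] [Fintype A] [DecidableEq A]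
  {S : Sys X A} {a x : A} {s : Bool} {e c : Finset A} {π π' : Reg A}

variable (S a s e c) in
/-- `c` are the walls of `e` on the side `s` of `a` -/
structure Spl : Prop where
  cell : S.Cell ↑(insert a e)
  mem : ∀ x, x ∈ c ↔ x ∈ e ∧ (S.w x).band ⊆ (S.w a).sd s

variable (S a s e π) in
/-- the pieces on the side `s` -/
def Pcs : Prop := S.Piece ↑(insert a e) π ∧ S.U π ⊆ (S.w a).sd s

theorem band_ns : ¬(S.w a).band ⊆ (S.w a).sd s := fun k =>
  let ⟨_, q⟩ := (S.w a).ne (!s); Wall.not_mem_sd _ (k q.1) q.2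

theorem up_some {b : Bool} : update π a none x = some b ↔ x ≠ a ∧ π x = some b := by
  by_cases n : x = a <;> simp [n]

theorem up_self (h : π a = none) : update π a none = π := update_eq_self_iff.2 h.symm

namespace Pcs
variable (p : Pcs S a s e π)
include p

theorem some (h : π a ≠ none) : π a = some s := by
  obtain ⟨b, q⟩ := Sys.mem_bd.1 h
  obtain ⟨z, v⟩ := p.1.toIsReg.nonempty
  rw [q, (S.w a).sd_inj (v a b q) (p.2 v)]

theorem U_eq : S.U π = S.U (update π a none) ∩ (S.w a).sd s :=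
  Subset.antisymm (subset_inter (fun _ v x b q => v x b (up_some.1 q).2) p.2) fun z v x b q => by
    by_cases n : x = a
    · subst n
      exact Option.some.inj ((p.some (Sys.mem_bd_of q)).symm.trans q) ▸ v.2
    · exact v.1 x b (up_some.2 ⟨n, q⟩)

theorem inn (n : x ≠ a) (cm : S.Cmp x a) :
    x ∈ S.inn π ↔ x ∈ S.inn (update π a none) ∧ (S.w x).band ⊆ (S.w a).sd s := by
  simp only [Sys.inn, mem_ofPred_eq, update_of_ne n, p.U_eq, subset_inter_iff]
  refine ⟨fun k => ⟨⟨k.1, k.2.1.1, fun y v => ?_⟩, k.2.1.2⟩, fun k => ⟨k.1.1, ⟨k.1.2.1, k.2⟩, fun y v => ?_⟩⟩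
  · obtain ⟨b, v⟩ := Sys.mem_bd.1 v
    exact k.2.2 y (Sys.mem_bd_of (up_some.1 v).2)
  · obtain ⟨b, v⟩ := Sys.mem_bd.1 v
    exact (eq_or_ne y a).elim (· ▸ cm) fun o => k.1.2.2 y (Sys.mem_bd_of (up_some.2 ⟨o, v⟩))

theorem adj : a ∈ S.inn (update π a none) ↔ π a ≠ none := by
  refine ⟨fun k h => p.1.not_inn a (by simp) (up_self h ▸ k), fun h => ⟨update_self .., fun z v x b q => ?_, fun x v => ?_⟩⟩
  · exact p.1.toIsReg.band_subset (up_some.1 q).1.symm (up_some.1 q).2 h v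
  · obtain ⟨b, v⟩ := Sys.mem_bd.1 v
    exact p.1.cell h (Sys.mem_bd_of (up_some.1 v).2) (up_some.1 v).1.symm

theorem inj (k : Spl S a s e c) (p' : Pcs S a s e π') (h : update π a none = update π' a none) : π = π' :=
  let ⟨_, v⟩ := p.1.toIsReg.nonempty
  p.1.unique k.cell p'.1 v (by rwa [p'.U_eq, ← h, ← p.U_eq])

end Pcs

namespace Spl
variable (k : Spl S a s e c)
include k

theorem ne (h : x ∈ c) : x ≠ a := fun n => band_ns (n ▸ ((k.mem x).1 h).2)

theorem sub : c ⊆ insert a e := fun x h => Finset.mem_insert_of_mem ((k.mem x).1 h).1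

theorem cell' : S.Cell ↑c := k.cell.mono k.sub

theorem piece (p : Pcs S a s e π) : S.Piece ↑c (update π a none) := by
  have m : (a : A) ∈ (↑(insert a e) : Set A) := by simp
  refine ⟨⟨p.1.cell.mono fun x v => ?_, fun x b q => (p.1.adj x b (up_some.1 q).2).trans
    (p.U_eq.le.trans inter_subset_left)⟩, fun x v => ?_, fun x v o => ?_⟩
  · obtain ⟨b, v⟩ := Sys.mem_bd.1 v
    exact Sys.mem_bd_of (up_some.1 v).2
  · obtain ⟨b, v⟩ := Sys.mem_bd.1 v
    obtain ⟨n, v⟩ := up_some.1 v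
    obtain ⟨z, o⟩ := (S.w x).ne b
    have := p.1.bd_subset (Sys.mem_bd_of v)
    exact (k.mem x).2 ⟨(Finset.mem_insert.1 this).resolve_left n,
      Wall.band_subset (k.cell m this n.symm) o.1 (p.2 (p.1.adj x b v o))⟩
  · exact p.1.not_inn x (k.sub v) ((p.inn (k.ne v) (k.cell (k.sub v) m (k.ne v))).2 ⟨o, ((k.mem x).1 v).2⟩)

theorem sum {g : Reg A → ℝ} {J : Finset (Reg A)} (hJ : ∀ π ∈ J, Pcs S a s e π)
    (h4 : ∀ ρ, S.Piece ↑c ρ → (∀ π ∈ J, update π a none ≠ ρ) → g ρ ≤ 4) :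
    ∑ ρ ∈ pcs S c, g ρ - 4 ≤ ∑ π ∈ J, g (update π a none) + 4 * ((c.card : ℝ) - J.card) := by
  classical
  have i : InjOn (fun π => update π a none) J := fun π u π' u' => (hJ π u).inj k (hJ π' u')
  have hs : J.image (fun π => update π a none) ⊆ pcs S c :=
    Finset.forall_mem_image.2 fun π u => mem_pcs.2 (k.piece (hJ π u))
  have h1 := Finset.card_sdiff_add_card_eq_card hs
  rw [card_pcs k.cell', Finset.card_image_of_injOn i] at h1
  have h2 := Finset.sum_le_card_nsmul (pcs S c \ J.image fun π => update π a none) g 4 fun ρ u =>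
    h4 ρ (mem_pcs.1 (Finset.mem_sdiff.1 u).1) fun π v o => (Finset.mem_sdiff.1 u).2 (o ▸ Finset.mem_image_of_mem _ v)
  rw [← Finset.sum_sdiff hs, Finset.sum_image i]
  have h3 : ((pcs S c \ J.image fun π => update π a none).card : ℝ) + J.card = c.card + 1 := by exact_mod_cast h1
  rw [nsmul_eq_mul] at h2
  linarith

end Spl

theorem sum_inn (hc : S.Cell ↑c) {G : Finset A} (h : ∀ x ∈ G, x ∉ c ∧ ∀ y ∈ c, S.Cmp x y) :
    ∑ ρ ∈ pcs S c, ((↑G ∩ S.inn ρ).ncard : ℝ) = G.card := by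
  classical
  have e : ∀ ρ, ((↑G ∩ S.inn ρ).ncard : ℝ) = ∑ x ∈ G, if x ∈ S.inn ρ then 1 else 0 := fun ρ => by
    rw [Finset.sum_boole, ← ncard_coe_finset, Finset.coe_filter]; rfl
  simp only [e]
  rw [Finset.sum_comm, Finset.card_eq_sum_ones, Nat.cast_sum, Nat.cast_one]
  exact Finset.sum_congr rfl fun x u => sum_unique (Sys.existsUnique_inn hc (h x u).1 (h x u).2) 1

end sys

variable {Γ : Nm} {κ lam : Type} [Fintype κ] [Fintype lam] [DecidableEq lam]
  {C : Cx Γ} {G : Tab C.kd κ} {P : Pm Γ} {L : LP C G P lam}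

theorem h1_head {w : Shp Γ} {hw : w.OK} {X : TP V4} (R : Rz C hw X) {x y : ℤ} (r : w.Rg x (y + 1)) (l : x < y)
    (hx : (w.s x).r.2.2 = 0) (hy : |(w.s y).r.2.2| = 1) (H : Type) [Group H] :
    Hz56.H1 H (X.τ ⁻¹' Ioo (x + 1 / 2) (y + 1 / 2)) := by
  have l' := cast_lt l
  have hy := (abs_eq zero_le_one).1 hy
  obtain ⟨b, hb⟩ := (hw.pr x r.lo (by have := r.hi; omega)).2
  have u : Rod53.Uni (w.s x).r.2 (w.s y).r.2 := by
    simp only [Rod53.Uni, Rod53.dt, hx, zero_mul, sub_zero, Int.mul_eq_one_iff_eq_one_or_neg_one,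
      Int.mul_eq_neg_one_iff_eq_one_or_neg_one] at hb ⊢
    omega
  refine (Hz56.tiso_h1_time (R.B r) (Ioo_subset_Ioo (by linarith) (by push_cast; linarith))).2
    (Hz56.h1_time (C.T _) Hz56.h1_S3 isOpen_Ioo (convex_Ioo _ _) u (x := x + 5 / 8) (y := y + 3 / 8)
      ⟨⟨by linarith, by linarith⟩, r.bw_r le_rfl (by omega) ▸ r.jr hw ⟨by linarith, by linarith⟩⟩
      ⟨⟨by linarith, by linarith⟩, r.bw_r l.le (by omega) ▸ r.jr hw ⟨by linarith, by linarith⟩⟩)

section nf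
variable {Y : Ref Γ} {T : TC} {R : ℕ} {D : Dt Γ} {h : D.OK P} {μ : ℤ × ℤ} {c : Nm96.Cn} (hY : Y.OK P)
  (k : T.OK P Y R D.F c) (q : TDt Y T c D) {a : D.A} (ha : a.1 = Bs.yS (Y.a + T.d)) {e : Finset D.A} {π : Reg D.A}
include hY k q

theorem y0 (i : D.L) : D.F.Y0 i.1 (Y.a + T.d) := by
  have := hY.lt
  have u := k.hd Y.a le_rfl (by omega)
  refine ⟨k.fz.1, u.1 ▸ hY.a.1, ?_⟩
  rw [(ln_agr k q i (.inl (by omega))).2, u.2.2 (by omega)]
  exact hY.a.2

omit hY q in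
theorem past_ls {b l : D.A} {z} (hb : b.1 = Bs.yS z) (hz : .yS z ∈ D.F.fz) (o : z ≤ Y.h + T.d) (u : IsL D.F.ls l.1) :
    ((sy G h).w b).sd false ⊆ ((sy G h).w l).sd true :=
  have := (C.rz h.h0.w).con
  have v := sub_of_sep (G := G) h (a := b) u (sep_fz h (by rw [hb]; exact hz) u.2)
  subset_union_left.trans (Wall.nest (X := (C.X h.h0.w).P.M) v.2
    ((sd_true h hb hz).2 (o.trans_lt (k.ls _ u.2).1)) v.1)

include ha

theorem nf_left (nf : NfStmt L) (i : D.L) (pin : ∀ x ∈ e, x.1.b.pin) (p : Pcs (sy G h) a false e π) (n : π a ≠ none)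
    {x : D.A} {s} (hx : update π a none x = some s) (f : x.1.b.side D.F.w.l ≠ s) :
    (L.scn h μ).Nf i a (insert a e) π := by
  have := (C.rz h.h0.w).con
  have := (L.scn h μ).M.con
  have l := hY.lt
  have pa := p.some n
  obtain ⟨xa, hx⟩ := up_some.1 hx
  have pn : ∀ {x s}, x ≠ a → π x = some s → x.1.b.pin := fun n u =>
    pin _ ((Finset.mem_insert.1 (p.1.bd_subset (Sys.mem_bd_of u))).resolve_left n)
  have lt := (sd_false h ha k.fz.1).1 (p.1.toIsReg.band_subset xa pa (Sys.mem_bd_of hx))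
  have le := le_hi h x
  have t0 : x.1.tw = [] := tw_nil (h := h) k q (.inl (by omega))
  have T' := tr G h (ts := []) (σ := {a, x}) (by rintro _ (rfl | rfl); exacts [utw_nil (by rw [ha]), utw_nil t0])
  have e1 := T'.eq_lo (.inr rfl) (.inl rfl) (p.1.toIsReg.band_subset xa.symm hx n)
    (by rw [ha]; exact ⟨(le.trans_lt lt).ne, lt.ne⟩)
  obtain rfl : true = s := (side_of_gt (by rw [ha]; exact lt.trans (Int.lt_succ _))).symm.trans e1
  have ok := (h.ad _ x.2).1.1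
  obtain ⟨u, e2⟩ : ∃ u, x.1 = Bs.sS u := by
    have := pn xa hx
    have o := (OK_lo ok).1
    rw [eq_of_isL (s := {x.1.b}) ⟨t0, Finset.mem_singleton_self _⟩]
    generalize x.1.b = b at this o f
    cases b with
    | sA u v => exact (f ((Nm96.side_arc (a := .sA u v) trivial).2 fun w => w.1.not_ge o)).elim
    | sS u => exact ⟨u, rfl⟩
    | _ => exact this.elim
  have s1 := (sl_time (G := G) (hw := h.h0.w) (hW := fun a : D.A => h.ad _ a.2) (.inr e2)).2.1
  have s2 := (sl_time (G := G) (hw := h.h0.w) (hW := fun a : D.A => h.ad _ a.2) (.inl ha)).1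
  have sub : (sy G h).U π ⊆ (C.X h.h0.w).τ ⁻¹' Ioo (u + 1 / 2) ((Y.a + T.d : ℤ) + 1 / 2) := fun z v =>
    ⟨s1.le (v x _ hx), s2.le (p.2 v)⟩
  refine nf h μ i a _ _ π false _ (okStmt L h μ) ha (y0 hY k q i) p.1 pa (Sys.isOpen_U _ π) p.1.toIsReg.conn
    (fun H _ => ?_) (p.1.adj a _ pa) subset_rfl fun l u => p.2.trans (past_ls k ha k.fz.1 (by omega) (mem_ls.1 u))
  rw [e2] at ok
  have := cast_le (show Y.a + T.d ≤ D.F.w.r from (OK_hi (h.ok.fz _ k.fz.1).1).2)
  refine inter_eq_left.2 sub ▸ Pi52.h1_cut p.1.toIsReg (isOpen_Ioo.preimage (C.X h.h0.w).cont)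
    (Pi52.h1_sS (C.rz h.h0.w) ok (by linarith) (by linarith) (by linarith))
    fun b t v => (eq_or_ne b a).elim (fun o => .inl ?_) fun o => .inr ?_
  · subst o
    exact Option.some.inj (pa.symm.trans v) ▸ fun z w => s2.ge w.2
  · rw [inter_eq_left.2 ((p.1.adj b t v).trans sub)]
    exact Pi52.h1_bn_half (C.rz h.h0.w) (h.ad _ b.2).1.1 (pn o v) t

theorem nf_right (nf : NfStmt L) (i : D.L) (sd : ∀ x ∈ e, Y.a + T.d < x.1.b.lo → Y.h + T.d < x.1.b.lo)
    (p : Pcs (sy G h) a true e π) (n : π a ≠ none) : (L.scn h μ).Nf i a (insert a e) π := by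
  have := (C.rz h.h0.w).con
  have l := hY.lt
  have pa := p.some n
  let b : D.A := ⟨_, h.fz _ k.fz.2.1⟩
  have s1 := (sl_time (G := G) (hw := h.h0.w) (hW := fun a : D.A => h.ad _ a.2) (.inl ha)).2.1
  have s2 := (sl_time (G := G) (hw := h.h0.w) (hW := fun a : D.A => h.ad _ a.2) (a := b) (.inl rfl)).1
  have r : D.F.w.Rg (Y.a + T.d) (Y.h + T.d + 1) := ⟨(h.ok.fz _ k.fz.1).1.1, by omega, (h.ok.fz _ k.fz.2.1).1.2,
    fun j u v => by
      have := (k.hd (j - T.d) (by omega) (by omega)).1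
      rw [sub_add_cancel] at this
      exact this ▸ hY.ah.fr _ (by omega) (by omega)⟩
  have ab : ((sy G h).w a).band ⊆ ((sy G h).w b).sd false :=
    (sd_false h rfl k.fz.2.1).2 (by rw [ha]; exact Int.add_lt_add_right l.1 _)
  refine nf h μ i a _ _ π true ((C.X h.h0.w).τ ⁻¹' Ioo ((Y.a + T.d : ℤ) + 1 / 2) ((Y.h + T.d : ℤ) + 1 / 2))
    (okStmt L h μ) ha (y0 hY k q i) p.1 pa (isOpen_Ioo.preimage (C.X h.h0.w).cont)
    (Pi52.pre_time (C.rz h.h0.w) r isOpen_Ioo isPreconnected_Ioo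
      (Ioo_subset_Ioo (by linarith) (by push_cast; linarith)))
    (h1_head (C.rz h.h0.w) r (by omega) ((k.hd _ le_rfl (by omega)).1 ▸ hY.a.1) ((k.hd _ l.1.le l.2.1.le).1 ▸ hY.h))
    (fun z v => ⟨s1.le v.2, s2.le (ab v.1)⟩) (fun z v x s u => ?_)
    fun l u z v => past_ls (h := h) k rfl k.fz.2.1 le_rfl (mem_ls.1 u) (s2.ge v.2)
  by_cases o : x = a
  · subst o
    exact Option.some.inj (pa.symm.trans u) ▸ s1.ge v.1
  have lt := sd x ((Finset.mem_insert.1 (p.1.bd_subset (Sys.mem_bd_of u))).resolve_left o)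
    ((sd_true h ha k.fz.1).1 (p.1.toIsReg.band_subset o pa (Sys.mem_bd_of u)))
  have c := (fz_side (G := G) h (a := b) (x := x) rfl k.fz.2.1 (by rintro rfl; exact lt_irrefl _ lt)).1
  obtain ⟨s', w⟩ := Wall.exists_side c.symm
  have m := Wall.nest (X := (C.X h.h0.w).P.M) c ((sd_true h rfl k.fz.2.1).2 lt) w
  obtain ⟨y, hy⟩ := ((sy G h).w a).ne true
  exact Wall.sd_inj _ (m (.inl (ab hy.1))) (p.1.toIsReg.band_subset (Ne.symm o) u n hy.1) ▸ m (.inl (s2.ge v.2))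

end nf

end Crest.Agent.X212.Br55
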