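import Crest.Agent.X212.Br55.Lf
import Crest.Agent.X212.Br55.Ax

/-!
# Row 212, layer G (helper55): the two halves of the bridge for terminal chains
-/

set_option autoImplicit false
set_option linter.unusedSectionVars false
noncomputable section
open Set Function Filter

namespace Crest.Agent.X212.Br55
open M G75 Wd38 Nm96 Cyl58
open Tm38 (Ref Fl)

variable {Γ : Nm} {κ lam : Type} [Fintype κ] [Fintype lam] [DecidableEq lam]
  {C : Cx Γ} {G : Tab C.kd κ} {P : Pm Γ} (L : LP C G P lam)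

/-- the cells and the lines of a terminal scene -/
structure TDt (Y : Ref Γ) (T : TC) (c : Nm96.Cn) (D : Dt Γ) : Prop where
  sup : D.Sup c
  s : ∀ p ∈ D.s, p ∈ c.support ∨ p = (T.n, {↑(Bs.sS (Y.s + T.d))})
  n : T.n ∈ D.L
  orb : ∀ n ∈ D.L, Relation.ReflTransGen (Fl D.F.ls) T.n n
  sA : ↑(Bs.sS (Y.s + T.d)) ∈ D.A

/-- the walls and the line of the scene are those of the word -/
structure TMt (Y : Ref Γ) (T : TC) {D : Dt Γ} (h : D.OK P) (μ : ℤ × ℤ) {y : YD κ lam}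
    (t : G75.TD y (L.scn h μ)) : Prop where
  a : t.a.1 = Bs.yS (Y.a + T.d)
  h' : t.h.1 = Bs.yS (Y.h + T.d)
  s : t.s.1 = Bs.sS (Y.s + T.d)
  b : t.b.1 = Bs.yS (Y.b + T.e)
  i : t.i₀.1 = T.n
  G : ∀ x, x ∈ t.G ↔ IsL T.G x.1

open Classical in
/-- `G75.TD.OK` without the numbers -/
structure OK0 {Lm : LM κ lam} {y : YD κ lam} {S : Scene Lm} (t : G75.TD y S) (c : G75.Cn S.L S.A) : Prop where
  fz : t.a ∈ S.fz ∧ t.h ∈ S.fz ∧ t.b ∈ S.fz ∧ t.G ⊆ S.fz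
  G : ∀ x ∈ t.G, (S.M.sys.w x).band ⊆ (S.M.sys.w t.h).sd true
  ord : (S.M.sys.w t.b).band ⊆ (S.M.sys.w t.s).sd true ∧ (S.M.sys.w t.s).band ⊆ (S.M.sys.w t.b).sd false
  side : ∀ i σ, c i σ ≠ 0 → ∀ x ∈ σ ∪ S.fz, x = t.a ∨ x = t.h ∨ t.Sd false x ∨
    (S.M.sys.w x).band ⊆ (S.M.sys.w t.h).sd true
  ls : ∀ l ∈ S.ls, hf S.M l false ⊆ (S.M.sys.w t.h).sd true ∩ (S.M.sys.w t.b).sd false
  orb : ∀ i i', c i ≠ 0 → c i' ≠ 0 → Relation.ReflTransGen (fun i i' => ∃ l ∈ S.ls, i' = S.fl l i) i i'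
  exc : ∀ i σ i' σ', c i σ ≠ 0 → c i' σ' ≠ 0 → c i' (t.sd false σ ∪ t.sd true σ') ≠ 0
  left : ∀ i, LId (S.N t.i₀) (S.N i)
    (selfId S.M (.subtype fun x => (S.M.sys.w x).band ⊆ hf S.M t.h false)) (hf S.M t.h false) (t.wL i)
  hf0 : ⇑t.IH.f = ![y.a, y.h, y.s] ∧ ⇑t.IH.f' = ![t.a, t.h, t.s]
  him : t.IH.ψ '' (hf y.M y.a true ∩ hf y.M y.s false) = hf S.M t.a true ∩ hf S.M t.s false
  hl : LId y.N (S.N t.i₀) t.IH (hf y.M y.a true ∩ hf y.M y.s false) t.wH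
  tf0 : t.IT.f t.b₀ = y.b ∧ t.IT.f' t.b₀ = t.b
  tim : t.IT.ψ '' hf y.M y.b true = hf S.M t.b true
  tl : ∀ i, c i ≠ 0 → LId y.N (S.N i) t.IT (hf y.M y.b true) (t.wT i)
  tw : ∀ i σ, c i σ ≠ 0 → ∀ x ∈ σ ∪ S.fz, (S.M.sys.w x).band ⊆ (S.M.sys.w t.b).sd true →
    x ∈ range t.IT.f'

/-- TM-GEO: the head, the tail and the left part -/
def GeoStmt (μ : ℕ → ℤ × ℤ) : Prop := ∀ Y : Ref Γ, Y.OK P → ∃ y : YD κ lam, y.OK ∧ y.C = Y.C ∧
  ∀ R d c (T : TC) {D : Dt Γ} (h : D.OK P) k, T.OK P Y R D.F c → D.F.Cl P d c → TDt Y T c D →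
    ∃ t : G75.TD y (L.scn h (μ k)), TMt L Y T h (μ k) t ∧ OK0 t (L.ch h (μ k) c)

/-- TM-NUM: the numbers -/
def TnStmt (μ : ℕ → ℤ × ℤ) : Prop := ∀ (Y : Ref Γ) R d c (T : TC) {D : Dt Γ} (h : D.OK P), Y.OK P →
  T.OK P Y R D.F c → D.F.Cl P d c → TDt Y T c D → ∀ᶠ k in atTop, ∀ (y : YD κ lam) (t : G75.TD y (L.scn h (μ k))),
    y.C = Y.C → TMt L Y T h (μ k) t → OK0 t (L.ch h (μ k) c) → ∃ β sg l2,
      (L.scn h (μ k)).Nb t.i₀ (((L.scn h (μ k)).M.sys.w t.s).sd false) β sg l2 ∧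
      ∀ i σ, L.ch h (μ k) c i σ ≠ 0 → ∀ e ⊆ σ, (∀ a ∈ e, (L.scn h (μ k)).M.pin a) →
        Tm38.Nums { t with β₀ := β, s₀ := sg, l₀ := l2 } R i σ e

theorem exists_tdt {Y : Ref Γ} {T : TC} {R d : ℕ} {F : Fm Γ} {c : Nm96.Cn} (k : T.OK P Y R F c) (g : F.Cl P d c)
    (c0 : c ≠ 0) : ∃ D : Dt Γ, D.OK P ∧ D.F = F ∧ TDt Y T c D := by
  classical
  have key : ∀ s : Finset (Wd38.Wt × Finset Wl), c.support ⊆ s →
      (∀ p ∈ s, p ∈ c.support ∨ p = (T.n, {↑(Bs.sS (Y.s + T.d))}) ∧ F.GC P p.1 p.2) →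
      (∃ p ∈ s, ↑(Bs.sS (Y.s + T.d)) ∈ p.2) → ∃ D : Dt Γ, D.OK P ∧ D.F = F ∧ TDt Y T c D := fun s a b e => by
    have h := dt_ok k.ok (fun p q => (b p q).elim (g.gd p) And.right)
      (fun l u p q v => (b p q).elim (fun q => a (kfl_sf g.toSf l u p q v)) fun q => by
        obtain ⟨x, rfl, -⟩ := k.ok.ls l u
        rw [q.1] at v
        cases Finset.mem_singleton.1 v)
      fun p q x v _ _ => (b p q).elim (fun q => nin_sf k.ok g.toSf p q x v _ _) fun q => by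
        rw [q.1] at v
        rw [Finset.mem_singleton.1 v]; nofun
    refine ⟨_, h, rfl, fun p q => ⟨p, a q, rfl, subset_rfl⟩, fun p q => (b p q).imp_right And.left, ?_,
      fun n => dtL_ind (fun p q => (b p q).elim (k.orb p) fun q => q.1 ▸ .refl) fun l u n v => v.tail ⟨l, u, rfl⟩,
      mem_dtA.2 (.inl e)⟩
    obtain ⟨p, q⟩ := Finsupp.support_nonempty_iff.2 c0
    have m := mem_dtL (F := F) (a q)
    have r := k.orb p q
    generalize p.1 = n at m r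
    induction r with
    | refl => exact m
    | tail _ v ih =>
      obtain ⟨l, u, rfl⟩ := v
      exact ih ((congrArg (· ∈ _) (fl_fl l _)).mp (h.fl l u _ m))
  rcases k.s with s | s
  · obtain ⟨p, q, v⟩ := Nm96.Cn.mem_walls.1 s
    exact key _ subset_rfl (fun _ => .inl) ⟨p, q, v⟩
  · exact key (insert (T.n, {↑(Bs.sS (Y.s + T.d))}) c.support) (Finset.subset_insert _ _)
      (fun p q => (Finset.mem_insert.1 q).symm.imp_right fun q => ⟨q, q ▸ s⟩)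
      ⟨_, Finset.mem_insert_self _ _, Finset.mem_singleton_self _⟩

variable {L}

/-- **BR-TM** from the two halves -/
theorem tcStmt {μ : ℕ → ℤ × ℤ} (geo : GeoStmt L μ) (num : TnStmt L μ) : TcStmt L μ := fun Y hY =>
  (geo Y hY).imp fun y ⟨h0, hC, H⟩ R F d c T k g c0 => by
    obtain ⟨D, h, rfl, q⟩ := exists_tdt k g c0
    refine ⟨D, h, rfl, q.sup, (num Y R d c T h hY k g q).mono fun j N => ⟨h0, ?_⟩⟩
    obtain ⟨t, m, o⟩ := H R d c T h j k g q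
    obtain ⟨β, sg, l2, n, N⟩ := N y t hC m o
    exact ⟨{ t with β₀ := β, s₀ := sg, l₀ := l2 }, ⟨o.fz, o.G, o.ord, o.side, o.ls, o.orb, o.exc, o.left, o.hf0, o.him, o.hl,
      o.tf0, o.tim, o.tl, o.tw, n, fun i σ a e b f => (N i σ a e b f).nl, fun i σ a e b f => (N i σ a e b f).nr,
      fun i σ a e b f => (N i σ a e b f).ns⟩, fun i σ a e b f => (N i σ a e b f).na⟩

theorem factC {T : Th L.Lm} {μ : ℕ → ℤ × ℤ} {j : ℕ → ℕ} (H : Lvs L T μ) (tc : TcStmt L μ)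
    (f : ∀ y : YD κ lam, ∃ R, ∀ F d c, (∃ (D : Dt Γ) (h : D.OK P), D.F = F ∧ D.Sup c ∧ ∀ᶠ k in hyperfilter ℕ,
      G75.Tm y R (L.scn h (μ k)) (L.ch h (μ k) c)) → F.Cl P d c → (wth T μ j).Z F d c = 0) :
    FactC P (wth T μ j) := fun Y hY =>
  let ⟨y, k⟩ := tc Y hY
  (f y).imp fun R f F d c t a b => (eq_or_ne c 0).elim (fun e => e ▸ z_zero H F d) fun e =>
    f F d c ((k R F d c t a b e).imp fun _ => .imp fun _ q => ⟨q.1, q.2.1, ev_hf q.2.2⟩) b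

end Crest.Agent.X212.Br55
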