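import Crest.Agent.X212.Br55.Nr
import Crest.Agent.X212.Tm38.N0
import Crest.Agent.X212.Mv27.Tw

/-!
# Row 212, layer G (helper55): finite rank for words (BR-TM)
-/

set_option autoImplicit false
noncomputable section
open Filter

namespace Crest.Agent.X212.Br55
open M G75 Wd38 Nm96 Tm38

variable {Γ : Nm} {κ lam : Type} [Fintype κ] [Fintype lam] [DecidableEq lam]
  {C : Cx Γ} {G : Tab C.kd κ} {P : Pm Γ} {L : LP C G P lam}

/-- **BR-TM** -/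
theorem tmW {μ : ℕ → ℤ × ℤ} (Hn : Mv27.Nat L) (nM : NbM L.L lam)
    (nL : ∃ m, (∀ k, (μ k).2 = m) ∧ NbL L.L lam P.M m ∧ NbH L.L lam P.M m) (nF : NbF L.L lam μ) (ab : AbS L) (hg : HgS L)
    (lb : LbG L) (nr : NrStmt L) (nf : NfStmt L) (zh : ZhsStmt C) (qh : QhsStmt C) {T : Th L.Lm} {j : ℕ → ℕ}
    (H : Lvs L T μ) (f : ∀ y : YD κ lam, ∃ R, ∀ F d c, (∃ (D : Dt Γ) (h : D.OK P), D.F = F ∧ D.Sup c ∧
      ∀ᶠ k in hyperfilter ℕ, G75.Tm y R (L.scn h (μ k)) (L.ch h (μ k) c)) → F.Cl P d c → (wth T μ j).Z F d c = 0) :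
    FactW P (wth T μ j) :=
  let ⟨_, hμ, nL, nH⟩ := nL
  factW (factC H (tcStmt (geo Hn hμ nr zh qh) (tn ⟨hμ, Mv27.twStmt Hn, nM, nL, nH, nF, ab, hg, lb, nf⟩)) f)

end Crest.Agent.X212.Br55
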