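import Crest.Agent.X212.Br55.Tg
import Crest.Agent.X212.Mv27.Sur

/-!
# Row 212, layer G (helper55): slices as times, windows of words as identifications of marked lines
-/

set_option autoImplicit false
set_option linter.unusedSectionVars false
noncomputable section
open Set Function Filter
open scoped ContDiff Manifold

namespace Crest.Agent.X212.Br55
open M G75 Wd38 Nm96 Cyl58 Line51
open Tm38 (Cpy)

variable {Γ : Nm} {κ lam : Type} [Fintype κ] [Fintype lam] [DecidableEq lam]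
  {C : Cx Γ} {G : Tab C.kd κ} {w w' : Shp Γ} {ls ls' : Finset Bs} {x y d : ℤ}

section sl
variable {hw : w.OK} {A : Type} {W : A → Wl} {hW : ∀ a, Ad w ls (W a)} {a : A}

/-- the wall is the slice in the slot `x` -/
def IsS (a : Wl) (x : ℤ) : Prop := a = Bs.yS x ∨ a = Bs.sS x

theorem sl_time (e : IsS (W a) x) :
    ((mrk G hw W hW).sys.w a).sd false = (C.X hw).τ ⁻¹' Iio (x + 1 / 2) ∧
    ((mrk G hw W hW).sys.w a).sd true = (C.X hw).τ ⁻¹' Ioi (x + 1 / 2) ∧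
    hf (mrk G hw W hW) a false = (C.X hw).τ ⁻¹' Iio (x + 3 / 4) ∧
    hf (mrk G hw W hW) a true = (C.X hw).τ ⁻¹' Ioi (x + 1 / 4) := by
  have T : Sid48.Trc (C.rz hw) (mrk G hw W hW).sys ((C.rz hw).tws []) (fun a => (W a).b) {a} :=
    Sid48.trc_mark _ G _ _ fun _ k => k ▸ Sid48.utw_nil (by rcases e with e | e <;> rw [e])
  have k : (C.rz hw).Z (W a).b = ((C.X hw).τ ⁻¹' ·) ∧ (W a).b.r0 = x + 1 / 2 := by
    rcases e with e | e <;> rw [e] <;> exact ⟨rfl, rfl⟩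
  refine ⟨Set.ext fun z => (T.sd a rfl false z).trans ?_, Set.ext fun z => (T.sd a rfl true z).trans ?_,
    Set.ext fun z => (T.hf_false rfl (z := z)).trans ?_, Set.ext fun z => (T.hf_true rfl (z := z)).trans ?_⟩ <;>
    simp only [Sid48.sd, cond_true, cond_false, k.1, k.2, mem_preimage, mem_compl_iff, mem_Iio, mem_Ioi, mem_Iic, not_le]
  · constructor <;> intro <;> linarith
  · constructor <;> intro <;> linarith

theorem band_II (e : (W a).In x y) : ((mrk G hw W hW).sys.w a).band ⊆ (C.X hw).τ ⁻¹' II x y :=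
  ((C.rz hw).range_bn _ (hW a).1.1).le.trans ((C.rz hw).bW_II e)

theorem in_nil {a : Wl} (e : a.tw = []) : a.In a.b.lo a.b.hi := ⟨le_rfl, le_rfl, by simp [e]⟩

/-- a wall right of a slice -/
theorem band_gt {b : A} {x' : ℤ} (e : IsS (W a) x) (k : (W b).In x' y) (l : x < x') :
    ((mrk G hw W hW).sys.w b).band ⊆ ((mrk G hw W hW).sys.w a).sd true ∧
      Disjoint ((mrk G hw W hW).sys.w b).band (hf (mrk G hw W hW) a false) := by
  rw [(sl_time e).2.1, (sl_time e).2.2.1]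
  have := Sid48.cast_lt l
  exact ⟨fun z q => show (x : ℝ) + 1 / 2 < (C.X hw).τ z by linarith [(band_II k q).1],
    disjoint_left.2 fun z q (v : (C.X hw).τ z < x + 3 / 4) => by linarith [(band_II k q).1]⟩

/-- a wall left of a slice -/
theorem band_lt {b : A} {x' : ℤ} (e : IsS (W a) x) (k : (W b).In x' y) (l : y < x) :
    ((mrk G hw W hW).sys.w b).band ⊆ ((mrk G hw W hW).sys.w a).sd false ∧
      Disjoint ((mrk G hw W hW).sys.w b).band (hf (mrk G hw W hW) a true) := by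
  rw [(sl_time e).1, (sl_time e).2.2.2]
  have := Sid48.cast_lt l
  exact ⟨fun z q => show (C.X hw).τ z < x + 1 / 2 by linarith [(band_II k q).2],
    disjoint_left.2 fun z q (v : (x : ℝ) + 1 / 4 < (C.X hw).τ z) => by linarith [(band_II k q).2]⟩

end sl

theorem mt_sh {b : Bs} (h1 : x ≤ b.lo) (h2 : b.hi ≤ y) (h3 : b.lo < y) (e : w'.s (b.lo + d) = w.s b.lo)
    (e' : w'.s (b.hi + d) = w.s b.hi) : (b : Wl).Mt w w' d x y := by
  refine ⟨?_, nofun⟩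
  cases b
  iterate 3 exact ⟨h1, h2, congrArg Sl.r e, congrArg Sl.l e'⟩
  all_goals exact ⟨h1, h3, congrArg Sl.r e⟩

theorem img_cm {hw : w.OK} {hw' : w'.OK} {X X' : TP V4} {R : Rz C hw X} {R' : Rz C hw' X'} {eL eR : Prop} {ψ}
    (H : Hc w w' d x y eL eR) (c : Cm R R' d x y eL eR ψ) {J J' : Set ℝ} (e : ∀ t : ℝ, t + d ∈ J' ↔ t ∈ J)
    (s : X.τ ⁻¹' J ⊆ ψ.source) (s' : X'.τ ⁻¹' J' ⊆ ψ.target) : ψ '' (X.τ ⁻¹' J) = X'.τ ⁻¹' J' := by
  refine Subset.antisymm ?_ fun z k => ⟨_, (e _).1 ?_, ψ.right_inv (s' k)⟩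
  · rintro _ ⟨z, k, rfl⟩
    exact mem_preimage.2 (((c.rl z (s k)).time H).symm ▸ (e _).2 k)
  · rw [← (c.rl _ (ψ.map_target (s' k))).time H]
    exact (congrArg (X'.τ · ∈ J') (ψ.right_inv (s' k))).mpr k

variable {P : Pm Γ} {L : LP C G P lam}

theorem lid_rs (H : Mv27.Nat L) (h : (f0 w ls).OK P) (h' : (f0 w' ls').OK P) {n n' μ μ'} (hn : (f0 w ls).LOK P n)
    (hn' : (f0 w' ls').LOK P n') {B B' B₀ : Type} {W : B → Wl} {hW : ∀ a, Ad w ls (W a)} {W' : B' → Wl}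
    {hW' : ∀ a, Ad w' ls' (W' a)} (I : MId (mrk G h.w W hW) (mrk G h'.w W' hW') B₀)
    (E : ∀ a, (W (I.f a)).b.ty w = (W' (I.f' a)).b.ty w') (hg : ∀ a, I.g a = cY C.kd (E a)) {eL eR : Prop} {A V}
    (c : Lc (C.rz h.w) (C.rz h'.w) d x y I.ψ) (g : Ga w w' (cp n μ) (cp n' μ') d x y A)
    (K : Cs (cp n μ) (cp n' μ') (C.rz h.w) (C.rz h'.w) eL eR I.ψ) (o : IsOpen V) (s : V ⊆ I.ψ.source)
    (v : V ⊆ Vg (C.rz h.w) A x y eL eR)
    (k : ∀ a, W' (I.f' a) = (W (I.f a)).sh d ∧ (W (I.f a)).Mt w w' d x y ∧ WA A (W (I.f a))) :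
    ∃ u, LId (rs (L.N h hn μ) W hW) (rs (L.N h' hn' μ') W' hW') I V u := by
  obtain ⟨Z, hZ⟩ := H.isN
  obtain ⟨u, m⟩ := exists_gm (L.W h hn μ) (L.W h' hn' μ') c g K
  have p := GM.cp c g s (m.mono v inter_subset_right)
  have i := hZ h hn μ
  have i' := hZ h' hn' μ'
  exact ⟨u, lid (V := Z) (N := rs (L.N h hn μ) W hW) (N' := rs (L.N h' hn' μ') W' hW')
    ⟨i.p, fun a => i.LY ⟨_, hW a⟩, fun a => i.m ⟨_, hW a⟩⟩ ⟨i'.p, fun a => i'.LY ⟨_, hW' a⟩, fun a => i'.m ⟨_, hW' a⟩⟩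
    I E hg o s p.uni fun a => ⟨d, x, y, A, c, g, (k a).1, (k a).2.1, (k a).2.2, p⟩⟩

variable (h : (f0 w ls).OK P) (h' : (f0 w' ls').OK P) {B B' B₀ : Type} {W : B → Wl} (hW : ∀ a, Ad w ls (W a))
  {W' : B' → Wl} (hW' : ∀ a, Ad w' ls' (W' a)) (f : B₀ ↪ B) (f' : B₀ ↪ B')

/-- **a window**, with the right cap if `y = r` -/
theorem exists_win (H : Mv27.Nat L) {z : ℤ} {eR : Prop} (h1 : w.l ≤ x) (h2 : x < z) (h3 : w'.l ≤ x + d)
    (e : ∀ j, x ≤ j → j ≤ z → w'.s (j + d) = w.s j)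
    (r : (eR ∧ y = z ∧ z = w.r ∧ w'.r = w.r + d) ∨
      (¬eR ∧ y = z + 1 ∧ z < w.r ∧ z + d < w'.r ∧ ∃ τ, w.s (z + 1) = .rod τ))
    (k : ∀ a, ∃ b : Bs, W (f a) = b ∧ W' (f' a) = b.sh d ∧ x ≤ b.lo ∧ b.lo ≤ b.hi ∧ b.hi ≤ z ∧ b.lo < y) :
    ∃ I : MId (mrk G h.w W hW) (mrk G h'.w W' hW') B₀, I.f = f ∧ I.f' = f' ∧
      I.ψ '' ((C.X h.w).τ ⁻¹' {t | x + 1 / 4 < t ∧ (eR ∨ t < z + 3 / 4)}) =
        (C.X h'.w).τ ⁻¹' {t | (x + d : ℤ) + 1 / 4 < t ∧ (eR ∨ t < (z + d : ℤ) + 3 / 4)} ∧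
      ∀ {n n' μ μ'} (hn : (f0 w ls).LOK P n) (hn' : (f0 w' ls').LOK P n'), Cpy w w' n n' d x z →
        (eR → μ'.2 = μ.2) → ∃ u, LId (rs (L.N h hn μ) W hW) (rs (L.N h' hn' μ') W' hW') I
          ((C.X h.w).τ ⁻¹' {t | x + 1 / 4 < t ∧ (eR ∨ t < z + 3 / 4)}) u := by
  have zy : z ≤ y ∧ y ≤ z + 1 ∧ y ≤ w.r ∧ y + d ≤ w'.r := by omega
  have Hc : Hc w w' d x y False eR := ⟨⟨h3, zy.2.2.2, h1, zy.2.2.1, fun j p q => by
    rw [Shp.kn, e j p (by omega)]; rfl, fun j J p q => by rw [e j p.le (by omega)]⟩, False.elim, fun q => by tauto⟩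
  obtain ⟨ψ, c⟩ := exists_cm (R := C.rz h.w) (R' := C.rz h'.w) Hc
  have g : w.Agr w' d x z := ⟨congrArg _ (e x le_rfl h2.le), fun j p q => e j p.le q.le, congrArg _ (e z h2.le le_rfl)⟩
  have m : ∀ a, W' (f' a) = (W (f a)).sh d ∧ (W (f a)).Mt w w' d x y ∧ WA (Icc x z) (W (f a)) := fun a => by
    obtain ⟨b, e1, e2, p, q, s, t⟩ := k a
    rw [e1, e2]
    exact ⟨rfl, mt_sh p (by omega) t (e _ p (by omega)) (e _ (by omega) s), ⟨p, q.trans s⟩, ⟨p.trans q, s⟩, nofun⟩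
  have cs : ∀ {x z r : ℤ} {t : ℝ}, (eR → z = r) → (x : ℝ) + 1 / 4 < t ∧ (eR ∨ t < (z : ℝ) + 3 / 4) →
      t ∈ II x z ∨ eR ∧ (r : ℝ) + 1 / 4 < t := fun {x z r t} e q => by
    by_cases v : t < z + 3 / 4
    · exact .inl ⟨q.1, v⟩
    · have := q.2.resolve_right v
      exact .inr ⟨this, by rw [← e this]; linarith⟩
  have s : (C.X h.w).τ ⁻¹' {t | x + 1 / 4 < t ∧ (eR ∨ t < z + 3 / 4)} ⊆ ψ.source := fun p q =>
    (cs (r := w.r) (by tauto) q).elim (c.II_all g h2 le_rfl zy.1 ·) fun q => c.sR q.1 _ q.2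
  refine ⟨mid _ _ G _ _ ψ f f' c.pos fun a => ⟨d, x, y, c.toLc, (m a).2.1, (m a).1⟩, rfl, rfl,
    img_cm Hc c (fun t => ?_) s fun p q => (cs (r := w'.r) (fun v => by rcases r with r | r; omega; exact (r.1 v).elim) q).elim
      ((c.symm Hc).II_all g.symm (by omega) le_rfl (by omega) ·) fun q => c.tR q.1 _ q.2,
    fun hn hn' p q => lid_rs H h h' hn hn' _ (fun a => (m a).1 ▸ (m a).2.1.1.ty) (fun _ => rfl) (A := Icc x z) c.toLc
      ⟨by omega, fun j v => ?_, fun j J a b v => ⟨a, by_contra fun o => ?_⟩⟩ (cs_cm Hc c False.elim q)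
      (((isOpen_lt continuous_const continuous_id).and
        (isOpen_const.union (isOpen_lt continuous_id continuous_const))).preimage (C.X h.w).cont) s
      (fun p q => (cs (r := w.r) (by tauto) q).elim
        (fun q => .inl (.inl ⟨II_mono le_rfl zy.1 q, .inr (mem_TA (fun _ a b => ⟨a, b⟩) q)⟩)) .inr) m⟩
  · simp only [mem_ofPred_eq]
    push_cast
    exact and_congr ⟨fun _ => by linarith, fun _ => by linarith⟩ (or_congr_right ⟨fun _ => by linarith, fun _ => by linarith⟩)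
  · have := p j v.1 v.2
    exact ⟨fun a => ⟨congrArg _ this.1, this.2.2 (by omega)⟩, fun _ => ⟨congrArg _ this.1, this.2.1⟩⟩
  · obtain r | ⟨-, -, -, -, r⟩ := r
    · omega
    · exact Shp.rod_iff.1 r J ((show j = z + 1 by omega) ▸ v)

/-- two lines that agree on the left -/
theorem exists_left (H : Mv27.Nat L) {n n' μ} (hn : (f0 w ls).LOK P n) (hn' : (f0 w ls).LOK P n') [Fintype B]
    [Fintype B₀] (h1 : w.l ≤ x) (h2 : x < w.r) (e : ∀ j ≤ x + 1, n'.nl j = n.nl j ∧ n'.nr j = n.nr j)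
    (k : ∀ a, (W (f a)).tw = [] ∧ (W (f a)).b.hi ≤ x) : ∃ u, LId (rs (L.N h hn μ) W hW) (rs (L.N h hn' μ) W hW)
      (selfId (mrk G h.w W hW) f) ((C.X h.w).τ ⁻¹' Iio (x + 3 / 4)) u :=
  lid_rs (eL := True) (eR := False) (d := 0) (x := w.l) (y := x + 1) H h h hn hn' _ (fun _ => rfl) (fun _ => rfl)
    (lc_refl le_rfl h2) (ga_agr (by omega) agr_refl
      ⟨fun j _ q => by rw [add_zero]; exact (e j q.le).2, fun j _ q => by rw [add_zero]; exact (e j q).1⟩)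
    (cs_refl rfl rfl) (isOpen_Iio.preimage (C.X h.w).cont) (subset_univ _)
    (fun p q => (lt_or_ge ((C.X h.w).τ p) (w.l + 3 / 4)).elim (fun v => .inl (.inr ⟨trivial, v⟩)) fun v =>
      have q' : (C.X h.w).τ p < x + 3 / 4 := q
      have t : (C.X h.w).τ p ∈ II w.l (x + 1) := ⟨by linarith, by push_cast; linarith⟩
      .inl (.inl ⟨t, .inr (mem_TA (fun _ a b => ⟨a, b⟩) t)⟩))
    fun a => by
      have o := (hW (f a)).1
      have := Sid48.OK_lo o.1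
      have := Sid48.OK_hi o.1
      have := (k a).2
      have t : WA (Icc w.l (x + 1)) (W (f a)) := ⟨⟨by omega, by omega⟩, ⟨by omega, by omega⟩, by simp [(k a).1]⟩
      have m : (W (f a)).Mt w w 0 w.l (x + 1) := Mv27.mt_of o (fun _ _ => rfl) t (by omega) (by omega) (by omega)
        (by simp [(k a).1])
      exact ⟨(Wl.sh_zero _).symm, m, t⟩

end Crest.Agent.X212.Br55
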